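import Crest.Agent.X212.Lns95.Lf
import Crest.Agent.X212.Dead36.Gen

/-! X212 / LN-UNI (helper25): the row of a lens cut at the abelian points of level `1/4`. -/

set_option autoImplicit false
set_option linter.unusedSectionVars false
noncomputable section
open scoped Manifold ContDiff Topology Real
open Set Function Filter MeasureTheory
open Crest.Agent.R208.F (Ext)

namespace Crest.Agent.X212.Sm25
open An Nd18 Num57 Cyf70 Qab60 Hol14 Lns95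
open M (Mf)
open Abel74 (fm)
open Dfl49 (PI)
open Eqv71 (KT CR0 LM mc_W mc_adW)
open Cht98 (Agr)
open Cnt93 (Rh rel_refl eqv_iff eqv_symm eqv_trans)

variable {E : Type} [NormedAddCommGroup E] [NormedSpace ℝ E] [FiniteDimensional ℝ E]
  [MeasurableSpace E] [BorelSpace E]
  {HM : Type} [TopologicalSpace HM] {I : ModelWithCorners ℝ E HM} [I.Boundaryless]
  {M : Type} [TopologicalSpace M] [ChartedSpace HM M] [IsManifold I ∞ M] [T2Space M]
  [MeasurableSpace M] [BorelSpace M] [SecondCountableTopology M] {lam : Type} [Fintype lam]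

section gauge
variable {ι : Type} [Fintype ι] {B : Base M ι lam} {G G' : Geo I M ι lam} {Ω Ω' : Set M} {r : ℕ}
  {c c' c'' : Cfg M ι lam r} {ξ : M → c.m.A} {ξ' : M → c'.m.A} {ξ'' : M → c''.m.A}
  {u : M → CL c.m.V c'.m.V} {k : Cut M lam}

theorem kt_agr (hB : B.OK I) (hG : G.OK B) (hG' : G'.OK B) (h : Agr G G' Ω) (hΩ : IsClosed Ω)
    (t : ∃ C, G.F.Tame C) (t' : ∃ C, G'.F.Tame C) :
    KT B G B G' Ω Ω id id (fun x b a => B.P b a x) B.l :=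
  have k := Eqv71.lg_refl hB hG h.op
  Eqv71.kt_of ⟨{ k with
    hG' := hG'
    rot := { k.rot with fr := fun b x hx => (h.e x hx b).trans (k.rot.fr b x hx) }
    par := fun x hx a => by
      rw [← k.par x hx a]
      simp only [Eqv71.pb, id, h.a x hx] }, Eqv71.inv_refl h.op,
    Measure.map_id.trans (h.μ hG.vol hG'.vol).symm⟩ hΩ hΩ t t'

theorem pi_agr (h : Agr G G' Ω) (p : PI G.F c c' Ω u) : PI G'.F c c' Ω u :=
  ⟨p.iso, fun x hx a => by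
    have := p.par x hx a
    rwa [Pre.D_def, Sob92.dv, ← h.e x hx] at this⟩

theorem sl_agr (h : Agr G G' Ω) (hG : G.OK B) (hG' : G'.OK B) (o : OK G.F B.o) (o' : OK G'.F B.o)
    {f : M → Ext E} (s : Sl B G Ω f) : Sl B G' Ω f := by
  have z : ∀ F : Fr I M ι, ∀ x ∉ Ω, Qab60.c2 F f x = 0 := fun F x hx => c2_of_zero (s.cz.off x hx)
  have e : Qab60.c2 G'.F f = Qab60.c2 G.F f := funext fun x => by
    by_cases hx : x ∈ Ω
    · simp only [Qab60.c2, k2, ee, h.e x hx]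
    · rw [z _ x hx, z _ x hx]
  refine ⟨s.cz, fun x hx => by rw [e, ← s.asd x hx, hs, hs, hG.P, hG'.P], ?_, ?_⟩
  · rw [Sq, e, ← indicator_eq_self.2 fun x hx => by_contra fun k => hx (z G.F x k),
      memLp_indicator_iff_restrict h.op.measurableSet, h.μ hG.vol hG'.vol]
    exact s.sq.restrict Ω
  · rw [← s.lev, integ_mul o' s.cz.fo.dg, integ_mul o s.cz.fo.dg, e,
      ← setIntegral_eq_integral_of_forall_compl_eq_zero (s := Ω) fun x hx => by simp [z _ x hx],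
      h.μ hG.vol hG'.vol,
      setIntegral_eq_integral_of_forall_compl_eq_zero fun x hx => by simp [z _ x hx]]

variable (g : KT B G B G' Ω Ω id id (fun x b a => B.P b a x) B.l) (A : Ab B G Ω c ξ)
  (A' : Ab B G' Ω c' ξ') (p : PI G.F c c' Ω u)
include g A A' p

theorem ab_cr : CR0 B G B G' Ω Ω id (fun x b a => B.P b a x) B.l c.con c'.con u 1 :=
  ⟨⟨A.adm.ok, A.adm.conn, contMDiff_const, fun _ => map_zero _⟩,
    ⟨A'.adm.ok, A'.adm.conn, contMDiff_const, fun _ => map_zero _⟩, fun _ _ => rfl, fun _ _ => rfl,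
    p.iso.mEq (Pj41.OK.on A.adm.ok _) (Pj41.OK.on A'.adm.ok _),
    (Pj41.par0_iff ((Pj41.IsConn.on A'.adm.conn _).proj' g.hB)).1 p.par, fun _ _ => by simp [cs],
    Subsingleton.elim _ _⟩

theorem ab_lm : LM B G B G' Ω id (fun x b a => B.P b a x) B.l c.W c'.W u :=
  (ab_cr g A A' p).lm g.toKC

variable (hs : k.supp ⊆ Ω)
include hs

theorem ab_sur (ψ' : k.H B c'.m) : ∃ ψ : k.H B c.m, k.Eqv k B B u ψ ψ' := by
  have l := (ab_lm g A A' p).symm g.inv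
  have R : k.Rel k Ω id fun y => trn (B.l (id y)) := by
    rw [show (fun y => trn (B.l (id y))) = B.l from funext fun y => Eqv71.trn_of_sym (g.hB.lsym y)]
    exact rel_refl g.hB hs
  exact ⟨_, by
    simpa only [id, Eqv71.trn_trn] using eqv_symm (ψ := id) l R rfl ((eqv_iff l R (a := ψ')).2 ⟨1, rfl⟩)⟩

/-- phases at `c` give phases over `c` -/
theorem ab_eqv {v : M → CL c'.m.V c''.m.V} (H : c''.m.OK I B) (q : Pj41.Iso0 I c'.m c''.m Ω v)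
    {a b : k.H B c.m} {a' : k.H B c'.m} {b' : k.H B c''.m} (e : k.Eqv k B B u a a')
    (e' : k.Eqv k B B (fun x => v x ∘L u x) b b') {η : Circle}
    (h : b = cH c.m B k (csE c.m.J η) a) : k.Eqv k B B v a' b' := by
  have x0 := hs x0_mem
  have cp := cp_pp g.hB A.adm.ok k.x0
  have e₂ : k.Eqv k B B (fun _ => ContinuousLinearMap.id ℝ _) a b := ⟨η, by
    rw [h, ContinuousLinearMap.comp_id]
    exact It.rH_coe ⟨cp, cp, csE_comm rfl _, csE_comm cp.comm _⟩ a⟩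
  obtain ⟨θ, f⟩ := eqv_trans (φ := id) rfl ((p.iso.trans q).J _ x0).symm H.Jsq (eqv_trans (φ := id) rfl
    rfl A.adm.ok.Jsq (eqv_symm (ψ := id) (ab_lm g A A' p) (rel_refl g.hB hs) rfl e) e₂) e'
  refine ⟨θ, f.trans ?_⟩
  simp only [id, ContinuousLinearMap.id_comp, ContinuousLinearMap.comp_assoc, ← Pj41.ad_trn,
    (p.iso.iso _ x0).tgt, (q.iso _ x0).idem]

variable (hk : k.OK B G.F) (hk' : k.OK B G'.F)
include hk hk'

set_option maxRecDepth 8000 in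
theorem ab_tc (t : Tc M lam r) (i : XiIn I Ω' t.ξ) (η : Circle) (a : k.H B c.m) :
    c'.tc B G'.F k t (Rh k k B B u η a) = Rh k k B B u η (c.tc B G.F k t a) := by
  have j : XiIn I Ω' t.noz.ξ := by
    rcases t with ⟨m, n, w, _ | _ | ⟨_ | _, _⟩⟩
    exacts [i, i, trivial, i]
  have e := Dead36.ZO.tc ⟨g.clopen, g.bu, mc_W A.adm.conn, mc_adW A.adm.conn, A.z⟩ B k t (hs x0_mem)
  have e' := Dead36.ZO.tc ⟨g.clopen, g.bu', mc_W A'.adm.conn, mc_adW A'.adm.conn, A'.z⟩ B k t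
    (hs x0_mem)
  exact (congrArg (fun T : CL (k.H B c'.m) (k.H B c'.m) => T _) e').symm.trans
    (((ab_cr g A A' p).tc g η hk hk' (rel_refl g.hB hs) (Cnt93.tcR_refl g.hB _) j j a).trans
      (congrArg (fun T : CL (k.H B c.m) (k.H B c.m) => Rh k k B B u η (T a)) e))

theorem ab_sol {Wi : Type} {τ : Wi → Tc M lam r} {S : Finset Wi} {a : Wi → ℝ}
    (i : ∀ w ∈ S, a w ≠ 0 → ∃ Ω', XiIn I Ω' (τ w).ξ) {ψ : k.H B c.m} {ψ' : k.H B c'.m}
    (e : k.Eqv k B B u ψ ψ') :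
    k.Sol B G'.F (fun x => ∑ w ∈ S, a w • x.tc B G'.F k (τ w)) c' ψ' ↔
      k.Sol B G.F (fun x => ∑ w ∈ S, a w • x.tc B G.F k (τ w)) c ψ := by
  have l := ab_lm g A A' p
  have R := rel_refl g.hB hs
  obtain ⟨η, rfl⟩ := (eqv_iff l R).1 e
  have n : (∑ w ∈ S, a w • c'.tc B G'.F k (τ w)) (Rh k k B B u η ψ) =
      Rh k k B B u η ((∑ w ∈ S, a w • c.tc B G.F k (τ w)) ψ) := by
    simp only [_root_.sum_apply, _root_.smul_apply, map_sum, map_smul]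
    refine Finset.sum_congr rfl fun w hw => ?_
    by_cases h : a w = 0
    · rw [h, zero_smul, zero_smul]
    · rw [ab_tc g A A' p hs hk hk' _ (i w hw h).choose_spec]
  rw [Cut.Sol, Cut.Sol, Cnt93.norm_Rh l R, Cnt93.T_nat l R η hk hk', n, (Cnt93.inj_Rh l R η).eq_iff]

end gauge

variable {Y : Mf 3} [CompactSpace Y.M] {κ : Type} [Fintype κ] (D : YD Y.I Y.M κ lam) (I M)

/-- **LEAF UNI** -/
theorem uniStmt (hc : ClsStmt D I M) (ht : ToeStmt I M (Option κ) lam)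
    (hx : XiStmt I M (Option κ) lam) (hu : UqStmt I M (Option κ) lam)
    (hr : TrnStmt I M (Option κ) lam) : UniStmt D I M := by
  intro r T Wi Q B G Ω k τ H hs
  by_cases h0 : ∃ t ∈ Q, ∃ (c : Cfg M (Option κ) lam r) (ξ : M → c.m.A), Ab B (G t) Ω c ξ ∧
    Sl B (G t) Ω (fm (G t).F c.m c.W ξ)
  swap
  · exact ⟨0, fun _ => le_rfl, fun t ht _ _ _ _ _ _ c ξ A S => (h0 ⟨t, ht, c, ξ, A, S⟩).elim⟩
  obtain ⟨t₀, h₀, c₀, ξ₀, A₀, S₀⟩ := h0
  obtain ⟨k₀, ag₀, K₀, w, i₀, fw⟩ := H t₀ h₀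
  obtain ⟨⟨ε, _, _, b, hε, -, -, fb, -, e, -⟩, un⟩ := hc B _ K₀ Ω w _ i₀ S₀
  obtain ⟨ε₀, hε₀, toe⟩ := ht B _ c₀.m c₀.W k ξ₀ i₀.hB i₀.hG A₀.adm.ok A₀.adm.conn k₀
    (A₀.rd.toRedOn.mono hs) (by
      rw [e, flux_add (G t₀).F (Csm97.dat k₀) (fun x _ => (i₀.cs.cl.sm x trivial).smul _)
        fun x _ => fb.d.sm x, flux_smul, flux_dM (G t₀).F (Csm97.dat k₀) (fun x _ => fb.sm x)
        fun x _ => .of_forall fb.dg, add_zero, abs_mul, fw,
        show |ε / 2| = 1 / 2 by rcases hε with rfl | rfl <;> norm_num [abs_div]]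
      ring)
  refine ⟨fun w => ‖c₀.tc B (G t₀).F k (τ w)‖ / ε₀, fun w => by positivity,
    fun t ht S a hi hS σ hσ c ξ A L => ?_⟩
  obtain rfl : σ = fun x => ∑ w ∈ S, a w • x.tc B (G t).F k (τ w) := funext hσ
  obtain ⟨kt, ag, K, w', i, -⟩ := H t ht
  have cm := fun w hw h => hx r B _ Ω _ c₀ ξ₀ k (τ w) i₀.hB i₀.hG i₀.tam.tm i₀.cl A₀ k₀ (hs x0_mem)
    (hi w hw h).choose_spec
  have cs : ∀ X, (∀ w ∈ S, a w ≠ 0 → Commute (c₀.tc B (G t₀).F k (τ w)) X) →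
      Commute (∑ w ∈ S, a w • c₀.tc B (G t₀).F k (τ w)) X := fun X h =>
    Commute.sum_left _ _ _ fun w hw => by
      by_cases z : a w = 0
      · rw [z, zero_smul]; exact Commute.zero_left _
      · exact (h w hw z).smul_left _
  have nm : ‖∑ w ∈ S, a w • c₀.tc B (G t₀).F k (τ w)‖ ≤ ε₀ := by
    refine (norm_sum_le S fun w => a w • c₀.tc B (G t₀).F k (τ w)).trans (.trans ?_
      (mul_le_of_le_one_left hε₀.le hS.le))
    rw [Finset.sum_mul]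
    refine Finset.sum_le_sum fun w _ => (ContinuousLinearMap.opNorm_smul_le _ _).trans ?_
    rw [Real.norm_eq_abs, mul_assoc, div_mul_cancel₀ _ hε₀.ne']
  obtain ⟨⟨ψ₀, s₀⟩, u₀⟩ := toe _ nm (cs _ fun w hw h => (cm w hw h).1) (cs _ fun w hw h => (cm w hw h).2)
  have g := kt_agr i₀.hB i₀.hG i.hG (ag₀ t ht) i.cl.1 i₀.tam.tm i.tam.tm
  obtain ⟨W', A₁, e₁, eW⟩ := hr r B (G t) (G t₀) Ω c ξ i.hB i.hG i₀.hG A
  obtain ⟨v, pv⟩ : ∃ v, PI (G t₀).F c₀ c Ω v := by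
    have : ∃ v, PI (G t₀).F c₀ ⟨c.m, W', c.Φ, c.z⟩ Ω v := by
      rcases un _ (sl_agr (ag t₀ h₀) i.hG i₀.hG i.tam.ok i₀.tam.ok L) with f | f
      · exact (hu r r B _ Ω c₀ ξ₀ ⟨c.m, W', c.Φ, c.z⟩ ξ i₀.hB i₀.hG i₀.sc A₀ A₁
          fun x _ => congrFun (e₁.trans f) x).imp fun _ h => h.1
      · exact (hu r r B _ Ω c₀ (fun x => -ξ₀ x) ⟨c.m, W', c.Φ, c.z⟩ ξ i₀.hB i₀.hG i₀.sc ⟨A₀.adm,
          ⟨redOn_neg A₀.rd.toRedOn, A₀.rd.op, fun x hx => by rw [A₀.rd.off x hx, neg_zero]⟩, A₀.z⟩ A₁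
          fun x _ => congrFun (e₁.trans (f.trans Abel74.fm_neg.symm)) x).imp fun _ h => h.1
    exact this.imp fun v h => ⟨h.iso, fun x hx a => by
      rw [← eW Ω i.cl.2 (fun a x hx => ⟨(ag t₀ h₀).e x hx a, (ag t₀ h₀).a x hx a⟩) a x hx]
      exact h.par x hx a⟩
  refine ⟨⟨_, (ab_sol g A₀ A pv hs k₀ kt hi ((eqv_iff (ab_lm g A₀ A pv) (rel_refl i.hB hs)).2
    ⟨1, rfl⟩)).2 s₀⟩, fun c' ξ' u A' p ψ ψ' s s' => ?_⟩
  have p' := pv.trans (pi_agr (ag t₀ h₀) p)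
  obtain ⟨φ, f⟩ := ab_sur g A₀ A pv hs ψ
  obtain ⟨φ', f'⟩ := ab_sur g A₀ A' p' hs ψ'
  have s₁ := (ab_sol g A₀ A pv hs k₀ kt hi f).1 s
  have s₂ := (ab_sol g A₀ A' p' hs k₀ kt hi f').1 s'
  obtain ⟨η, h⟩ := u₀ φ φ' s₁.1 s₁.2 s₂.1 s₂.2
  exact ab_eqv g A₀ A pv hs A'.adm.ok p.iso f f' h

end Crest.Agent.X212.Sm25
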