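import Crest.Agent.X212.Stp12.Main
import Crest.Agent.X212.St29.Id

/-!
# Row 212, WPSC-SLC (helper25): small harmonic deformations of an abelian flat limit are inequivalent
-/

set_option autoImplicit false
set_option linter.unusedSectionVars false
set_option maxHeartbeats 400000
noncomputable section
open Set Function Filter Topology MeasureTheory
open scoped ContDiff Manifold InnerProductSpace

namespace Crest.Agent.X212.Sm25.Slc
open An An.Pre Sob92 Wz78 Pj41 Nd18 Cyf70 Clr59 Sym93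
open Rdc90 (Bs Har bh A0)
open Rf65 (Psc ParY dz PY)

section alg
variable {k : Type} [Fintype k] [DecidableEq k]

/-- a bilinear map on endomorphisms, seen on Hilbert-Schmidt vectors -/
def wr (b : En k →L[ℝ] En k →L[ℝ] En k) : CL (HS k) (En (k × k)) :=
  (((ContinuousLinearMap.compL ℝ (HS k) (En k) (HS k) hsL).comp
    ((ContinuousLinearMap.compL ℝ (HS k) (En k) (En k)).flip opL)).comp b).comp opL

variable (k) in
/-- left multiplication -/
def mL : CL (HS k) (En (k × k)) := wr (.mul ℝ _)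

variable (k) in
/-- right multiplication -/
def mR : CL (HS k) (En (k × k)) := wr (ContinuousLinearMap.mul ℝ _).flip

theorem tw_apply (s t : ℝ) (ξ x : HS k) : opL ((t • mL k - s • mR k) ξ x) =
    t • (opL ξ * opL x) - s • (opL x * opL ξ) := by
  show opL (t • hsL (opL ξ * opL x) - s • hsL (opL x * opL ξ)) = _
  simp only [map_sub, map_smul, opL_hsL]

theorem tw_ad (s t : ℝ) (W : En k) (ξ : HS k) : adc W * (t • mL k - s • mR k) ξ -
    (t • mL k - s • mR k) ξ * adc W = (t • mL k - s • mR k) (adc W ξ) := by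
  ext1 x
  refine opL_inj ?_
  rw [ContinuousLinearMap.sub_apply, map_sub, ContinuousLinearMap.mul_apply,
    ContinuousLinearMap.mul_apply]
  simp only [tw_apply, opL_adc, mul_sub, sub_mul, smul_sub, mul_smul_comm, smul_mul_assoc, mul_assoc]
  abel

theorem alg {A : Type} [Ring A] [Algebra ℝ A] {d w x u : A} {s t n : ℝ}
    (k : d + (w + (t * n) • x) * u - u * (w + (s * n) • x) = 0) :
    d + (w * u - u * w) = -(n • (t • (x * u) - s • (u * x))) := by
  simp only [add_mul, mul_add, smul_mul_assoc, mul_smul_comm] at k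
  rw [eq_neg_iff_add_eq_zero, ← k]
  module

end alg

variable {E3 : Type} [NormedAddCommGroup E3] [NormedSpace ℝ E3] [FiniteDimensional ℝ E3]
  [MeasurableSpace E3] [BorelSpace E3]
  {H3 : Type} [TopologicalSpace H3] {I3 : ModelWithCorners ℝ E3 H3} [I3.Boundaryless]
  {Y : Type} [TopologicalSpace Y] [ChartedSpace H3 Y] [IsManifold I3 ∞ Y] [T2Space Y]
  [MeasurableSpace Y] [BorelSpace Y] [SecondCountableTopology Y] [CompactSpace Y]
  {κ : Type} [Fintype κ] {lam : Type} [Fintype lam] {D : YD I3 Y κ lam} {β : YC Y κ lam}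
  {ξ : Y → β.m.A} {ν : κ → Y → ℝ} {ρ : ℝ}

theorem tw_par (p : ParY D β ξ) (s t : ℝ) (k : κ) (y : Y) :
    nabE I3 D.F.e (A0 β) k (fun y => (t • mL (Fin β.m.N) - s • mR (Fin β.m.N)) (ξ y)) y = 0 := by
  have := nab_map (I := I3) (e := D.F.e) (A := A0 β) (A' := fun a y => ad _ (A0 β a y))
    (t • mL (Fin β.m.N) - s • mR (Fin β.m.N)) k (tw_ad s t _ _) (p.sm y)
  rw [p.par, map_zero] at this
  exact this

/-- an equivalence of small deformations intertwines the deformations -/
theorem itw (S : Psc D.F (fun _ : Fin 1 => ν) ρ) (H : Bs D β) (p : ParY D β ξ) : ∃ ε > 0,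
    ∀ s t : ℝ, |s| ≤ ε → |t| ≤ ε → ∀ w : Y × ℝ → En (Fin β.m.N), Sm (IC I3) w →
      Par0 D.Z (cy (bh β (s • tY ν ξ) 0)).W (cy (bh β (t • tY ν ξ) 0)).W univ w →
      ∀ x, t • (opL (ξ x.1) * w x) - s • (w x * opL (ξ x.1)) = 0 := by
  obtain ⟨δ, d0, hδ⟩ := St29.Id.key S (Rd78.riem_Y H.ok) (H.dim.trans_le (by norm_num))
    (Rd78.con_A0 H.adm).sm (Rd78.skew_A0 H.adm)
  have c : ∀ k, Continuous fun y => ν k y • ξ y := fun k => ((S.sm 0 k).smul p.sm).continuous
  obtain ⟨C, hC⟩ := isCompact_univ.exists_bound_of_continuousOn (f := fun y k =>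
    (mL _ (ν k y • ξ y), mR _ (ν k y • ξ y))) (continuous_pi fun k =>
      ((mL _).continuous.comp (c k)).prodMk ((mR _).continuous.comp (c k))).continuousOn
  refine ⟨δ / (2 * (|C| + 1)), by positivity, fun s t hs ht w sw k x => ?_⟩
  have s1 := sm_slice_fst sw x.2
  have := hδ (fun y => (t • mL (Fin β.m.N) - s • mR (Fin β.m.N)) (ξ y)) (fun y => hsL (w (y, x.2)))
    (fun y => SA.clm _ (p.sm y)) (tw_par p s t) (fun k y => ?_) (fun y => SA.clm _ (s1 y))
    (fun a y => ?_) x.1
  · simpa only [tw_apply, opL_hsL, map_zero] using congrArg opL this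
  · have b := ((norm_le_pi_norm _ k).trans (hC y trivial)).trans
      ((le_abs_self C).trans (le_add_of_nonneg_right zero_le_one))
    rw [← map_smul, ContinuousLinearMap.sub_apply, ContinuousLinearMap.smul_apply,
      ContinuousLinearMap.smul_apply]
    refine (norm_sub_le _ _).trans ?_
    rw [norm_smul, norm_smul]
    refine (add_le_add (mul_le_mul ht ((norm_fst_le _).trans b) (norm_nonneg _) (by positivity))
      (mul_le_mul hs ((norm_snd_le _).trans b) (norm_nonneg _) (by positivity))).trans_eq ?_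
    field_simp
    ring
  · have e := k (y, x.2) trivial (some a)
    rw [bh_W, bh_W] at e
    refine (nab_map (A := fun a y => ad _ (β.W (some a) y)) hsL a
      (by rw [A0, adc_apply, opL_hsL]; rfl) (s1 y)).trans (opL_inj ?_)
    rw [opL_hsL, map_neg, ContinuousLinearMap.smul_apply, map_smul, tw_apply, opL_hsL]
    exact .trans (congrArg (· + _) (D_some D.F.toPre sw a (y, x.2)).symm) (alg (A := En (Fin β.m.N)) e)

/-- **small harmonic deformations are inequivalent** -/
theorem slc0 {b : ℕ} (py : PY D b) (H : Bs D β) (h1 : dz D β = 1) {η : κ → Y → β.m.A}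
    (hh : Har D β η) : ∃ ε > 0, ∀ s t : ℝ, |s| ≤ ε → |t| ≤ ε →
      D.Eqv (bh β (s • η) 0) (bh β (t • η) 0) → s • η = t • η := by
  obtain ⟨ν, ρ, S⟩ := py.psc
  obtain rfl | rfl := Nat.le_one_iff_eq_zero_or_eq_one.1 py.b1
  · exact ⟨1, one_pos, fun s t _ _ _ => by rw [St29.Id.har0 S H hh, smul_zero, smul_zero]⟩
  have S := St29.Id.psc1 S
  obtain ⟨ξ, p, rfl⟩ := (har_iff S H).1 hh
  obtain ⟨ε, e0, k⟩ := itw S H p
  refine ⟨ε, e0, fun s t hs ht ⟨(w : Y × ℝ → En (Fin β.m.N)), ζ, e⟩ => ?_⟩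
  by_cases z : ξ = 0
  · rw [z, map_zero, smul_zero, smul_zero]
  have e1 := (par0_iff ((IsConn.on (bs_tw S H p t).adm.adm.conn _).proj' H.ok.B)).2 e.W
  have e2 := k s t hs ht w (contMDiffOn_univ.1 e.m.su) e1
  have cm := Stp12.comm (s := w) (ζ := ζ) H.ok H.adm (fun ξ' q =>
    ((finrank_eq_one_iff_of_nonzero' (⟨ξ, p⟩ : parS D β) fun e => z (congrArg Subtype.val e)).1
      (dz_def.symm.trans h1) ⟨ξ', q⟩).imp fun _ e => (congrArg Subtype.val e).symm) p.mem
    ⟨e.m, (par0_iff ((IsConn.on H.adm.adm.conn _).proj' H.ok.B)).1 fun x hx a => ?_,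
      fun x _ => (H.zr _).trans ((congrArg (cs _ _) ((congrArg (w x) (H.zr x.1)).trans
        (map_zero _))).trans (Mod61.cs_zero _ _)).symm, Subsingleton.elim _ _⟩
  · obtain ⟨y, n⟩ := Function.ne_iff.1 z
    have e3 := congrArg (· * trn (w (y, 0))) (e2 (y, 0))
    have e4 : w (y, 0) * trn (w (y, 0)) = β.m.p y := e.m.uu' (y, 0) trivial
    have e5 : opL (ξ y) * β.m.p y = opL (ξ y) :=
      g_p' (m := (cy β).m) (x := (y, 0)) H.adm.adm.ok (p.mem y)
    simp only [← cm (y, 0), ← sub_smul, smul_mul_assoc, mul_assoc, e4, e5, zero_mul] at e3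
    rw [sub_eq_zero.1 ((smul_eq_zero.1 e3).resolve_right fun e => n (opL_inj (e.trans (map_zero _).symm)))]
  · have e3 := e1 x hx a
    rw [bh_W, bh_W] at e3
    have := alg (A := En (Fin β.m.N)) (u := w x) e3
    rw [e2 x, smul_zero, neg_zero, ← add_sub_assoc] at this
    exact this

end Crest.Agent.X212.Sm25.Slc
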