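import Crest.Agent.X212.Wal14.Defs
import Crest.Agent.X212.Inv14.Main
import Crest.Agent.X212.Hm83.Llw
import Crest.Agent.X212.Sm25.SlcA

/-!
# Row 212, WPSC-LFT and WPSC-SLC (helper25): the elliptic lift on the cylinder, the harmonic slice
-/

set_option autoImplicit false
set_option linter.unusedSectionVars false
set_option maxHeartbeats 400000
noncomputable section
open Set Function Filter Topology MeasureTheory Real
open scoped ContDiff Manifold InnerProductSpace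

namespace Crest.Agent.X212.Sm25.Lft
open An An.Pre Sob92 Ell97 Map77 Nd18 Cyf70
open Dec35 (nw)

section gen
variable {E : Type} [NormedAddCommGroup E] [NormedSpace ℝ E] [FiniteDimensional ℝ E]
  [MeasurableSpace E] [BorelSpace E]
  {HM : Type} [TopologicalSpace HM] {I : ModelWithCorners ℝ E HM} [I.Boundaryless]
  {M : Type} [TopologicalSpace M] [ChartedSpace HM M] [IsManifold I ∞ M] [MeasurableSpace M]
  [T2Space M] [BorelSpace M] [SecondCountableTopology M] {ι : Type} [Fintype ι]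
  {V W : Type} [NormedAddCommGroup V] [InnerProductSpace ℝ V] [FiniteDimensional ℝ V]
  [NormedAddCommGroup W] [InnerProductSpace ℝ W] [FiniteDimensional ℝ W]
  {F : Fr I M ι} {C C' : ℕ → ℝ} {A : Op M ι V W}

/-- a weighted `L²` estimate lifts to all orders -/
theorem lift0 (hF : F.Tame C) (hA : A.Good F C') (hc : A.CliffL F) {T : M → V →L[ℝ] W} (hT : F.Cb T)
    (hq : ∀ x v, A.p x v = v → A.q x (T x v) = T x v) {ψ : M → ℝ} (hψ : Sm I ψ)
    (hD : ∀ a, F.Cb (F.D a ψ)) {c : ℝ} (c0 : 0 ≤ c) (h0 : ∀ w ∈ Sec I A.p,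
      nw F.toPre 0 ψ w ≤ c * nw F.toPre 0 ψ fun x => A.app F w x + T x (w x)) (k : ℕ) :
    ∃ K ≥ 0, ∀ w ∈ Sec I A.p,
      nw F.toPre (k + 1) ψ w ≤ K * nw F.toPre k ψ fun x => A.app F w x + T x (w x) := by
  have hS : F.Cb (sy F A ψ) := Cb_sum _ fun a _ => Cb_smul (hD a) ⟨_, hA.σ a⟩
  obtain ⟨_, -, hB⟩ := good_of (A := addB A (T - sy F A ψ)) hF ⟨_, hA.p.cb⟩ ⟨_, hA.q.cb⟩
    (fun a => ⟨_, hA.σ a⟩)
    (Cb_add ⟨_, hA.B⟩ (Cb_comp ⟨_, hA.q.cb⟩ (Cb_sub hT hS))) (Alg.of_good hA).addB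
  obtain ⟨K, hK⟩ := gard hF hB hc k
  refine ⟨|K| * (1 + c), by positivity, fun w hw => ?_⟩
  let u : Sec I A.p := ⟨fun x => exp (ψ x) • w x, (Nk89.sm_exp hψ).smul hw.1,
    hw.2.1.mono fun x hx h => hx (by simp [h]), fun x => by rw [map_smul, hw.2.2]⟩
  have e : (addB A (T - sy F A ψ)).app F u.1 = fun x => exp (ψ x) • (A.app F w x + T x (w x)) := by
    funext x
    refine (op_addB _ A u.1 x).trans ?_
    have e1 : A.q x (sy F A ψ x (u.1 x)) = sy F A ψ x (u.1 x) := by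
      simp only [sy, _root_.sum_apply, _root_.smul_apply, map_sum, map_smul, hA.qσ]
    rw [Pi.sub_apply, _root_.sub_apply, map_sub, hq x _ (u.2.2.2 x), e1]
    refine (congrArg (· + _) (congrFun (Hm83.app_exp (A := A) hψ hw.1) x)).trans ?_
    simp only [u, Pi.add_apply, map_smul, smul_add]
    abel
  have h1 := (hK (F.toH (k + 1) _ u)).trans
    (mul_le_mul_of_nonneg_right (le_abs_self K) (by positivity))
  rw [H_toH hB, incl_toH (k + 1).zero_le, norm_toH, norm_toH, norm_toH, LS_val, e] at h1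
  have h2 := (h0 w hw).trans (mul_le_mul_of_nonneg_left (nrm_mono k.zero_le _) c0)
  rw [mul_assoc, add_mul, one_mul]
  exact h1.trans (mul_le_mul_of_nonneg_left (add_le_add le_rfl h2) (abs_nonneg _))

end gen

open Wal14 Op78

section cyl
variable {Y : M.Mf 3} [CompactSpace Y.M] {κ : Type} [Fintype κ] {lam : Type} [Fintype lam]
  {D : YD Y.I Y.M κ lam} {β : YC Y.M κ lam} {O' : Set (Y.M × ℝ)}

theorem good (H : Rdc90.Bs D β) (hO : O' = univ ∨ O' = ∅) :
    ∃ C, D.Z.Tame C ∧ (Rf65.LZ D.F (Inv14.bo D β O') β.W).Good D.Z C := by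
  classical
  have z := Inv14.cz H hO
  have K : (iv D.F.toPre).op fun _ => Rf65.LZ D.F (Inv14.bo D β O') β.W :=
    z.iv.full (F := fun _ => cyl D.F) iv_c iv_dv
      (Cls.base (W := fun _ => Rf65.cA β.W) z.iW ((iv D.F.toPre).const 0))
  obtain ⟨_, hF⟩ := Cht98.tame_cyl D.F H.dim.le
  exact good_of hF (K.p.cb _) (K.q.cb _) (fun a => (K.σ a).cb _) (K.B.cb _)
    (z.cp.P ▸ z.cp.ok.alg_full _)

theorem cb_lin (F : Fr Y.I Y.M κ) (δ s : ℝ) (a : Option κ) :
    (cyl F).Cb ((cyl F).D a fun x => δ * (s * x.2)) := by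
  have sψ : ContDiff ℝ ∞ fun t : ℝ => δ * (s * t) := by fun_prop
  cases a with
  | none =>
    have : (cyl F).D none (fun x => δ * (s * x.2)) = fun _ => δ * s :=
      (D_none_snd F.toPre sψ).trans (funext fun x => by simp)
    rw [this]
    exact Cb_const _
  | some a =>
    have : (cyl F).D (some a) (fun x => δ * (s * x.2)) = fun _ => 0 := D_some_snd F.toPre sψ a
    rw [this]
    exact Cb_const _

/-- the drift -/
def dT {K : Type} [Fintype K] (γ : ℝ) : Cf (Option κ) K →L[ℝ] P2 (HS K) (Ef (Option κ) K) :=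
  γ • (i1 _ _ ∘L Map77.pj _ none ∘L fa)

theorem zw_iff {j k : ℕ} {ψ : ℝ → ℝ} {γ : ℝ} : ZW D β O' j k ψ (fun _ => γ) 0 ↔ ∃ C ≥ 0,
    ∀ w ∈ Sec (IC Y.I) (Rf65.LZ D.F (Inv14.bo D β O') β.W).p, nw D.Z.toPre j (fun x => ψ x.2) w ≤
      C * nw D.Z.toPre k (fun x => ψ x.2) fun x =>
        (Rf65.LZ D.F (Inv14.bo D β O') β.W).app D.Z w x + dT γ (w x) := by
  simp only [ZW, Pi.zero_apply, add_zero]
  rfl

theorem q_dT {K : Type} [Fintype K] [DecidableEq K] {d : Bd (Y.M × ℝ) (Option κ) K} (h : d.OK)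
    (F : Fr Y.I Y.M κ) (W : Option κ → Y.M → En K) (γ : ℝ) (x : Y.M × ℝ) (v : Cf (Option κ) K)
    (hv : (Rf65.LZ F d W).p x v = v) : (Rf65.LZ F d W).q x (dT γ v) = dT γ v := by
  rw [dT, _root_.smul_apply, map_smul]
  exact congrArg _ (ext2 ((f2_ps x _).trans (g_fa h hv none)) ((s2_ps x _).trans (map_zero _)))

theorem ze (H : Rdc90.Bs D β) (hO : O' = univ ∨ O' = ∅) {δ η : ℝ} (Z : ZE D β O' 0 0 δ η) (k : ℕ) :
    ZE D β O' (k + 1) k δ η := by
  classical
  intro s hs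
  have z := (Inv14.cz H hO).cp
  obtain ⟨_, hF, hA⟩ := good H hO
  obtain ⟨c, c0, h0⟩ := zw_iff.1 (Z s hs)
  exact zw_iff.2 (lift0 hF hA (z.ok.cliffL_full z.P _) (Cb_const _) (q_dT z.ok _ _ _)
    (sm_snd (f := fun t => δ * (s * t)) (by fun_prop)) (cb_lin D.F δ s) c0 h0 k)

end cyl

variable (κ lam : Type) [Fintype κ] [Fintype lam]

/-- **LEAF LFT** -/
theorem lft : LftStmt κ lam := fun _ _ _ _ _ k _ _ _ _ H hO Z => ze H hO Z k

/-- **LEAF SLC** -/
theorem slc : SlcStmt κ lam := fun _ _ _ _ _ _ py H h _ hh => Slc.slc0 py H h hh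

end Crest.Agent.X212.Sm25.Lft
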