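import Crest.Agent.X212.Cmp73.Lv0
import Crest.Agent.X212.Cmp73.Kg
import Crest.Agent.X212.Cmp73.Asm
import Crest.Agent.X212.Shi84.Jl0

/-! X212 / CT-LEV-ASM (helper25): `LEV` and `KAP` from `CORE`, `PINCH`, `NULL`. -/

set_option autoImplicit false
set_option linter.unusedSectionVars false
open Set Filter Topology Function MeasureTheory
open scoped ContDiff Manifold InnerProductSpace

noncomputable section
namespace Crest.Agent.X212.Sm25

open An An.Job M Cmp73 Eqv71 Shi84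
open Fin37 (core)

theorem int_ie {X : Type} [MeasurableSpace X] {μ : Measure X} {f : X → ℝ} {A B : Set X}
    (hA : MeasurableSet A) (h : IntegrableOn f (A ∪ B) μ) : ∫ x in A ∪ B, f x ∂μ =
      ∫ x in A, f x ∂μ - ∫ x in A ∩ B, f x ∂μ + ∫ x in B, f x ∂μ := by
  rw [← integral_inter_add_sdiff hA h, ← integral_inter_add_sdiff hA (h.mono_set subset_union_right),
    inter_eq_right.2 subset_union_left, union_sdiff_left, inter_comm]
  ring

section gen
variable {E : Type} [NormedAddCommGroup E] [NormedSpace ℝ E] [FiniteDimensional ℝ E]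
  [MeasurableSpace E] [BorelSpace E]
  {HM : Type} [TopologicalSpace HM] {I : ModelWithCorners ℝ E HM} [I.Boundaryless]
  {E' : Type} [NormedAddCommGroup E'] [NormedSpace ℝ E'] [FiniteDimensional ℝ E']
  [MeasurableSpace E'] [BorelSpace E']
  {H' : Type} [TopologicalSpace H'] {I' : ModelWithCorners ℝ E' H'} [I'.Boundaryless]
  {E₀ : Type} [NormedAddCommGroup E₀] [NormedSpace ℝ E₀] [FiniteDimensional ℝ E₀]
  [MeasurableSpace E₀] [BorelSpace E₀]
  {H₀ : Type} [TopologicalSpace H₀] {I₀ : ModelWithCorners ℝ E₀ H₀} [I₀.Boundaryless]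
  {ι lam α : Type} [Fintype ι] [Fintype lam] {r : ℕ}

section pb
variable {M : Type} [TopologicalSpace M] [ChartedSpace HM M] [IsManifold I ∞ M] [MeasurableSpace M]
  [BorelSpace M] [T2Space M] [SecondCountableTopology M]
  {M' : Type} [TopologicalSpace M'] [ChartedSpace H' M'] [IsManifold I' ∞ M'] [MeasurableSpace M']
  [BorelSpace M'] [T2Space M'] [SecondCountableTopology M']
  {B : Base M ι lam} {G : Geo I M ι lam} {B' : Base M' ι lam} {G' : Geo I' M' ι lam} {O' : Set M'}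
  {φ : M → M'} {ψ : M' → M} {U : M → ι → ι → ℝ} {v : M → CL (Eu lam) (Eu lam)} {c : Cfg M ι lam r}
  {y : Cfg M' ι lam r} {u : M → CL c.m.V y.m.V} (k : PB B G B' G' O' φ ψ U v c y u)
include k

theorem pb_np (x : M) :
    ‖y.m.p2 B' (φ x) (y.m.Fg G'.F y.W (φ x))‖ = ‖c.m.p2 B x (c.m.Fg G.F c.W x)‖ := by
  have e : c.m.p2 B x (c.m.Fg G.F c.W x) = pC φ U u (fun z => y.m.p2 B' z (y.m.Fg G'.F y.W z)) x := by
    rw [pC, ← (k.me x).p2 (k.be x) k.lm.hB' k.lm.hB k.lm.ok' k.lm.ok, k.Fg]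
  rw [norm_eq_sqrt_real_inner, norm_eq_sqrt_real_inner]
  nth_rewrite 1 [k.lm.Fg (mem_univ x)]
  rw [(k.lm.me x trivial).p2 (k.lm.be x trivial) k.lm.hB k.lm.hB' k.lm.ok k.lm.ok',
    inner_ridx _ (inner_cj (u x))]
  exact congrArg (fun t => √⟪_, t⟫_ℝ) e.symm

theorem pb_int {T : Set M} (hT : IsCompact T) :
    ∫ z in φ '' T, y.m.kd B' G'.F y.W z ∂G'.F.μ = ∫ x in T, c.m.kd B G.F c.W x ∂G.F.μ := by
  have := k.kg.integral ((φ '' T).indicator (y.m.kd B' G'.F y.W))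
  rw [setIntegral_indicator (hT.image_of_continuousOn fun x _ =>
    (k.kg.rot.sφ x trivial).continuousAt.continuousWithinAt).measurableSet, inter_eq_right.2
      (image_subset_iff.2 fun x _ => k.kg.inv.maps (mem_univ x)), Measure.restrict_univ] at this
  rw [this, ← integral_indicator hT.measurableSet]
  refine integral_congr_ae (.of_forall fun x => ?_)
  by_cases e : x ∈ T
  · simp only [indicator_of_mem e, indicator_of_mem (mem_image_of_mem φ e), k.lm.kd (mem_univ x)]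
  · simp only [indicator_of_notMem e]
    refine indicator_of_notMem ?_ _
    exact fun ⟨z, hz, a⟩ => e (((k.kg.inv.linv z trivial).symm.trans
      ((congrArg ψ a).trans (k.kg.inv.linv x trivial))) ▸ hz)

end pb

variable {M : Type} [TopologicalSpace M] [ChartedSpace H₀ M] [IsManifold I₀ ∞ M] [MeasurableSpace M]
  [BorelSpace M] [T2Space M] [SecondCountableTopology M]
  {X : α → Type} [∀ n, TopologicalSpace (X n)] [∀ n, ChartedSpace HM (X n)]
  [∀ n, IsManifold I ∞ (X n)] [∀ n, MeasurableSpace (X n)] [∀ n, T2Space (X n)]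
  [∀ n, BorelSpace (X n)] [∀ n, SecondCountableTopology (X n)]
  {Z : α → Type} [∀ n, TopologicalSpace (Z n)] [∀ n, ChartedSpace H' (Z n)]
  [∀ n, IsManifold I' ∞ (Z n)] [∀ n, MeasurableSpace (Z n)] [∀ n, T2Space (Z n)]
  [∀ n, BorelSpace (Z n)] [∀ n, SecondCountableTopology (Z n)] {g : Gs I I₀ M ι lam X}

theorem up_kap (kt : Loc66.KT ι lam) {h : Up I' Z g r} (k : h.OK) {b : Cfg M ι lam r}
    {u : ∀ n, M → CL (h.x n).m.V b.m.V} (l : g.LB h.x b u) {β : ℝ} (hd : ∀ n, Mp86.Dom (h.G n).F β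
      fun x => ‖(h.y n).m.p2 (h.B n) x ((h.y n).m.Fg (h.G n).F (h.y n).W x)‖ ^ 2) {L : Set M}
    (hL : IsCompact L) (hP : L ⊆ g.Pᶜ) (hS : L ∩ g.S h.x ⊆ interior L) :
    ∃ m : ℕ, (L ∩ g.S h.x).encard ≤ m ∧ (L ∩ g.S h.x = ∅ → m = 0) ∧
      Tendsto (fun n => ∫ z in h.φ n '' (g.ψ n '' L), (h.y n).m.kd (h.B n) (h.G n).F (h.y n).W z
        ∂(h.G n).F.μ) g.l (𝓝 (∫ x in L, b.m.kd g.B₀ g.G₀.F b.W x ∂g.G₀.F.μ + m)) :=
  (l.lim.kap k.bk.ok kt l.hyp hL hP hS fun p hp => nc_of_dom k.bk.ok (hP hp.1) (fun _ _ => sq_nonneg _)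
    (.of_forall fun n => by simpa only [pb_np (k.pb n)] using pb_dom (k.pb n) (hd n))).imp
    fun _ a => ⟨a.1, a.2.1, a.2.2.congr' ((k.bk.ok.ev_src hL hP).mono fun n hn =>
      (pb_int (k.pb n) (hL.image_of_continuousOn ((g.ψ n).continuousOn.mono hn))).symm)⟩

end gen

variable {Wi : Type} {X : Mf 4} {A κ lam : Type} [Fintype A] [Fintype κ] [Fintype lam]
  [DecidableEq lam] {M : Mark X A κ} {W : World M} {N : ML M lam}
  {Λ : Lns W N} {A' h : Type} [Fintype A'] [DecidableEq A'] [Fintype h] {r n : ℕ}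
  {J : Job Wi Λ A' h r n} {Adm : (Wi →₀ ℝ) → Prop}

theorem core_int {c : M.Cl} {s : A' → ℝ} {R R' : ℝ} (h : R < R') :
    core J c s R ⊆ interior (core J c s R') := fun _ hz =>
  mem_interior_iff_mem_nhds.2 (mem_of_superset (iInter_mem.2 fun i : Fin37.Ix J c s =>
    ((Fin37.nk J i).isClosed_dp (d := R')).isOpen_compl.mem_nhds fun k => hz i (Nka63.dp_sub_O _ h k))
    fun _ hy i k => mem_iInter.1 hy i (Nka63.O_sub_dp _ k))

section sc
variable (kt : Loc66.KT (Option κ) (lam ⊕ lam)) {α : Type} {c c₀ : M.Cl} {F : Fam J α c c₀} {S : F.Sc}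
  {b : Cfg (W.Z c₀).M (Option κ) (lam ⊕ lam) r} {u : ∀ i, (W.Z c₀).M → CL (S.x i).m.V b.m.V}
  (hF : F.OK Adm) (hS : S.OK) (hL : S.Lm b u) {L K : Set (W.Z c₀).M}
include kt hF hS hL

theorem sc_kap (hc : IsCompact L) (hP : L ⊆ S.Pᶜ) (hE : L ∩ S.E ⊆ interior L) :
    ∃ m : ℕ, (L ∩ S.E).encard ≤ m ∧ (L ∩ S.E = ∅ → m = 0) ∧
      Tendsto (fun i => (F.y i).kap ((S.j ∘ S.f) '' L)) F.l
        (𝓝 (∫ x in L, F.kd b x ∂(J.G c₀ F.s₀).F.μ + m)) := by
  obtain ⟨_, C, hb⟩ := hF.bd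
  rw [image_comp]
  exact up_kap kt hS.up hL.lb (fun i => (hb i).g.p2) hc hP hE

/-- from a compact neighbourhood of the pinched points to a larger one -/
theorem sc_ext (hK : IsCompact K) (hC : IsCompact L) (hs : K ⊆ L) (hP : S.P ⊆ interior K)
    (hE : ∀ p ∈ S.E, p ∉ interior K → p ∉ K ∧ p ∈ interior L) {m : ℝ}
    (h : Tendsto (fun i => (F.y i).kap ((S.j ∘ S.f) '' (K \ S.P))) F.l
      (𝓝 (∫ x in K, F.kd b x ∂(J.G c₀ F.s₀).F.μ + m))) :
    ∃ k : ℕ, (S.E \ interior K).encard ≤ k ∧ (S.E ⊆ interior K → k = 0) ∧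
      Tendsto (fun i => (F.y i).kap ((S.j ∘ S.f) '' (L \ S.P))) F.l
        (𝓝 (∫ x in L, F.kd b x ∂(J.G c₀ F.s₀).F.μ + (m + k))) := by
  have hg := hS.up.bk.ok
  have c1 := hC.diff (t := interior K) isOpen_interior
  have p1 : L \ interior K ⊆ S.Pᶜ := fun x hx h => hx.2 (hP h)
  have e2 : (K \ interior K) ∩ S.E = ∅ :=
    eq_empty_of_forall_notMem fun p hp => (hE p hp.2 hp.1.2).1 hp.1.1
  have p2 : interior L ∩ Kᶜ ⊆ L \ interior K := inter_subset_inter interior_subset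
    (compl_subset_compl.2 interior_subset)
  obtain ⟨k, k1, k2, k3⟩ := sc_kap kt hF hS hL c1 p1 fun p hp => interior_maximal p2
    (isOpen_interior.inter hK.isClosed.isOpen_compl) ⟨(hE p hp.2 hp.1.2).2, (hE p hp.2 hp.1.2).1⟩
  obtain ⟨_, -, k4, k5⟩ := sc_kap kt hF hS hL (hK.diff (t := interior K) isOpen_interior)
    (fun x hx h => hx.2 (hP h)) (e2.trans_subset (empty_subset _))
  obtain rfl := k4 e2
  refine ⟨k, le_trans (encard_le_encard fun p hp =>
    mem_inter (mem_sdiff_of_mem (interior_subset (hE p hp.1 hp.2).2) hp.2) hp.1) k1, fun h => k2 (eq_empty_of_forall_notMem fun p hp => hp.1.2 (h hp.2)), ?_⟩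
  have sr : S.Pᶜ ⊆ S.f.source := fun x hx =>
    let ⟨_, e⟩ := (hg.ev_src isCompact_singleton (singleton_subset_iff.2 hx)).exists; (e rfl).1
  have u1 : (L \ interior K) ∪ (K \ S.P) = L \ S.P := Set.ext fun x =>
    ⟨fun e => e.elim (fun e => ⟨e.1, p1 e⟩) fun e => ⟨hs e.1, e.2⟩, fun e =>
      (em (x ∈ interior K)).elim (fun a => .inr ⟨interior_subset a, e.2⟩) fun a => .inl ⟨e.1, a⟩⟩
  have u2 : (L \ interior K) ∩ (K \ S.P) = K \ interior K := Set.ext fun x =>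
    ⟨fun e => ⟨e.2.1, e.1.2⟩, fun e => ⟨⟨hs e.1, e.2⟩, e.1, fun a => e.2 (hP a)⟩⟩
  have u3 : (L \ interior K) ∪ K = L := Set.ext fun x => ⟨fun e => e.elim (·.1) (hs ·), fun e =>
    (em (x ∈ interior K)).elim (fun a => .inr (interior_subset a)) fun a => .inl ⟨e, a⟩⟩
  have u4 : (L \ interior K) ∩ K = K \ interior K := Set.ext fun x =>
    ⟨fun e => ⟨e.2, e.1.2⟩, fun e => ⟨⟨hs e.1, e.2⟩, e.1⟩⟩
  have := (J.G c₀ F.s₀).F.fin
  have e := int_ie (μ := (J.G c₀ F.s₀).F.μ) (f := F.kd b) (B := K) c1.measurableSet (u3.symm ▸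
    (Loc66.sm_kd hg.B₀ hg.G₀ hL.sol.ok hL.sol.conn).continuous.continuousOn.integrableOn_compact hC)
  rw [u3, u4] at e
  refine (((k3.sub k5).add h).congr fun i => ?_).trans_eq (congrArg 𝓝 (by rw [e]; push_cast; ring))
  rw [← u1, ← u2, image_union, (hS.oe.inj.comp_injOn (S.f.toPartialEquiv.injOn.mono sr)).image_inter p1
    fun _ e => e.2]
  exact (int_ie (c1.image_of_continuousOn (hS.oe.continuous.comp_continuousOn
    (S.f.contMDiffOn.continuousOn.mono (p1.trans sr)))).measurableSet (hF.sol i).int.integrableOn).symm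

end sc

variable (hJ : J.OK) (kt : Loc66.KT (Option κ) (lam ⊕ lam)) (hc : CORE J Adm)
include hJ kt hc

/-- **LEAF LEV** -/
theorem levJ (hp : PINCH J Adm) (hn : NULL J Adm) : LEV J Adm := by
  rintro α c c₀ F hF S hS b u hL ⟨R₀, h₀⟩
  have e1 := h₀.trans (core_int (lt_add_one R₀))
  have pe : S.P ⊆ _ := subset_union_left.trans e1
  have cp := Pat85.cpt hJ c₀ F.s₀ hF.pm₀
  obtain ⟨K, k1, k2, k3, k4, m, k5⟩ := hp α c c₀ F hF S hS b u hL _ (isOpen_interior.mem_nhdsSet.2 pe)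
  have k6 := subset_interior_iff_mem_nhdsSet.2 k2
  obtain ⟨k, a1, -, a2⟩ := sc_ext kt hF hS hL k1 (cp _) (k3.trans interior_subset) k6
    (fun p hp hq => ⟨fun h => hq (k6 (k4 ⟨h, hp⟩)), e1 hp⟩) k5
  refine ⟨m + k, le_trans (encard_le_encard fun p hp => mem_sdiff_of_mem hp.1 fun h =>
    hp.2 (k4 ⟨interior_subset h, hp.1⟩)) (a1.trans (Nat.cast_le.2 le_add_self)), ?_⟩
  filter_upwards [hc α c c₀ F hF S hS, eventually_ge_atTop (R₀ + 1)] with R h1 h2
  obtain ⟨_, -, a3, a4⟩ := sc_ext kt hF hS hL (cp _) (cp R) (core_mono h2) pe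
    (fun p hp hq => (hq (e1 hp)).elim) a2
  obtain rfl := a3 e1
  refine (a4.congr' (h1.mono fun i hi => setIntegral_congr_set ?_)).trans_eq (by simp)
  filter_upwards [mem_ae_iff.2 (hn α c c₀ F hF S hS (F.y i).s)]
  rintro _ ⟨x, hx, rfl⟩
  exact propext ⟨fun ⟨y, hy, e⟩ => mem_of_eq_of_mem e.symm ((hi y hy.2).2 hy.1),
    fun h => ⟨x, ⟨(hi x hx).1 h, hx⟩, rfl⟩⟩

/-- **LEAF KAP** -/
theorem kapJ (scn : SCN J Adm) : KAP J Adm := by
  intro α c F hF b u hL hE O hO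
  have hS := (scn α c c F hF).1 (.refl c)
  filter_upwards [hc α c c F hF _ hS] with R h1
  have e0 : O ∩ core J c F.s₀ R ∩ (F.cy (.refl c)).E = ∅ := by rw [hE, inter_empty]
  obtain ⟨_, -, a1, a2⟩ := sc_kap kt hF hS hL ((Pat85.cpt hJ c F.s₀ hF.pm₀ R).inter_left hO.1)
    (fun _ _ h => h) (e0.trans_subset (empty_subset _))
  obtain rfl := a1 e0
  refine (a2.congr' (h1.mono fun i hi => congrArg _ ?_)).trans_eq (by simp)
  rw [show (F.cy (.refl c)).j ∘ (F.cy (.refl c)).f = id from funext W.up_self, image_id]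
  exact Set.ext fun z => and_congr_right' ((hi z (notMem_empty z)).symm.trans
    (iff_of_eq (congrArg (· ∈ core J c (F.y i).s R) (W.up_self z))))

end Crest.Agent.X212.Sm25
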