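import Crest.Agent.X212.Kh11.Leaf

/-!
Row 212, layer H, KH-GLU (helper25): `GluStmt`, `DxStmt`, `ExtStmt`.
-/

set_option autoImplicit false
set_option linter.style.longLine false
set_option linter.unusedSectionVars false

open Finset Classical

noncomputable section

namespace Crest.Agent.X212.Hk

open Hp13
open Alg36 (Om)

variable {P : Type} [PartialOrder P] {A B : Set P}

namespace Cvr

theorem symm (h : Cvr A B) : Cvr B A := by
  unfold Cvr at *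
  rw [Set.union_comm B A]
  exact h.imp And.symm And.symm

theorem of_lower (hA : IsLowerSet A) (hB : IsLowerSet B) : Cvr A B :=
  .inl ⟨fun _ _ _ hy h => hA h hy, fun _ _ _ hy h => hB h hy⟩

theorem of_upper (hA : IsUpperSet A) (hB : IsUpperSet B) : Cvr A B :=
  .inr ⟨fun _ hx _ _ h => hA h hx, fun _ hx _ _ h => hB h hx⟩

/-- a set with a least and a largest element lies in `A` or in `B` -/
theorem sub (h : Cvr A B) {S : Set P} (hS : S ⊆ A ∪ B) {b t : P} (hb : b ∈ S) (ht : t ∈ S)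
    (h1 : ∀ x ∈ S, b ≤ x ∧ x ≤ t) : S ⊆ A ∨ S ⊆ B :=
  h.elim (fun h => (hS ht).imp (fun k x hx => h.1 x (hS hx) t k (h1 x hx).2)
    fun k x hx => h.2 x (hS hx) t k (h1 x hx).2) fun h =>
    (hS hb).imp (fun k x hx => h.1 b k x (hS hx) (h1 x hx).1) fun k x hx => h.2 b k x (hS hx) (h1 x hx).1

theorem tri (h : Cvr A B) {x y w : P} (hx : x ∈ A ∪ B) (hy : y ∈ A ∪ B) (hw : w ∈ A ∪ B)
    (h1 : x ≤ y) (h2 : y ≤ w) : (x ∈ A ∧ y ∈ A ∧ w ∈ A) ∨ (x ∈ B ∧ y ∈ B ∧ w ∈ B) :=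
  h.elim (fun h => hw.imp (fun k => ⟨h.1 x hx w k (h1.trans h2), h.1 y hy w k h2, k⟩)
    fun k => ⟨h.2 x hx w k (h1.trans h2), h.2 y hy w k h2, k⟩) fun h =>
    hx.imp (fun k => ⟨k, h.1 x k y hy h1, h.1 x k w hw (h1.trans h2)⟩)
      fun k => ⟨k, h.2 x k y hy h1, h.2 x k w hw (h1.trans h2)⟩

theorem two (h : Cvr A B) {x y : P} (hx : x ∈ A ∪ B) (hy : y ∈ A ∪ B) (h1 : x ≤ y) :
    (x ∈ A ∧ y ∈ A) ∨ (x ∈ B ∧ y ∈ B) :=
  (h.tri hx hy hy h1 le_rfl).imp (fun k => ⟨k.1, k.2.1⟩) fun k => ⟨k.1, k.2.1⟩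

theorem eu_union [Fintype P] (h : Cvr A B) : eu (A ∪ B) = eu A + eu B - eu (A ∩ B) := by
  suffices eu (A ∪ B) + eu (A ∩ B) = eu A + eu B by linarith
  simp only [eu, sum_filter, ← neg_add, ← sum_add_distrib]
  refine congrArg _ (sum_congr rfl fun c _ => ?_)
  · show _ = _
    have k : (∀ x ∈ c.1, x ∈ A ∪ B) ↔ (∀ x ∈ c.1, x ∈ A) ∨ ∀ x ∈ c.1, x ∈ B :=
      ⟨fun k => h.sub (S := c.1) k c.bot_mem c.top_mem fun _ hx => ⟨Ch.bot_le hx, Ch.le_top hx⟩,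
        fun k x hx => k.imp (· x hx) (· x hx)⟩
    have k' : (∀ x ∈ c.1, x ∈ A ∩ B) ↔ (∀ x ∈ c.1, x ∈ A) ∧ ∀ x ∈ c.1, x ∈ B :=
      ⟨fun k => ⟨fun x hx => (k x hx).1, fun x hx => (k x hx).2⟩, fun k x hx => ⟨k.1 x hx, k.2 x hx⟩⟩
    by_cases a : ∀ x ∈ c.1, x ∈ A <;> by_cases b : ∀ x ∈ c.1, x ∈ B
    · rw [if_pos (k.2 (.inl a)), if_pos (k'.2 ⟨a, b⟩), if_pos a, if_pos b]
    · rw [if_pos (k.2 (.inl a)), if_neg fun g => b (k'.1 g).2, if_pos a, if_neg b]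
    · rw [if_pos (k.2 (.inr b)), if_neg fun g => a (k'.1 g).1, if_neg a, if_pos b, add_comm]
    · rw [if_neg fun g => (k.1 g).elim a b, if_neg fun g => a (k'.1 g).1, if_neg a, if_neg b]

theorem conn_left (h : Cvr A B) (hc : Conn (A ∪ B)) (hi : Conn (A ∩ B)) (hne : (A ∩ B).Nonempty) :
    Conn A := by
  obtain ⟨m, hm⟩ := hne
  have k : ∀ x ∈ A, Rch A m x := fun x hx => (hc m (.inl hm.1) x (.inl hx)).ind
    (p := fun t => t ∈ A → Rch A m t) (fun _ => Rch.rfl) (fun a ha b hb hab =>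
      (h.two ha hb hab).elim
        (fun k => ⟨fun g _ => (g k.1).trans (.of_cm k.1 k.2 (.inl hab)),
          fun g _ => (g k.2).trans (.of_cm k.2 k.1 (.inr hab))⟩)
        fun k => iff_of_true (fun g => (hi m hm a ⟨g, k.1⟩).mono Set.inter_subset_left)
          fun g => (hi m hm b ⟨g, k.2⟩).mono Set.inter_subset_left) hx
  exact fun x hx y hy => (k x hx).symm.trans (k y hy)

variable {G : Type} [AddCommGroup G]

theorem exOn (h : Cvr A B) {ζ : P → P → G} (hA : ExOn A ζ) (hB : ExOn B ζ) (hi : Conn (A ∩ B)) :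
    ExOn (A ∪ B) ζ := by
  obtain ⟨g, hg⟩ := hA
  obtain ⟨u, hu⟩ := hB
  obtain ⟨k, hk⟩ : ∃ k, ∀ x ∈ A ∩ B, g x - u x = k := by
    rcases (A ∩ B).eq_empty_or_nonempty with e | ⟨m, hm⟩
    · exact ⟨0, fun x hx => absurd (e.subset hx) id⟩
    · exact ⟨_, fun x hx => (hi x hx m hm).eq (g := fun x => g x - u x) fun a ha b hb hab =>
        sub_eq_sub_iff_sub_eq_sub.1 (by
          rw [← neg_sub (g b), ← neg_sub (u b), ← hg a ha.1 b hb.1 hab, hu a ha.2 b hb.2 hab])⟩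
  have e : ∀ x ∈ B, (if x ∈ A then g x else u x + k) = u x + k := fun x hx => by
    split_ifs with a
    · rw [← hk x ⟨a, hx⟩, add_sub_cancel]
    · rfl
  refine ⟨fun x => if x ∈ A then g x else u x + k, fun x hx y hy hxy => ?_⟩
  rcases h.two hx hy hxy with a | a
  · simp only [if_pos a.1, if_pos a.2, hg x a.1 y a.2 hxy]
  · simp only [e x a.1, e y a.2, hu x a.1 y a.2 hxy, add_sub_add_right_eq_sub]

theorem glue (h : Cvr A B) {a b : P → P → G} (ha : CocOn A a) (hb : CocOn B b)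
    (e : EqE (A ∩ B) a b) : ∃ c, CocOn (A ∪ B) c ∧ EqE A c a ∧ EqE B c b := by
  let c : P → P → G := fun x y => if x ∈ A ∧ y ∈ A then a x y else b x y
  have e1 : EqE A c a := fun x hx y hy _ => if_pos ⟨hx, hy⟩
  have e2 : EqE B c b := fun x hx y hy hxy => by
    by_cases k : x ∈ A ∧ y ∈ A
    · exact (if_pos k).trans (e x ⟨k.1, hx⟩ y ⟨k.2, hy⟩ hxy)
    · exact if_neg k
  refine ⟨c, fun x hx y hy w hw h1 h2 => ?_, e1, e2⟩
  rcases h.tri hx hy hw h1 h2 with k | k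
  · rw [e1 x k.1 w k.2.2 (h1.trans h2), e1 x k.1 y k.2.1 h1, e1 y k.2.1 w k.2.2 h2,
      ha x k.1 y k.2.1 w k.2.2 h1 h2]
  · rw [e2 x k.1 w k.2.2 (h1.trans h2), e2 x k.1 y k.2.1 h1, e2 y k.2.1 w k.2.2 h2,
      hb x k.1 y k.2.1 w k.2.2 h1 h2]

end Cvr

theorem conn_union (hA : Conn A) (hB : Conn B) (hne : (A ∩ B).Nonempty) : Conn (A ∪ B) := by
  obtain ⟨m, hm⟩ := hne
  have k : ∀ x ∈ A ∪ B, Rch (A ∪ B) m x := fun x hx => hx.elim
    (fun h => (hA m hm.1 x h).mono Set.subset_union_left)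
    fun h => (hB m hm.2 x h).mono Set.subset_union_right
  exact fun x hx y hy => (k x hx).symm.trans (k y hy)

theorem Cvr.ctr [Fintype P] (h : Cvr A B) (hA : Ctr A) (hB : Ctr B) (hi : Ctr (A ∩ B)) :
    Ctr (A ∪ B) :=
  ⟨hA.ne.inl, conn_union hA.conn hB.conn hi.ne, fun G _ z hz =>
    h.exOn (hA.ex G z (Alg36.CocOn.mono hz Set.subset_union_left))
      (hB.ex G z (Alg36.CocOn.mono hz Set.subset_union_right)) hi.conn,
    by rw [h.eu_union, hA.eu, hB.eu, hi.eu]; rfl⟩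

theorem gluStmt : GluStmt := fun _ _ _ _ _ h =>
  ⟨h.eu_union, h.ctr, h.conn_left, fun _ _ => ⟨fun _ _ => h.exOn, fun _ _ => h.glue⟩⟩

theorem ind_congr {x : P} (h : x ∈ A ↔ x ∈ B) : ind A x = ind B x := by simp only [ind, h]

theorem dxStmt : DxStmt := by
  rintro P _ _ K H₁ H₂ w₁ w₂ lK l1 l2 c1 c2 e hc hne ew f1 f2 ⟨Z, z1, z2, z3⟩
  have e1 : ∀ x ∈ K, x ∈ H₂ → x ∈ H₁ := fun x a b => (e.symm.subset ⟨a, b⟩).2
  have fro : ∀ Z' : Set P, (∀ x ∈ K, ind Z' x = ind Z x) → (∀ x ∈ H₂, ∀ y ∈ H₂, ind Z' x = ind Z' y) →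
      Fro (K ∪ H₂) Z' w₂ := fun Z' a b => by
    refine z3.imp (fun g x hx y hy h => ?_) fun g x hx y hy h => ?_
    all_goals
      rcases hy with k | k
      · rw [← ew x (lK h k) y k h, g x (.inl (lK h k)) y (.inl k) h]
        simp only [Pi.neg_apply, cb, a x (lK h k), a y k]
      · rw [f2 x (l2 h k) y k h]
        simp [cb, b x (l2 h k) y k]
  have cst : ∀ x ∈ H₁, ∀ y ∈ H₁, ind Z x = ind Z y := fun x hx y hy =>
    (c1.conn x hx y hy).eq fun a ha b hb h => by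
      have k := f1 a ha b hb h
      rcases z3 with g | g <;> rw [g a (.inr ha) b (.inr hb) h] at k <;>
        simp only [Pi.neg_apply, cb] at k <;> linarith
  by_cases h : H₁ ⊆ Z
  · have v : ∀ H : Set P, IsLowerSet H → (∀ x ∈ K, x ∈ H → x ∈ Z) → Cvr (Z ∩ K) H := fun H l k =>
      .inl ⟨fun x hx y hy hxy => ⟨hx.elim (·.1) (k x (lK hxy hy.2)), lK hxy hy.2⟩,
        fun x _ y hy hxy => l hxy hy⟩
    have v1 := v H₁ l1 fun _ _ k => h k
    have v2 := v H₂ l2 fun x a b => h (e1 x a b)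
    have u1 : Z ∩ K ∪ H₁ = Z := Set.Subset.antisymm (Set.union_subset Set.inter_subset_left h)
      fun x hx => (z1 hx).imp_left fun k => ⟨hx, k⟩
    have i1 : Z ∩ K ∩ H₁ = K ∩ H₁ := Set.ext fun x => ⟨fun k => ⟨k.1.2, k.2⟩, fun k => ⟨⟨h k.2, k.1⟩, k.2⟩⟩
    have i2 : Z ∩ K ∩ H₂ = K ∩ H₁ := Set.ext fun x => ⟨fun k => ⟨k.1.2, e1 x k.1.2 k.2⟩,
      fun k => ⟨⟨h k.2, k.1⟩, (e.subset k).2⟩⟩
    refine ⟨Z ∩ K ∪ H₂, Set.union_subset_union_left _ Set.inter_subset_right, ⟨c2.ne.inr,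
      conn_union (v1.conn_left (u1.symm ▸ z2.conn) (i1.symm ▸ hc) (i1.symm ▸ hne)) c2.conn
        (i2.symm ▸ hne), fun G _ ζ hζ => ?_, ?_⟩, fro _ (fun x hx => ind_congr ⟨fun k => k.elim (·.1)
        fun k => h (e1 x hx k), fun k => .inl ⟨k, hx⟩⟩) fun x hx y hy =>
        (if_pos (.inr hx)).trans (if_pos (.inr hy)).symm⟩
    · obtain ⟨g, hg⟩ := c2.ex G ζ (Alg36.CocOn.mono hζ Set.subset_union_right)
      obtain ⟨c, a1, a2, -⟩ := v1.glue (b := cb g) (Alg36.CocOn.mono hζ Set.subset_union_left)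
        (fun _ _ _ _ _ _ _ _ => by simp [cb]) fun x hx y hy k =>
          hg x (i2.symm.subset (i1.subset hx)).2 y (i2.symm.subset (i1.subset hy)).2 k
      rw [u1] at a1
      exact v2.exOn (Alg36.ExOn.congr (Alg36.ExOn.mono (z2.ex G c a1) Set.inter_subset_left)
        fun x hx y hy k => (a2 x hx y hy k).symm) ⟨g, hg⟩ (i2.symm ▸ hc)
    · have k := v1.eu_union
      rw [u1, z2.eu, c1.eu, i1] at k
      rw [v2.eu_union, c2.eu, i2, ← k]
  · obtain ⟨m, m1, m2⟩ := Set.not_subset.1 h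
    have n : ∀ x ∈ H₁, x ∉ Z := fun x hx k => by simpa [ind, k, m2] using cst x hx m m1
    have n2 : ∀ x ∈ H₂, x ∉ Z := fun x hx k => (z1 k).elim (fun g => n x (e1 x g hx) k) fun g => n x g k
    exact ⟨Z, fun x hx => .inl ((z1 hx).resolve_right fun k => n x k hx), z2, fro Z (fun _ _ => rfl)
      fun x hx y hy => (if_neg (n2 x hx)).trans (if_neg (n2 y hy)).symm⟩

theorem extStmt : ExtStmt := by
  intro P _ _ X X' Λ uX uX' hs lΛ hO hΛ
  have lc : ∀ {x y : P}, x ≤ y → y ∈ cl X' → x ∈ cl X' := fun h ⟨a, ha, k⟩ => ⟨a, ha, h.trans k⟩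
  have c1 : ∀ (G : Type) [AddCommGroup G] (w : P → P → G), CocOn (cl X') w → Flat (Λ ∩ cl X') w →
      CocOn (cl X) (ext X' w) := fun G _ w hw hf x _ y _ v hv h1 h2 => by
    unfold ext
    by_cases a : v ∈ cl X'
    · rw [if_pos a, if_pos a, if_pos (lc h2 a), hw x (lc (h1.trans h2) a) y (lc h2 a) v a h1 h2]
    · rw [if_neg a, if_neg a, add_zero]
      split_ifs with b
      · exact (hf x ⟨lΛ h1 (hΛ y b v hv h2 a), lc h1 b⟩ y ⟨hΛ y b v hv h2 a, b⟩ h1).symm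
      · rfl
  refine ⟨c1, fun w hf => ?_⟩
  have z : ∀ {x y : P}, x ≤ y → y ∈ X → y ∉ X' → ext X' w x y = 0 := fun {x y} h a b => by
    unfold ext
    split_ifs with k
    · exact hf x ⟨lΛ h (hO ⟨⟨b, k⟩, a⟩), lc h k⟩ y ⟨hO ⟨⟨b, k⟩, a⟩, k⟩ h
    · rfl
  have p : ∀ {x y : P}, y ∈ cl X' → ext X' w x y = w x y := fun h => if_pos h
  have s1 : S1 X' w → S1 X (ext X' w) := fun h => ⟨c1 ℤ w h.coc hf, fun x y _ k => by
      unfold ext
      split_ifs with a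
      exacts [h.nn x y a k, le_rfl], fun x y _ k => by
      unfold ext
      split_ifs with a
      exacts [h.le1 x y a k, zero_le_one]⟩
  have ca : CA X (ext X' w) = CA X' w := Set.ext fun c => ⟨fun h => by
      have a : c.top ∈ X' := by_contra fun n => h.2.ne' (z c.bot_le_top h.1 n)
      exact ⟨a, p ⟨_, a, le_rfl⟩ ▸ h.2⟩, fun h => ⟨hs h.1, (p ⟨_, h.1, le_rfl⟩).symm ▸ h.2⟩⟩
  have ch : chi X (ext X' w) = chi X' w := by
    have m : ∀ {Y : Set P}, IsUpperSet Y → ∀ c : Ch P, Mt Y c ↔ c.top ∈ Y := fun h c =>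
      ⟨fun ⟨_, a, b⟩ => h (Ch.le_top a) b, fun k => ⟨_, c.top_mem, k⟩⟩
    simp only [chi, sum_filter, m uX, m uX']
    refine sum_congr rfl fun c _ => ?_
    by_cases a : c.top ∈ X'
    · rw [if_pos a, if_pos (hs a), p ⟨_, a, le_rfl⟩]
    · rw [if_neg a]
      split_ifs with b
      · rw [z c.bot_le_top b a, mul_zero]
      · rfl
  refine ⟨s1, fun _ => ⟨ca, ch⟩, fun h => ⟨s1 h.toS1, ca ▸ h.conn, ch ▸ h.chi, ?_⟩,
    fun h => ⟨s1 h.toS1, fun x hx y hy k => ?_, ca ▸ h.conn, ch ▸ h.chi⟩⟩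
  · obtain ⟨c, a, b⟩ := h.ne
    have t := a _ c.top_mem
    have n : c.top ∉ X := fun k => b.ne' ((p t.2).symm.trans (z c.bot_le_top k t.1))
    exact ⟨c, fun x hx => ⟨fun k => n (uX (Ch.le_top hx) k),
      let ⟨u, hu, k⟩ := (a x hx).2; ⟨u, hs hu, k⟩⟩, (p t.2).symm ▸ b⟩
  · unfold ext
    split_ifs with a
    · exact h.flat x ⟨fun n => hx.1 (hs n), lc k a⟩ y ⟨fun n => hy.1 (hs n), a⟩ k
    · rfl

end Crest.Agent.X212.Hk
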