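import Crest.Agent.X212.Lab56.Ref
import Crest.Agent.X212.Weil93.Main
import Crest.Agent.X212.Dr59.Lat

/-!
# X212 / Sm25 / Dsc (helper25): lines with curvature classes in a compact set

* `disc` : up to isomorphism over a compact set there are finitely many;
* `uni_det` : the determinant line of a twist;  `finite_cls` : the same for spin^c classes.
-/

set_option autoImplicit false
set_option linter.unusedSectionVars false

open Set Filter Topology Function Matrix TopologicalSpace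
open scoped ContDiff Manifold Kronecker ComplexOrder
open Crest.Agent.R208 Crest.Agent.R208.F Crest.Agent.X212.Dr59 Crest.Agent.X212.Pj41
open Crest.Agent.X212.Lab56 Crest.Agent.X212.Weil93
open Crest.Agent.X212.Line51 hiding dm

noncomputable section

namespace Crest.Agent.X212.Sm25

theorem exists_cov {X : Type*} [TopologicalSpace X] [MetrizableSpace X] {G : Set X → Prop}
    (ho : ∀ U, G U → IsOpen U) (hG : ∀ x, ∀ O ∈ 𝓝 x, ∃ U ∈ 𝓝 x, G U ∧ U ⊆ O) {K : Set X}
    (hK : IsCompact K) : ∃ (t : Finset X) (C B : t → Set X), (∀ j, G (C j) ∧ G (B j)) ∧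
      K ⊆ ⋃ j, C j ∧ ∀ j k, (C j ∩ C k).Nonempty → C j ⊆ B k := by
  let _ := metrizableSpaceMetric X
  choose B b1 b2 _ using fun x => hG x univ univ_mem
  obtain ⟨δ, d0, hδ⟩ := lebesgue_number_lemma_of_metric hK (fun x => ho _ (b2 x))
    fun x _ => mem_iUnion.2 ⟨x, mem_of_mem_nhds (b1 x)⟩
  choose! z hz using hδ
  choose C c1 c2 c3 using fun x => hG x _ (Metric.ball_mem_nhds x (show 0 < δ / 3 by positivity))
  obtain ⟨t, t1, t2⟩ := hK.elim_nhds_subcover C fun x _ => c1 x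
  refine ⟨t, fun j => C j, fun j => B (z j), fun j => ⟨c2 _, b2 _⟩, fun x hx => ?_,
    fun j k ⟨w, w1, w2⟩ y hy => hz k (t1 _ k.2) ?_⟩
  · obtain ⟨j, hj, e⟩ := mem_iUnion₂.1 (t2 hx)
    exact mem_iUnion.2 ⟨⟨j, hj⟩, e⟩
  · have a1 : dist y j < δ / 3 := c3 _ hy
    have a2 : dist w j < δ / 3 := c3 _ w1
    have a3 : dist w k < δ / 3 := c3 _ w2
    have := dist_triangle4 y j w k
    rw [dist_comm (j : X) w] at this
    exact show dist y k < δ by linarith

theorem exists_class {α P : Type*} [TopologicalSpace P] {S : Set P} (hS : IsCompact S) {W : P × P → Prop}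
    (hW : ∀ p ∈ S, ∀ᶠ z in 𝓝 (p, p), W z) {f : α → P} (hf : ∀ a, f a ∈ S) :
    ∃ (t : Finset P) (g : α → t), ∀ a b, g a = g b → W (f a, f b) := by
  choose! N n1 n2 n3 using fun p hp => exists_nhds_square (hW p hp)
  obtain ⟨t, k, h⟩ := hS.elim_nhds_subcover N fun p hp => (n1 p hp).mem_nhds (n2 p hp)
  choose g g1 g2 using fun a => mem_iUnion₂.1 (h (hf a))
  exact ⟨t, fun a => ⟨g a, g1 a⟩, fun a b e =>
    n3 (g a) (k _ (g1 a)) (mk_mem_prod (g2 a) ((show g a = g b from congrArg Subtype.val e) ▸ g2 b))⟩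

variable {E : Type} [NormedAddCommGroup E] [NormedSpace ℝ E] [FiniteDimensional ℝ E]
  {H : Type} [TopologicalSpace H] {I : ModelWithCorners ℝ E H} [I.Boundaryless]
  {M : Type} [TopologicalSpace M] [ChartedSpace H M] [IsManifold I ∞ M]
  {n l : Type} [Fintype n] [DecidableEq n] [Fintype l] [DecidableEq l] {U K : Set M} {α β : M → Ext E}

/-- a parallel unit scalar is constant -/
theorem const_of_par (hU : IsOpen U) (hc : IsPreconnected U) {g : M → Matrix Unit Unit ℂ}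
    (h : Iso I (triv α) (triv α) g U) : ∃ c : ℂ, ‖c‖ = 1 ∧ ∀ x ∈ U, g x = c • 1 := by
  have k : ∀ x ∈ U, ∀ v, dc I (fun y => g y () ()) x v = 0 := fun x hx v => by
    have e := dm_congr (I := I) (u' := fun _ => 1)
      (eventually_of_mem (hU.mem_nhds hx) fun y hy => (h.iso y hy).src) v
    rw [dm_mul (h.sm x hx).ct (h.sm x hx), dm_ct (h.sm x hx), dm_const] at e
    have e2 := congrArg Complex.re (congrFun (congrFun e ()) ())
    have e3 := LinearMap.congr_fun ((ExteriorAlgebra.ι_eq_zero_iff _).1 (add_eq_right.1 (h.par x hx))) v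
    have e4 := congrArg Complex.re (congrFun (congrFun (h.iso x hx).src ()) ())
    rw [tl_eq_sum] at e3
    simp [Matrix.mul_apply, dm_apply, triv] at e2 e3 e4
    generalize dc I (fun y => g y () ()) x v = w at e2 e3
    generalize g x () () = z at e2 e3 e4
    exact Complex.ext (show w.re = 0 by linear_combination (z.re / 2) * e2 - z.im * e3 - w.re * e4)
      (show w.im = 0 by linear_combination (z.im / 2) * e2 + z.re * e3 - w.im * e4)
  obtain ⟨r, hr⟩ := const_of_df (I := I) (f := fun y => (g y () ()).re) hU hc fun x hx =>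
    ⟨fsm_re (h.sm x hx () ()), (congrArg io (LinearMap.ext fun v =>
      (mf_re (md_of (h.sm x hx () ())) v).trans (by rw [k x hx]; rfl))).trans (map_zero _)⟩
  obtain ⟨s, hs⟩ := const_of_df (I := I) (f := fun y => (g y () ()).im) hU hc fun x hx =>
    ⟨fsm_im (h.sm x hx () ()), (congrArg io (LinearMap.ext fun v =>
      (mf_im (md_of (h.sm x hx () ())) v).trans (by rw [k x hx]; rfl))).trans (map_zero _)⟩
  rcases U.eq_empty_or_nonempty with rfl | ⟨y, hy⟩
  · exact ⟨1, norm_one, fun _ h => h.elim⟩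
  have e : ∀ x ∈ U, g x = (⟨r, s⟩ : ℂ) • 1 := fun x hx =>
    (Lab56.unit_eq _).trans (congrArg (· • _) (Complex.ext (hr x hx) (hs x hx)))
  have := (piso_ratio (by simp) Prj.one.refl (h.iso y hy)).2
  rw [e y hy] at this
  exact ⟨_, by simpa using this, e⟩

theorem fr_exp {L : Ln E M n} {s : M → Matrix n Unit ℂ} (h : L.Fr I s α U) {f : M → ℝ}
    (hf : ∀ x ∈ U, FSm I f x ∧ df I f x = β x - α x) :
    L.Fr I (fun x => s x * sc (fun y => Circle.exp (f y)) x) β U :=
  (h.mul_sc fun x hx => (contMDiff_circleExp _).comp x (hf x hx).1).of_eq (fun _ _ => rfl)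
    (fun x hx => by
      show β x = α x + ang I (fun y => Circle.exp (f y)) x
      rw [ang_exp (hf x hx).1, (hf x hx).2, add_sub_cancel]) (fun _ _ => rfl) fun _ _ => rfl

/-- frames with a prescribed potential -/
theorem exists_par {L : Ln E M n} (h : L.On I univ) (hU : Nice I U) (hp : Pic0 I univ U) (s : Sm I U β)
    (d : Dg 1 U β) (e : ∀ x ∈ U, dM I β x = L.F I x) : ∃ s, L.Fr I s β U := by
  obtain ⟨S, hS⟩ := hp n L.p (.of_ln h)
  have h0 : L.Fr I S (th I S + L.a) U := ⟨hS, fun _ _ => rfl⟩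
  have a := h.sa.mono (subset_univ U)
  have k : Cl I 1 U (β - (th I S + L.a)) :=
    ⟨s.sub (h0.sm_fr hU.op a), d.sub (h0.dg_fr (h.dg.mono (subset_univ U))), fun x hx => by
      rw [dM_sub ne0 (s x hx) (h0.sm_fr hU.op a x hx), e x hx, h0.F_fr hU.op a hx, sub_self]⟩
  obtain ⟨f, hf⟩ := exists_df hU.op (hU.hz 0 _ k) k.dg
  exact ⟨_, fr_exp h0 hf⟩

/-- the transition function of two such frames -/
theorem exists_tr {L : Ln E M n} {s s' : M → Matrix n Unit ℂ} (hU : Nice I U) (h : L.Fr I s α U)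
    (h' : L.Fr I s' β U) {f : M → ℝ} (hf : ∀ x ∈ U, FSm I f x ∧ df I f x = β x - α x) :
    ∃ c : ℂ, ‖c‖ = 1 ∧ ∀ x ∈ U, s' x = (c * Circle.exp (f x)) • s x := by
  have k := fr_exp h hf
  obtain ⟨c, c1, c2⟩ := const_of_par hU.op hU.pc (h'.trans k.symm)
  refine ⟨c, c1, fun x hx => ?_⟩
  rw [← (h'.iso x hx).left, ← (k.iso x hx).tgt, Matrix.mul_assoc, c2 x hx, mul_sc, Matrix.mul_smul,
    Matrix.mul_one, smul_smul]

/-- lines with close transition functions are isomorphic -/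
theorem uni_of_tr {J : Type} [Fintype J] {V : J → Set M} {ρ : SmoothPartitionOfUnity J I M K}
    (hρ : ρ.IsSubordinate V) {q : M → Matrix n n ℂ} {q' : M → Matrix l l ℂ} (hq : LOn I q univ)
    (hq' : LOn I q' univ) {w : J → M → Matrix l n ℂ} (hw : ∀ j, Uni I q q' (w j) (V j))
    (e : ∀ j k, ∀ y ∈ K ∩ tsupport (ρ j) ∩ tsupport (ρ k), ∃ c : ℂ, 0 < c.re ∧ w k y = c • w j y) :
    ∃ u, Uni I q q' u K := by
  have k : ∀ y ∈ K, ∃ j, y ∈ V j ∧ ∃ c : ℂ, c ≠ 0 ∧ ∑ k, ρ k y • w k y = c • w j y := fun y hy => by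
    obtain ⟨j, hj⟩ := ρ.exists_pos_of_mem hy
    have t : ∀ k, ρ k y ≠ 0 → y ∈ tsupport (ρ k) := fun k h => subset_tsupport _ h
    choose! c c1 c2 using fun k (h : ρ k y ≠ 0) => e j k y ⟨⟨hy, t j hj.ne'⟩, t k h⟩
    refine ⟨j, hρ j (t j hj.ne'), ∑ k, ρ k y • c k, fun h => ?_, ?_⟩
    · refine (Finset.sum_pos' (s := Finset.univ) (f := fun k => ρ k y * (c k).re) (fun k _ => ?_)
        ⟨j, Finset.mem_univ _, mul_pos hj (c1 j hj.ne')⟩).ne' (by simpa using congrArg Complex.re h)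
      by_cases h0 : ρ k y = 0
      · rw [h0, zero_mul]
      · exact mul_nonneg (ρ.nonneg k y) (c1 k h0).le
    · rw [Finset.sum_smul]
      refine Finset.sum_congr rfl fun k _ => ?_
      by_cases h0 : ρ k y = 0
      · rw [h0, zero_smul, zero_smul, zero_smul]
      · rw [c2 k h0, smul_assoc]
  have p : ∀ y ∈ K, (gram (q y) (∑ k, ρ k y • w k y)).PosDef := fun y hy => by
    obtain ⟨j, hj, c, c0, hc⟩ := k y hy
    exact gram_posDef_of_left_inv (hq.prj y trivial) (b := c⁻¹ • (w j y)ᴴ) (by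
      rw [hc, Matrix.smul_mul, Matrix.mul_smul, smul_smul, inv_mul_cancel₀ c0, one_smul,
        ((hw j).iso y hj).src])
  refine ⟨fun y => nrm (q y) (∑ k, ρ k y • w k y), fun y hy => MSm.nrm (hq.sm y trivial)
    (MSm.sum fun k _ => MSm.cutoff ((ρ k).contMDiff y) (hρ k) ((hw k).sm y))
    (.of_forall fun z => hq.prj z trivial) (p y hy), fun y hy => ?_⟩
  obtain ⟨j, hj, c, -, hc⟩ := k y hy
  exact nrm_piso (hq.prj y trivial) (hq'.prj y trivial)
    (by rw [hc, Matrix.smul_mul, ((hw j).iso y hj).idem])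
    (by rw [hc, Matrix.mul_smul, ((hw j).iso y hj).left]) (p y hy)
    ((hq.tr y trivial).trans (hq'.tr y trivial).symm)

theorem df_comb {ι : Type} [Fintype ι] {f : ι → M → ℝ} {x : M} (h : ∀ i, FSm I (f i) x) (t : ι → ℝ) :
    FSm I (fun y => ∑ i, t i * f i y) x ∧ df I (fun y => ∑ i, t i * f i y) x = ∑ i, t i • df I (f i) x := by
  have s : FSm I (fun y => ∑ i, t i * f i y) x := FSm.sum' fun i _ => contMDiffAt_const.mul (h i)
  have e : fn E (fun y => ∑ i, t i * f i y) = ∑ i, t i • fn E (f i) := by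
    funext y
    simp only [fn, Finset.sum_apply, Pi.smul_apply, Algebra.algebraMap_eq_smul_one, Finset.sum_smul,
      mul_smul]
  refine ⟨s, ?_⟩
  rw [← dM_fn (s.mdifferentiableAt ne0), e, dM_sum ne0 fun i _ => (cAt_fn le_rfl (h i)).smul _]
  exact Finset.sum_congr rfl fun i _ => by
    rw [dM_smul ne0 _ (cAt_fn le_rfl (h i)), dM_fn ((h i).mdifferentiableAt ne0)]

variable [T2Space M] [SigmaCompactSpace M]

theorem exists_pic (x : M) : ∃ U ∈ 𝓝 x, Pic0 I univ U := by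
  obtain ⟨ε, ε0, hε⟩ := Metric.isOpen_iff.1 (isOpen_extChartAt_target (I := I) x) _
    (mem_extChartAt_target (I := I) x)
  set c := extChartAt I x x
  have o : IsOpen ((extChartAt I x).source ∩ extChartAt I x ⁻¹' Metric.ball c ε) :=
    isOpen_extChartAt_preimage' x Metric.isOpen_ball
  have d : Dfm (Metric.ball c ε) {c} :=
    ⟨fun z => (1 - z.1) • c + z.1 • z.2, by fun_prop, fun t ht y hy => convex_ball c ε
      (Metric.mem_ball_self ε0) hy (sub_nonneg.2 ht.2) ht.1 (sub_add_cancel _ _),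
      fun _ _ => by simp, fun _ _ => by simp⟩
  refine ⟨_, o.mem_nhds ⟨mem_extChartAt_source x, Metric.mem_ball_self ε0⟩,
    Pic0.dfm (O₀ := {x}) (fun n _ _ q hq => ?_) (d.comp (q := (extChartAt I x).symm)
      ((continuousOn_extChartAt x).mono inter_subset_left) (fun _ hy => hy.2)
      ((continuousOn_extChartAt_symm x).mono hε) (fun u hu => ⟨(extChartAt I x).map_target (hε hu), ?_⟩)
      (fun u hu => ?_) fun y hy => (extChartAt I x).left_inv hy.1) o (subset_univ _)⟩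
  · obtain ⟨a, ha⟩ := exists_unit (hq.prj x trivial) (hq.tr x trivial)
    exact ⟨fun _ => a, fun _ _ => MSm.const _, fun y hy => (show y = x from hy) ▸ ha⟩
  · rwa [mem_preimage, (extChartAt I x).right_inv (hε hu)]
  · rw [show u = c from hu.2]
    exact extChartAt_to_inv x

/-- **lines with curvature classes in a compact set** -/
theorem disc_ln {A ι : Type} [Fintype ι] {m : A → Type} [∀ a, Fintype (m a)] [∀ a, DecidableEq (m a)]
    {q : ∀ a, M → Matrix (m a) (m a) ℂ} (hq : ∀ a, LOn I (q a) univ) {e : ι → M → Ext E}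
    (he : ∀ i, Cl I 2 univ (e i)) {S : Set (ι → ℝ)} (hS : IsCompact S)
    (hx : ∀ a, ∃ t ∈ S, Ex I univ (Ln.F I ⟨q a, 0⟩ - ∑ i, t i • e i)) (hK : IsCompact K) :
    ∃ (τ : Type) (_ : Finite τ) (g : A → τ), ∀ a b, g a = g b → ∃ u, Uni I (q a) (q b) u K := by
  have := Manifold.metrizableSpace I M
  obtain ⟨J, C, B, h1, h2, h3⟩ := exists_cov (G := fun U => Nice I U ∧ Pic0 I univ U) (fun _ h => h.1.op)
    (fun x O hO => by
      obtain ⟨P, p1, p2⟩ := exists_pic (I := I) x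
      obtain ⟨U, u1, u2, u3⟩ := exists_nice (I := I) x _ (inter_mem hO p1)
      exact ⟨U, u1, ⟨u2, p2.mono Subset.rfl fun _ h => (u3 h).2⟩, fun _ h => (u3 h).1⟩) hK
  obtain ⟨ρ, hρ⟩ := SmoothPartitionOfUnity.exists_isSubordinate I hK.isClosed C (fun j => (h1 j).1.1.op) h2
  choose β b1 b2 b3 using fun j i =>
    ((h1 j).2.1.hz 1 (e i) ((he i).mono (subset_univ _))).deg (k := 1) ((he i).dg.mono (subset_univ _))
  have cb : ∀ j, C j ⊆ B j := fun j x hx => h3 j j ⟨x, hx, hx⟩ hx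
  have hγ : ∀ j k i, ∃ f : M → ℝ, (C j ∩ C k).Nonempty →
      ∀ x ∈ C j, FSm I f x ∧ df I f x = β k i x - β j i x := fun j k i => by
    by_cases hn : (C j ∩ C k).Nonempty
    · have s1 := h3 j k hn
      have s2 := cb j
      have c : Cl I 1 (C j) (β k i - β j i) :=
        ⟨((b1 k i).mono s1).sub ((b1 j i).mono s2), ((b2 k i).mono s1).sub ((b2 j i).mono s2),
          fun x hx => by
            rw [dM_sub ne0 (b1 k i x (s1 hx)) (b1 j i x (s2 hx)), b3 k i x (s1 hx), b3 j i x (s2 hx),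
              sub_self]⟩
      obtain ⟨f, hf⟩ := exists_df (h1 j).1.1.op ((h1 j).1.1.hz 0 _ c) c.dg
      exact ⟨f, fun _ => hf⟩
    · exact ⟨0, fun h => (hn h).elim⟩
  choose γ hγ using hγ
  let T : (ι → ℝ) × (J × J → ℂ) → J → J → M → ℂ := fun p j k y =>
    p.2 (j, k) * Circle.exp (∑ i, p.1 i * γ j k i y)
  have key : ∀ a, ∃ p ∈ S ×ˢ pi univ fun _ : J × J => Metric.sphere (0 : ℂ) 1,
      ∃ s : J → M → Matrix (m a) Unit ℂ, (∀ j, Uni I (fun _ => 1) (q a) (s j) (C j)) ∧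
        ∀ j k, ∀ y ∈ C j ∩ C k, s k y = T p j k y • s j y := fun a => by
    obtain ⟨t, ht, hb⟩ := hx a
    have l := (hq a).on
    obtain ⟨b, k1, k2, k3⟩ := hb.deg (k := 1) ((l.cl_F isOpen_univ).sub
      (cl_sum fun i _ => (he i).smul (t i))).dg
    have l' := l.shift k1.neg k2.neg
    choose s hs using fun j => exists_par (β := ∑ i, t i • β j i) l' (h1 j).2.1 (h1 j).2.2
      (sm_sum fun i _ => (b1 j i).smul _) (dg_sum fun i _ => (b2 j i).smul _) fun x hx => by
        rw [l.F_shift isOpen_univ k1.neg trivial, dM_neg, Pi.neg_apply, k3 x trivial,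
          dM_sum ne0 fun i _ => (b1 j i x hx).smul _, Pi.sub_apply, ← sub_eq_add_neg, sub_sub_cancel,
          Finset.sum_apply]
        exact Finset.sum_congr rfl fun i _ => by
          rw [dM_smul ne0 _ (b1 j i x hx), b3 j i x hx, Pi.smul_apply]
    have hc : ∀ z : J × J, ∃ c : ℂ, ‖c‖ = 1 ∧ ∀ y ∈ C z.1 ∩ C z.2,
        s z.2 y = (c * Circle.exp (∑ i, t i * γ z.1 z.2 i y)) • s z.1 y := fun ⟨j, k⟩ => by
      by_cases hn : (C j ∩ C k).Nonempty
      · refine (exists_tr (h1 j).1.1 ((hs j).mono (cb j)) ((hs k).mono (h3 j k hn)) fun x hx => ?_).imp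
          fun c h => ⟨h.1, fun y hy => h.2 y hy.1⟩
        have := df_comb (fun i => (hγ j k i hn x hx).1) t
        refine ⟨this.1, this.2.trans ?_⟩
        simp only [Finset.sum_apply, Pi.smul_apply, ← Finset.sum_sub_distrib, ← smul_sub,
          fun i => (hγ j k i hn x hx).2]
      · exact ⟨1, norm_one, fun y hy => (hn ⟨y, hy⟩).elim⟩
    choose c c1 c2 using hc
    exact ⟨(t, c), ⟨ht, fun z _ => mem_sphere_zero_iff_norm.2 (c1 z)⟩, s,
      fun j => ((hs j).mono (cb j)).toUni, fun j k => c2 (j, k)⟩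
  choose p hp s s1 s2 using key
  have m : ∀ {j k y}, y ∈ K ∩ tsupport (ρ j) ∩ tsupport (ρ k) → y ∈ C j ∩ C k := fun h =>
    ⟨hρ _ h.1.2, hρ _ h.2⟩
  obtain ⟨τ, g, hg⟩ := exists_class (hS.prod (isCompact_univ_pi fun _ => isCompact_sphere _ _))
    (W := fun z => ∀ j k, ∀ y ∈ K ∩ tsupport (ρ j) ∩ tsupport (ρ k),
      0 < (T z.2 j k y * star (T z.1 j k y)).re) (fun p hp => eventually_all.2 fun j => eventually_all.2
      fun k => ((hK.inter_right (isClosed_tsupport _)).inter_right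
        (isClosed_tsupport _)).eventually_forall_of_forall_eventually fun y hy => by
      have c : ∀ i, ContinuousAt (γ j k i) y := fun i => (hγ j k i ⟨y, m hy⟩ y (m hy).1).1.continuousAt
      refine continuousAt_const.eventually_lt (Complex.continuous_re.continuousAt.comp ?_) ?_
      · simp only [T, Circle.coe_exp]
        fun_prop
      · simp only [T, Complex.star_def, Complex.mul_conj, Complex.ofReal_re, Complex.normSq_pos]
        exact mul_ne_zero (ne_zero_of_mem_unit_sphere ⟨_, hp.2 (j, k) trivial⟩) (Circle.coe_ne_zero _)) hp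
  refine ⟨τ, inferInstance, g, fun a b e => uni_of_tr hρ (hq a) (hq b)
    (fun j => (s1 a j).symm.trans (s1 b j)) fun j k y hy => ⟨_, hg a b e j k y hy, ?_⟩⟩
  rw [s2 a j k y (m hy), s2 b j k y (m hy), conjTranspose_smul, Matrix.smul_mul, Matrix.mul_smul, smul_smul]

/-- the determinant line of a twist -/
theorem uni_det {ι κ : Type} [Fintype ι] [Fintype κ] [DecidableEq ι] [DecidableEq κ] {d : Sc I M ι κ}
    (h : d.On U) {q : M → Matrix n n ℂ} (hq : LOn I q U) :
    Uni I (fun x => d.det x ⊗ₖ (q x ⊗ₖ q x)) (d.tw q).det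
      (fun x => (d.det x ⊗ₖ (q x ⊗ₖ q x)).submatrix (Equiv.prodProdProdComm κ n κ n) id) U := by
  have l := h.det.kron (hq.kron hq)
  refine ⟨fun x hx => (l.sm x hx).submatrix _ _, fun x hx => PIso.of_prj (l.prj x hx).idem ?_ ?_⟩
  · rw [conjTranspose_submatrix, submatrix_mul_equiv, (l.prj x hx).herm, (l.prj x hx).idem, submatrix_id_id]
  · obtain ⟨a, ha⟩ := exists_unit (h.det.prj x hx) (h.det.tr x hx)
    obtain ⟨s, hs⟩ := exists_unit (hq.prj x hx) (hq.tr x hx)
    rw [conjTranspose_submatrix, ← Equiv.coe_refl, submatrix_mul_equiv, (l.prj x hx).herm, (l.prj x hx).idem,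
      ← (piso_tk2 h hx ha hs).tgt, ← ha.tgt, ← hs.tgt]
    ext i j
    simp only [tk2, mul_apply, submatrix_apply, kroneckerMap_apply, conjTranspose_apply, of_apply,
      Fintype.sum_unique, Equiv.prodProdProdComm_apply, star_mul']
    ring

/-- the curvature of the difference line is half the difference of the curvatures -/
theorem ex_hl {ι κ ι' : Type} [Fintype ι] [Fintype κ] [Fintype ι'] [DecidableEq ι] [DecidableEq κ]
    [DecidableEq ι'] {d : Sc I M ι κ} {d' : Sc I M ι' l} (hU : IsOpen U) (h : d.On U) (h' : d'.On U)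
    (k : Ln.On I ⟨d.det, α⟩ U) (k' : Ln.On I ⟨d'.det, β⟩ U) :
    Ex I U (Ln.F I ⟨d'.det, β⟩ - (Ln.F I ⟨d.det, α⟩ + (2 : ℝ) • Ln.F I ⟨d.hl d', 0⟩)) := by
  have q := (h.hl h').on
  refine (Uni.ex_F (L := Ln.tens ⟨d.det, α⟩ (Ln.tens ⟨d.hl d', 0⟩ ⟨d.hl d', 0⟩)) hU
    ((uni_det h (h.hl h')).trans ((iw_ev h h').dm (h.tw (h.hl h')) h')) (k.tens (q.tens q)) k').congr
    fun x hx => ?_
  rw [Pi.sub_apply, Pi.sub_apply, k.F_tens hU (q.tens q) hx, q.F_tens hU q hx, two_smul]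
  rfl

variable [MeasurableSpace E] [BorelSpace E] [MeasurableSpace M] [BorelSpace M] [SecondCountableTopology M]

theorem exists_span {ι : Type} [Fintype ι] {o : M → Ext E} {e : ι → M → Ext E} (ho : Int54.Ori I o)
    (he : ∀ i, Cs I 2 univ (e i)) (hn : ∀ c, Cl I 2 univ c → (∀ i, ip I o c (e i) = 0) → Ex I univ c) :
    ∃ (n : ℕ) (f : Fin n → M → Ext E) (Φ : (ι → ℝ) → Fin n → ℝ), (∀ k, Cl I 2 univ (f k)) ∧ Continuous Φ ∧
      ∀ c, Cl I 2 univ c → Ex I univ (c - ∑ k, Φ (fun i => ip I o c (e i)) k • f k) := by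
  let P : HR I 2 (univ : Set M) →ₗ[ℝ] ι → ℝ := HR.lift
    { toFun := fun a i => ip I o a.1 (e i)
      map_add' := fun a b => funext fun i => (he i).ip_add ho a.2.sm b.2.sm
      map_smul' := fun r a => funext fun i => ip_smul r o a.1 (e i) } fun a ha => funext fun i => (he i).ip_ex ho ha
  have hP : LinearMap.ker P = ⊥ := LinearMap.ker_eq_bot'.2 fun z hz => by
    obtain ⟨c, hc, rfl⟩ := exists_cls z
    exact cls_eq_zero.2 (hn c hc (congrFun hz))
  obtain ⟨g, hg⟩ := P.exists_leftInverse_of_injective hP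
  have := Module.Finite.of_injective P (LinearMap.ker_eq_bot.1 hP)
  let b := Module.finBasis ℝ (HR I 2 (univ : Set M))
  choose f hf hf' using fun i => exists_cls (b i)
  refine ⟨_, f, b.equivFun.toLinearMap ∘ₗ g, hf, LinearMap.continuous_of_finiteDimensional _, fun c hc =>
    (cls_eq (h := hc) (h' := cl_sum fun k _ => (hf k).smul _)).1 ?_⟩
  refine ((LinearMap.congr_fun hg _).symm.trans (b.sum_repr _).symm).trans ?_
  simp only [← hf']
  exact (cls_sum fun k => (hf k).smul _).symm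

/-- **finitely many classes have bounded periods** -/
theorem finite_inj {ι : Type} [Fintype ι] {o : M → Ext E} {O O' : Set M} {e : ι → M → Ext E}
    (ho : Int54.Ori I o) (he : ∀ i, Cs I 2 univ (e i))
    (hn : ∀ c, Cl I 2 univ c → (∀ i, ip I o c (e i) = 0) → Ex I univ c) (hK : IsCompact K) (hO : IsOpen O)
    (h1 : Dfm univ O) (h2 : Dfm O O') (h3 : O' ⊆ O) (h4 : O' ⊆ K) (R : ℝ) :
    {d : Cls I (univ : Set M) | ∃ D : Dat I (univ : Set M), Quot.mk _ D = d ∧ ∃ a, Ln.On I ⟨D.d.det, a⟩ univ ∧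
      ∀ i, |ip I o (Ln.F I ⟨D.d.det, a⟩) (e i)| ≤ R}.Finite := by
  rcases isEmpty_or_nonempty (Cls I (univ : Set M)) with _ | ⟨⟨⟨a₀⟩⟩⟩
  · exact toFinite _
  rw [← finite_coe_iff]
  choose D d1 a d2 d3 using fun c : {d : Cls I (univ : Set M) | ∃ D : Dat I (univ : Set M), Quot.mk _ D = d ∧
    ∃ a, Ln.On I ⟨D.d.det, a⟩ univ ∧ ∀ i, |ip I o (Ln.F I ⟨D.d.det, a⟩) (e i)| ≤ R} => c.2
  have l := fun c => a₀.ok.hl (D c).ok
  have c0 := a₀.ok.det.on.cl_F isOpen_univ
  let r := fun i => R + |ip I o (Ln.F I ⟨a₀.d.det, 0⟩) (e i)|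
  have b : ∀ c, (fun i => ip I o (Ln.F I ⟨a₀.d.hl (D c).d, 0⟩) (e i)) ∈ Icc (-r) r := fun c => by
    have c1 := (l c).on.cl_F isOpen_univ
    have k : ∀ i, |ip I o (Ln.F I ⟨a₀.d.hl (D c).d, 0⟩) (e i)| ≤ r i := fun i => by
      have k1 := ((he i).ip_coh ho ((d2 c).cl_F isOpen_univ).sm (c0.add (c1.smul 2)).sm
        (ex_hl isOpen_univ a₀.ok (D c).ok a₀.ok.det.on (d2 c))).trans
        ((he i).ip_add ho c0.sm (c1.smul 2).sm)
      have k2 := abs_le.1 (d3 c i)
      have k3 := abs_le.1 (le_refl |ip I o (Ln.F I ⟨a₀.d.det, 0⟩) (e i)|)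
      rw [ip_smul] at k1
      exact abs_le.2 ⟨by simp only [r]; linarith, by simp only [r]; linarith⟩
    exact ⟨fun i => (abs_le.1 (k i)).1, fun i => (abs_le.1 (k i)).2⟩
  obtain ⟨_, f, Φ, f1, f2, f3⟩ := exists_span ho he hn
  obtain ⟨τ, _, g, hg⟩ := disc_ln l f1 (isCompact_Icc.image f2)
    (fun c => ⟨_, ⟨_, b c, rfl⟩, f3 _ ((l c).on.cl_F isOpen_univ)⟩) hK
  refine Finite.of_injective g fun c c' k => Subtype.ext ((d1 c).symm.trans ((Quot.sound ?_).trans (d1 c')))
  obtain ⟨u, hu⟩ := hg c c' k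
  have t := a₀.ok.tw (l c)
  have t' := a₀.ok.tw (l c')
  exact (((eqv_ev a₀.ok (D c).ok).symm t (D c).ok).trans isOpen_univ (D c).ok t t'
    (h1.eqv isOpen_univ (subset_univ _) t t' (h2.eqv hO h3 (t.mono (subset_univ _)) (t'.mono (subset_univ _))
      ((Eqv.refl (a₀.ok.mono (subset_univ O'))).tw (hu.mono h4))))).trans isOpen_univ (D c).ok t' (D c').ok
    (eqv_ev a₀.ok (D c').ok)

end Crest.Agent.X212.Sm25
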