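import Crest.Agent.X212.Sm25.Fill
import Crest.Agent.X212.Sm10.Cert
import Crest.Agent.X212.Mol27.Pl
import Crest.Agent.X212.Lev39.Trp

/-!
Row 212, layer H, package FILL (helper25), part 4: the last stage of the smooth hierarchy.
-/

set_option autoImplicit false
set_option linter.style.longLine false
set_option linter.unusedSectionVars false

open Set Filter Topology Function Metric
open scoped ContDiff Manifold
open Crest.Agent.X212.Glue52 Crest.Agent.X212.Hel40 Crest.Agent.X212.Mol27 Crest.Agent.X212.Hp13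
open Crest.Agent.X212.Glb47 (E3)
open Crest.Agent.X212.Sep15 (CM)
open Crest.Agent.X212.Flo26 (SmV)
open Crest.Agent.X212.Dr59 (mf mf_eq_fderiv)

noncomputable section

namespace Crest.Agent.X212.Sm25

/-- **FILL** in lifted coordinates -/
theorem fillL {s : Hp13.St} (hs : Ind26.End s) {δ : ℝ} (L : LC E3 s.A δ) {v : E3 → E3} (hv : L.Fld v)
    (sv : ContDiffOn ℝ ∞ v L.U) {c : ℝ} (h8 : 8 * (Fintype.card s.P * δ) < c) (hc : c ≤ 1 / 14) :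
    Fil L.U v L.p L.m c := by
  have k0 : 0 ≤ Fintype.card s.P * δ := mul_nonneg (Nat.cast_nonneg _) L.δ0.le
  have e : L.U = ⋃ C : {C // IsCmp s.A C}, {y | y ∈ L.U ∧ Sm10.In L C.1 y} :=
    Subset.antisymm (fun y hy => let ⟨C, h1, h2⟩ := Sm10.exists_In hy; mem_iUnion.2 ⟨⟨C, h1⟩, hy, h2⟩)
      (iUnion_subset fun _ _ h => h.1)
  rw [e]
  refine fills (fun C D h => disjoint_left.2 fun y h1 h2 => h (Subtype.ext
    (h1.2.unique h1.1 C.2 D.2 h2.2))) (fun C => Sm10.isOpen_In L C.1) fun C => ?_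
  obtain ⟨⟨kp, a1, a2, a3, a4⟩, km, b1, b2, b3, b4⟩ := Sm10.cert hs L C.2 h8 hc
  refine Dat.fill (c₀ := 2 * (Fintype.card s.P * δ)) ⟨Sm10.isOpen_In L C.1, sv.mono fun _ h => h.1,
    (L.contDiffOn_w _).mono fun _ h => h.1, (L.contDiffOn_w _).mono fun _ h => h.1, by linarith, ?_,
    fun y hy => hv.p_pos hy.1, fun y hy => hv.m_neg hy.1, fun y hy h1 h2 => ?_⟩ a1 a2 a3 a4 b1 b2 b3
    (b4.trans (Set.ext fun y => and_congr_right fun _ => and_comm))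
  · refine (congrArg IsCompact (Set.ext fun y => ?_)).mp
      (Sm10.isCompact_In (L := L) C.2 (L.isCompact_K hc) fun _ h => h.1)
    exact ⟨fun h => ⟨⟨h.1.1, h.2⟩, h.1.2⟩, fun h => ⟨⟨h.1.1, h.2⟩, h.1.2⟩⟩
  · obtain ⟨w, w', c1, c2, c3, c4⟩ := Sm10.exists_corner hy.1 (by linarith) (by linarith)
    exact ⟨w + w', by simp [c1, c3], by simp [c2, c4]⟩

variable {Y : CM 3} {V : Vf Y} {M M' : Set Y}

/-- a cutting function which misses `1` is conditioned as soon as the colours are -/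
theorem cd_of (S : Pre V M M') {θ : Y → ℝ} (hθ : ContinuousOn θ S.O)
    (h : ∀ y, θ y ∈ Ioo 0 (2 * Real.pi) ∧ S.φ y = Circle.exp (θ y)) {Q : Set Y} (hQ : IsCompact Q)
    (Q1 : ∀ y ∈ Q, y ∈ S.B S.r ∧ 0 < S.tp y ∧ S.tm y < 0)
    (Jp : ∀ y ∈ S.B S.r, 0 < S.tp y → ∃ y' ∈ Q, JoinedIn {y | y ∈ S.B S.r ∧ 0 < S.tp y} y y')
    (Jm : ∀ y ∈ S.B S.r, S.tm y < 0 → ∃ y' ∈ Q, JoinedIn {y | y ∈ S.B S.r ∧ S.tm y < 0} y y') :
    S.Cd false := by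
  refine ⟨2 * Real.pi, Q, hQ, fun y hy => ⟨(Q1 y hy).1.1, Q1 y hy⟩, fun q hq hB => ?_⟩
  obtain ⟨n, hn⟩ := Circle.exp_eq_exp.1 (hq.2.1.symm.trans (h q.1).2)
  have key : ∀ {T : Set Y} {y'}, y' ∈ Q → JoinedIn T q.1 y' → (∀ y ∈ T, y ∈ S.B S.r ∧
      ((0 < S.tp y ∧ (n : ℝ) ≤ -1) ∨ (S.tm y < 0 ∧ (0 : ℝ) ≤ n))) → ∃ q' : Y × ℝ, q'.1 ∈ Q ∧
      JoinedIn {p | p ∈ S.Gam ∧ p.1 ∈ S.B S.r ∧ |p.2 - q.2| ≤ 2 * Real.pi} q q' :=
    fun {T y'} h1 h2 h3 => by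
      refine ⟨(y', θ y' + n * (2 * Real.pi)), h1, ?_⟩
      have h4 := h2.map_continuousOn (f := fun y => (y, θ y + n * (2 * Real.pi)))
        (continuousOn_id.prodMk ((hθ.mono fun y hy => (h3 y hy).1.1).add continuousOn_const))
      rw [← hn] at h4
      refine h4.mono ?_
      rintro _ ⟨y, hy, rfl⟩
      obtain ⟨⟨a1, a2⟩, a3⟩ := h y
      obtain ⟨⟨b1, b2⟩, -⟩ := h q.1
      have := Real.pi_pos
      refine ⟨⟨(h3 y hy).1.1, a3.trans (Circle.exp_eq_exp.2 ⟨-n, by push_cast; ring⟩),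
        (h3 y hy).2.imp (fun k => ⟨k.1, by nlinarith [k.2]⟩) fun k => .inl ⟨k.1, by nlinarith [k.2]⟩⟩,
        (h3 y hy).1, abs_le.2 ⟨by rw [hn]; linarith, by rw [hn]; linarith⟩⟩
  obtain ⟨⟨b1, b2⟩, -⟩ := h q.1
  have := Real.pi_pos
  rcases lt_or_ge n 0 with k | k
  · have k1 : (n : ℝ) ≤ -1 := by exact_mod_cast Int.le_sub_one_of_lt k
    obtain ⟨y', h1, h2⟩ := Jp q.1 hB (hq.2.2.elim (·.1) fun g => g.elim
      (fun g => absurd g.2 (by nlinarith)) (·.1))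
    exact key h1 h2 fun y hy => ⟨hy.1, .inl ⟨hy.2, k1⟩⟩
  · have k1 : (0 : ℝ) ≤ n := by exact_mod_cast k
    obtain ⟨y', h1, h2⟩ := Jm q.1 hB (hq.2.2.elim (fun g => absurd g.2 (by nlinarith))
      fun g => g.elim (·.1) (·.2))
    exact key h1 h2 fun y hy => ⟨hy.1, .inr ⟨hy.2, k1⟩⟩

/-- the colours alone -/
def triv (S : Pre V M M') : Pre V M M :=
  { S with
    φ := fun _ => 1
    sφ := contMDiffOn_const
    φv := fun y _ => by rw [rt, dl_const]; exact le_rfl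
    φs := fun _ h h' => absurd h h'
    meq' := fun _ => ⟨fun h => ⟨h, rfl⟩, fun h => h.1⟩ }

/-- the last stage without the condition -/
theorem last0 (hV : SmV (𝓡 3) V) (S : Pre V M M') {j : E3 → Y} {W : Set E3} (hW : IsOpen W)
    (hj : ∀ y ∈ W, IsLocalDiffeomorphAt (𝓡 3) (𝓡 3) ∞ j y) (ji : InjOn j W) (hO : S.O ⊆ j '' W)
    {v : E3 → E3} (hv : ∀ y ∈ W, (V (j y) : E3) = mfderiv (𝓡 3) (𝓡 3) j y (v y))
    {U : Set E3} {p m : E3 → ℝ} {c : ℝ} (F : Fil U v p m c) (hU : W ⊆ U)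
    (ho : IsOpen {y | y ∈ U ∧ p y < c ∧ m y < c})
    (hK : ∀ y ∈ U, p y < c → m y < c → y ∈ W ∧ j y ∈ M) :
    ∃ V' : Vf Y, SmV (𝓡 3) V' ∧ (∀ y ∉ interior M, V' y = V y) ∧ ∃ S' : Pre V' M ∅,
      S'.O = S.O ∧ S'.tp = S.tp ∧ S'.tm = S.tm ∧ S'.r = S.r ∧ ∃ θ : Y → ℝ, ContinuousOn θ S.O ∧
        ∀ y, θ y ∈ Ioo 0 (2 * Real.pi) ∧ S'.φ y = Circle.exp (θ y) := by
  classical
  obtain ⟨v', t, K, k1, k2, k3, k4, k5, k6⟩ := F
  have KW : K ⊆ W := fun y hy => (hK y (k2 y hy).1 (k2 y hy).2.1 (k2 y hy).2.2).1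
  let i := invFunOn j W
  have ij : ∀ y ∈ W, i (j y) = y := fun y hy => ji.leftInvOn_invFunOn hy
  have si : ∀ y ∈ W, ContMDiffAt (𝓡 3) (𝓡 3) ∞ i (j y) := fun y hy => contMDiffAt_of_comp (hj y hy)
    (contMDiffAt_id.congr_of_eventuallyEq (eventually_of_mem (hW.mem_nhds hy) ij))
  let V' : Vf Y := fun y => if y ∈ j '' W then (mfderiv (𝓡 3) (𝓡 3) j (i y) (v' (i y)) : E3) else V y
  have v1 : ∀ y ∈ W, (V' (j y) : E3) = mfderiv (𝓡 3) (𝓡 3) j y (v' y) := fun y hy =>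
    (if_pos (mem_image_of_mem j hy)).trans
      (congrArg (fun z => (mfderiv (𝓡 3) (𝓡 3) j z (v' z) : E3)) (ij y hy))
  have v2 : ∀ y ∉ j '' K, V' y = V y := fun y hy => by
    by_cases h : y ∈ j '' W
    · obtain ⟨x, hx, rfl⟩ := h
      exact (v1 x hx).trans ((k4 x fun h => hy ⟨x, h, rfl⟩) ▸ (hv x hx).symm)
    · exact if_neg h
  have v3 : ∀ y ∉ interior M, V' y = V y := fun y hy => v2 y <| by
    rintro ⟨x, hx, rfl⟩
    refine hy (mem_interior_iff_mem_nhds.2 (mem_of_superset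
      (Cab39.ld_image_mem (hj x (KW hx)) (ho.mem_nhds (k2 x hx))) ?_))
    rintro _ ⟨z, hz, rfl⟩
    exact (hK z hz.1 hz.2.1 hz.2.2).2
  have sm : SmV (𝓡 3) V' := fun y => by
    by_cases h : y ∈ j '' K
    · obtain ⟨x, hx, rfl⟩ := h
      exact Lev39.sm_push hW hj (k3.mono hU) v1 (KW hx)
    · refine (hV y).congr_of_eventuallyEq ?_
      filter_upwards [(k1.image_of_continuousOn fun x hx => (hj x (KW hx)).contMDiffAt.continuousAt
        |>.continuousWithinAt).isClosed.isOpen_compl.mem_nhds h] with z hz using by rw [v2 z hz]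
  let θ : Y → ℝ := fun y => Real.pi + 2 * Real.arctan (t (i y))
  have tw : ∀ y ∈ W, ContDiffAt ℝ ∞ t y := fun y hy => (k5.mono hU).contDiffAt (hW.mem_nhds hy)
  have sθ : ∀ y ∈ W, ContMDiffAt (𝓡 3) 𝓘(ℝ, ℝ) ∞ θ (j y) := fun y hy =>
    contDiff_cayA.contMDiff.contMDiffAt.comp _ (ContMDiffAt.comp (j y)
      (by rw [ij y hy]; exact (tw y hy).contMDiffAt) (si y hy))
  have pos : ∀ y ∈ S.O, 0 < rt (fun y => Circle.exp (θ y)) V' y := fun y hy => by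
    obtain ⟨x, hx, rfl⟩ := hO hy
    have d := (((Real.hasDerivAt_arctan (t x)).const_mul 2).const_add Real.pi).comp_hasFDerivAt x
      ((tw x hx).differentiableAt (by simp)).hasFDerivAt
    have e : θ ∘ j =ᶠ[𝓝 x] (fun s => Real.pi + 2 * Real.arctan s) ∘ t := by
      filter_upwards [hW.mem_nhds hx] with z hz using by simp only [comp, θ, ij z hz]
    have e2 := Dr59.mf_comp ((sθ x hx).mdifferentiableAt (by simp))
      ((hj x hx).contMDiffAt.mdifferentiableAt (by simp))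
    rw [Dr59.mf_congr e, mf_eq_fderiv, d.fderiv] at e2
    refine lt_of_lt_of_eq ?_ ((congrArg (fun A : E3 →L[ℝ] ℝ => A (v' x)) e2).trans
      ((congrArg (mf (𝓡 3) 𝓘(ℝ, ℝ) θ (j x)) (v1 x hx).symm).trans (dl_exp (sθ x hx) _).symm))
    exact mul_pos (by positivity) (k6 x (hU hx))
  have sO : ContMDiffOn (𝓡 3) 𝓘(ℝ, ℝ) ∞ θ S.O := fun y hy => by
    obtain ⟨x, hx, rfl⟩ := hO hy
    exact (sθ x hx).contMDiffWithinAt
  refine ⟨V', sm, v3, { (triv S).chg V' v3 with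
    φ := fun y => Circle.exp (θ y)
    sφ := contMDiff_circleExp.comp_contMDiffOn sO
    φv := fun y hy => (pos y hy).le
    φs := fun y hy _ => pos y ((S.meq y).1 hy).1
    meq' := fun y => iff_of_false id fun h => cay_ne_one _ h.2 }, rfl, rfl, rfl, rfl, θ,
      sO.continuousOn, fun y => ⟨⟨?_, ?_⟩, rfl⟩⟩
  · linarith [Real.neg_pi_div_two_lt_arctan (t (i y))]
  · linarith [Real.arctan_lt_pi_div_two (t (i y))]

/-- **the last stage** -/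
theorem last (hV : SmV (𝓡 3) V) (S : Pre V M M') {j : E3 → Y} {W : Set E3} (hW : IsOpen W)
    (hj : ∀ y ∈ W, IsLocalDiffeomorphAt (𝓡 3) (𝓡 3) ∞ j y) (ji : InjOn j W) (hO : S.O ⊆ j '' W)
    {v : E3 → E3} (hv : ∀ y ∈ W, (V (j y) : E3) = mfderiv (𝓡 3) (𝓡 3) j y (v y))
    {U : Set E3} {p m : E3 → ℝ} {c : ℝ} (F : Fil U v p m c) (hU : W ⊆ U)
    (ho : IsOpen {y | y ∈ U ∧ p y < c ∧ m y < c})
    (hK : ∀ y ∈ U, p y < c → m y < c → y ∈ W ∧ j y ∈ M) {Q : Set Y} (hQ : IsCompact Q)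
    (Q1 : ∀ y ∈ Q, y ∈ S.B S.r ∧ 0 < S.tp y ∧ S.tm y < 0)
    (Jp : ∀ y ∈ S.B S.r, 0 < S.tp y → ∃ y' ∈ Q, JoinedIn {y | y ∈ S.B S.r ∧ 0 < S.tp y} y y')
    (Jm : ∀ y ∈ S.B S.r, S.tm y < 0 → ∃ y' ∈ Q, JoinedIn {y | y ∈ S.B S.r ∧ S.tm y < 0} y y') :
    ∃ V' : Vf Y, SmV (𝓡 3) V' ∧ (∀ y ∉ interior M, V' y = V y) ∧
      ∃ S' : Pre V' M ∅, S'.Cd false := by
  obtain ⟨V', a1, a2, S', e1, e2, e3, e4, θ, b1, b2⟩ := last0 hV S hW hj ji hO hv F hU ho hK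
  have e5 : S'.B S'.r = S.B S.r := by simp only [Pre.B, e1, e2, e3, e4]
  refine ⟨V', a1, a2, S', cd_of S' (e1 ▸ b1) b2 hQ ?_ ?_ ?_⟩ <;> simp only [e5, e2, e3] <;> assumption

/-- the whole hierarchy -/
theorem hi_of_last {n : ℕ} {M₀ : Set Y} (h : Ch V false n M₀ M) {V' : Vf Y}
    (e : ∀ y ∉ interior M, V' y = V y) (S : Pre V' M ∅) (hS : S.Cd false) :
    Hi V' false (n + 1) M₀ ∧ ∀ y ∉ M₀, V' y = V y :=
  ⟨(h.chg e).snoc S hS, fun y hy => e y fun k => hy (h.sub (interior_subset k))⟩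

end Crest.Agent.X212.Sm25
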