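import Crest.Agent.X212.Sm25.Glu
import Crest.Agent.X212.Kh11.Lev
import Crest.Agent.X212.Cut21.Brg

/-!
Row 212, layer H, KH-OUT (helper25): `OutStmt`.
-/

set_option autoImplicit false
set_option linter.style.longLine false
set_option linter.unusedSectionVars false

open Finset Classical

noncomputable section

namespace Crest.Agent.X212.Sm25

open Hp13 hiding cl_low sub_cl om_low cl_mono dp_iff
open Hk
open Alg36 (Om Esc mix Clo)
open Cut21 (tp mix_up pr_le)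

variable {P R : Type} [PartialOrder P] [Fintype P] [PartialOrder R] {X Y Z V C D K : Set P}
  {w : P → P → ℤ} {car : P → R}

theorem clo_of (h : IsCmp X D) : Clo X D := Alg36.IsCmp.clo h

theorem rg_clo (h : Rg X) (hD : Clo X D) : Rg D :=
  ⟨fun a _ l ha => hD.cl a ha _ (h.up l (hD.sub ha)) (.inl l), h.mf.mono hD.sub, hD.nice h.nice⟩

/-- a boundary point sees one component -/
theorem adj1 (h : Rg X) (hD : Clo X D) {k a : P} (hk : k ∈ cl D) (ha : a ∈ X) (l : k ≤ a) : a ∈ D :=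
  let ⟨b, hb, j⟩ := hk
  hD.rch hb (((h.ctr ⟨a, ha, l⟩).conn b ⟨hD.sub hb, j⟩ a ⟨ha, l⟩).mono fun _ i => i.1)

theorem adj (h : Rg X) (hD : Clo X D) (hK : Conn K) (hs : K ⊆ cl X) {k : P} (hk : k ∈ K)
    (hk' : k ∈ cl D) : K ⊆ cl D := fun x hx =>
  (hK k hk x hx).ind hk' fun _ _ _ hb l => ⟨fun i => let ⟨c, c1, c2⟩ := hs hb;
    ⟨c, adj1 h hD i c1 (l.trans c2), c2⟩, cl_low l⟩

theorem eu_empty : eu (∅ : Set P) = 0 := by
  rw [eu, sum_eq_zero, neg_zero]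
  intro c hc
  simp only [mem_filter] at hc
  exact absurd (hc.2 _ c.top_mem) id

theorem conn_cl (h : Conn X) : Conn (cl X) := fun x ⟨a, ha, l⟩ y ⟨b, hb, l'⟩ =>
  ((Rch.of_cm (show x ∈ cl X from ⟨a, ha, l⟩) (sub_cl ha) (.inl l)).trans
    ((h a ha b hb).mono sub_cl)).trans (.of_cm (sub_cl hb) (show y ∈ cl X from ⟨b, hb, l'⟩) (.inr l'))

/-- the Euler characteristic of the core -/
theorem eu_core (nm : NmStmt) (hZ : Rg Z) (hV : Rg V) (hs : V ⊆ Z)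
    (sep : ∀ x ∉ Z, ∀ n ∈ Z, x ≤ n → n ∈ V) : eu (Z \ V) = eu V - eu Z := by
  have c1 : Cvr (Z \ V) (cl V ∩ Z) := .inl ⟨fun x hx y hy l => ⟨hx.elim (·.1) (·.2),
    fun k => hy.2 (hV.up l k)⟩, fun x hx y hy l => ⟨cl_low l hy.1, hx.elim (·.1) (·.2)⟩⟩
  have c2 : Cvr (Om V ∩ Z) (Om Z) := .inl ⟨fun x _ y hy l => ⟨om_low hV.up l hy.1,
    by_contra fun k => hy.1.1 (sep x k y hy.2 l)⟩, fun _ _ _ hy l => om_low hZ.up l hy⟩
  have e1 : Z \ V ∪ cl V ∩ Z = Z := Set.ext fun x => ⟨fun k => k.elim (·.1) (·.2),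
    fun k => (Classical.em (x ∈ V)).elim (fun j => .inr ⟨sub_cl j, k⟩) fun j => .inl ⟨k, j⟩⟩
  have e2 : Z \ V ∩ (cl V ∩ Z) = Om V ∩ Z := Set.ext fun x =>
    ⟨fun k => ⟨⟨k.1.2, k.2.1⟩, k.1.1⟩, fun k => ⟨⟨k.2, k.1.1⟩, k.1.2, k.2⟩⟩
  have e3 : Om V ∩ Z ∪ Om Z = Om V := Set.ext fun x => ⟨fun k => k.elim (·.1) fun ⟨j, n, a, b⟩ =>
    ⟨fun i => j (hs i), n, sep x j n a b, b⟩,
    fun k => (Classical.em (x ∈ Z)).elim (fun j => .inl ⟨k, j⟩) fun j => .inr ⟨j, cl_mono hs k.2⟩⟩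
  have e4 : Om V ∩ Z ∩ Om Z = ∅ := Set.eq_empty_of_forall_notMem fun x k => k.2.1 k.1.2
  have e5 : eu V = eu (cl V ∩ Z) := Pt30.eu_fib (f := id) (fun x k => ⟨sub_cl k, hs k⟩)
    (fun _ _ _ _ l => l) fun y k => (hV.ctr k.1).eu
  have a1 := c1.eu_union
  have a2 := c2.eu_union
  rw [e1, e2, ← e5] at a1
  rw [e3, e4, eu_empty, ((nm P).1 V hV).2.2.2.1, ((nm P).1 Z hZ).2.2.2.1] at a2
  linarith

/-- the frontier of a connected core with connected complement is connected -/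
theorem conn_core (hZ : IsUpperSet Z) (hB : Bnd (ZMod 2) Z) (hV : IsUpperSet V) (hs : V ⊆ Z)
    (c1 : Conn V) (c2 : Conn (Z \ V)) (sep : ∀ x ∉ Z, ∀ n ∈ Z, x ≤ n → n ∈ V) :
    Conn (mix (Z \ V)) := by
  have low : ∀ {x n}, x ≤ n → n ∈ Z \ V → x ∈ Z \ V := fun {x n} l k =>
    ⟨by_contra fun j => k.2 (sep x j n k.1 l), fun j => k.2 (hV l j)⟩
  have m : ∀ c : Ch P, c ∈ mix (Z \ V) ↔ c.bot ∈ Z \ V ∧ c.top ∈ V := fun c =>
    ⟨fun ⟨⟨n, a, b⟩, u, a', b'⟩ => ⟨low (Ch.bot_le a) b, by_contra fun j =>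
      b' (low (Ch.le_top a') ⟨hZ (Ch.le_top a) b.1, j⟩)⟩,
      fun k => ⟨⟨_, c.bot_mem, k.1⟩, _, c.top_mem, fun j => j.2 k.2⟩⟩
  intro c0 h0 c h
  let q : P → P → Prop := fun x y => x ∈ Z \ V ∧ y ∈ V ∧ ∃ l : x ≤ y, Rch (mix (Z \ V)) c0 (.pr x y l)
  have qe : ∀ d ∈ mix (Z \ V), ∀ x ∈ d.1, ∀ y ∈ d.1, x ≤ y → x ∈ Z \ V → y ∈ V →
      (q x y ↔ Rch (mix (Z \ V)) c0 d) := fun d hd x hx y hy l a b =>
    have r : Rch (mix (Z \ V)) (.pr x y l) d :=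
      .of_cm ((m _).2 (by simpa only [Ch.bot_pr, Ch.top_pr] using ⟨a, b⟩)) hd (.inl (pr_le hx hy))
    ⟨fun ⟨_, _, _, k⟩ => k.trans r, fun k => ⟨a, b, l, k.trans r.symm⟩⟩
  obtain ⟨g, -, hg⟩ := hB (fun x y => if q x y then 1 else 0) (fun _ _ x y v l1 l2 _ _ _ => by
      beta_reduce
      by_cases a : x ∈ Z \ V ∧ v ∈ V
      · have t := qe (tp (.pr x y l1) v (by simpa using l2)) ((m _).2 (by simpa using a))
        have t1 := t x (by simp) v (by simp) (l1.trans l2) a.1 a.2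
        by_cases b : y ∈ V
        · rw [if_neg (c := q y v) fun k => k.1.2 b, add_zero]
          exact if_congr (t1.trans (t x (by simp) y (by simp) l1 a.1 b).symm) rfl rfl
        · rw [if_neg (c := q x y) fun k => b k.2.1, zero_add]
          exact if_congr (t1.trans (t y (by simp) v (by simp) l2 ⟨hZ l1 a.1.1, b⟩ a.2).symm) rfl rfl
      · rw [if_neg (c := q x v) fun k => a ⟨k.1, k.2.1⟩,
          if_neg (c := q x y) fun k => a ⟨k.1, hV l2 k.2.1⟩,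
          if_neg (c := q y v) fun k => a ⟨low l1 k.1, k.2.1⟩, add_zero])
    fun x y _ hx _ => if_neg fun k => hx k.1.1
  have e : ∀ x y, x ≤ y → y ∈ Z → (if q x y then 1 else 0) = g y - g x := fun x y l k => by
    simpa [cb] using hg x y ((dp_iff hZ).2 ⟨l, sub_cl k⟩)
  obtain ⟨a0, b0⟩ := (m _).1 h0
  obtain ⟨a, b⟩ := (m _).1 h
  have g1 : g c0.bot = g c.bot := (c2 _ a0 _ a).eq fun x _ y hy l =>
    (sub_eq_zero.1 ((e x y l hy.1).symm.trans (if_neg fun k => hy.2 k.2.1))).symm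
  have g2 : g c0.top = g c.top := (c1 _ b0 _ b).eq fun x hx y hy l =>
    (sub_eq_zero.1 ((e x y l (hs hy)).symm.trans (if_neg fun k => k.1.2 hx))).symm
  have g3 := e _ _ c.bot_le_top (hs b)
  rw [← g1, ← g2, ← e _ _ c0.bot_le_top (hs b0),
    if_pos ((qe c0 h0 _ c0.bot_mem _ c0.top_mem c0.bot_le_top a0 b0).2 Rch.rfl)] at g3
  exact (qe c h _ c.bot_mem _ c.top_mem c.bot_le_top a b).1 (by_contra fun k => by simp [k] at g3)

theorem om_ne (hX : IsUpperSet X) (he : Esc X X) (hn : X.Nonempty) : (Om X).Nonempty :=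
  let ⟨a, ha⟩ := hn; let ⟨b, hb, _, x, hx, l⟩ := he a ha
  ⟨x, hx, b, hb, l.resolve_left fun k => hx (hX k hb)⟩

theorem out_nb (deg : DegStmt) (hY : Amb Y) (h : PR car Y C) (hO : Om C ⊆ Y) (he : eu C ≤ 0)
    {B : Set P} (hB : Bal Y B) : ¬ Om C ⊆ B := fun k => by
  have u := h.amb.up
  obtain ⟨x0, hx0⟩ := om_ne u h.amb.esc h.ne
  have pr : ∀ {a b} (l : a ≤ b), a ∉ B → b ∈ B → Ch.pr a b l ∈ mix B := fun l a b =>
    (mix_up hB.up).2 (by simpa using ⟨b, a⟩)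
  by_cases s : C ⊆ B
  · linarith [deg P Y C B ⟨h.amb.toRg, hY, h.two.sub⟩ h.ne h.qq (cl_eq.subset.trans
      (Set.union_subset s k)) hB.sub hB.conn, hB.eu]
  obtain ⟨c, c1, c2⟩ := Set.not_subset.1 s
  obtain ⟨a0, a1, a2⟩ := hx0.2
  obtain ⟨a, b, l, i1, i2, i3⟩ : ∃ a b, a ≤ b ∧ a ∈ C ∧ a ∉ B ∧ b ∈ B := by
    by_contra! n
    exact c2 ((h.conn a0 a1 c c1).ind (hB.up a2 (k hx0)) fun a ha b _ l =>
      ⟨hB.up l, fun j => by_contra fun i => n a b l ha i j⟩)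
  have all : ∀ d ∈ mix B, d.bot ∈ C := fun d hd => (hB.conn _ (pr l i2 i3) d hd).ind
    (p := fun e => e.bot ∈ C) (by simpa using i1) fun e _ e' he' l => ⟨fun j => by_contra fun i =>
      ((mix_up hB.up).1 he').2 (k ⟨i, _, j, Ch.bot_anti l⟩), u (Ch.bot_anti l)⟩
  have low : IsLowerSet (B ∪ C) := fun b a l j => by_contra fun i => j.elim
    (fun j => i (.inr (by simpa using all _ (pr l (fun n => i (.inl n)) j))))
    fun j => i (.inl (k ⟨fun n => i (.inr n), _, j, l⟩))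
  obtain ⟨b, -, r, x, hx, j⟩ := hY.esc x0 (hO hx0)
  have hb : b ∈ B ∪ C := r.ind (.inl (k hx0)) fun _ _ _ _ l => ⟨hB.up.union u l, low l⟩
  exact hx ((j.elim (fun j => hB.up.union u j hb) fun j => low j hb).elim (hB.sub ·) (h.two.sub ·))

theorem out_inc (nm : NmStmt) (deg : DegStmt) (tc1 : Tc1Stmt) (tc3 : Tc3Stmt) (hY : Amb Y)
    (h : PR car Y C) (hO : Om C ⊆ Y) (hw : TD (Y \ cl C) w) (ho : On (Y \ cl C) (Om C) w) :
    Ines (Om C) w := by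
  have u := h.amb.up
  have cY : cl C ⊆ Y := cl_eq.subset.trans (Set.union_subset h.two.sub hO)
  have tv : ∀ x ∈ Om C, Ctr {y | y ∈ Y \ cl C ∧ x ≤ y} := fun x hx => by
    simpa using h.two.tv' Set.univ isLowerSet_univ x ⟨hx, hO hx⟩ trivial
  have r1 : Rg (Y \ cl C) := rg_of h.two.up' (hY.mf.mono Set.sdiff_subset) fun x hx => by
    by_cases k : x ∈ Y
    · obtain ⟨a, a1, a2⟩ := hx.2
      exact tv x ⟨fun j => a1.2 (sub_cl (u a2 j)), by_contra fun j => hx.1 ⟨k, j⟩⟩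
    · convert hY.toRg.ctr (cl_mono Set.sdiff_subset hx.2) using 1
      exact Set.ext fun a => ⟨fun j => ⟨j.1.1, j.2⟩, fun j => ⟨⟨j.1, fun i => k (cY (cl_low j.2 i))⟩, j.2⟩⟩
  have cG : Conn (Om C) := ((nm P).1 C h.amb.toRg).2.2.1.2
    (Alg36.conn_mix h.amb.nice h.amb.bnd2 h.conn)
  have sG : Om C ⊆ cl (Y \ cl C) := fun x hx => let ⟨a, ha⟩ := (tv x hx).ne; ⟨a, ha⟩
  have bd : ∀ D, Clo (Y \ cl C) D → Om C ⊆ cl D → Bd D (Om C) := fun D hD k =>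
    ⟨om_low u, fun x hx => ⟨fun j => (hD.sub j).2 hx.2, k hx⟩, fun x hx y hy l =>
      let ⟨a, a1, a2⟩ := hy.2
      ⟨fun j => (hD.sub a1).2 (sub_cl (u a2 j)), by_contra fun j =>
        hy.1 (hD.cl a a1 y ⟨hY.up l (hO hx), j⟩ (.inr a2))⟩⟩
  obtain ⟨g0, hg0⟩ := om_ne u h.amb.esc h.ne
  obtain ⟨a0, a1, a2⟩ := sG hg0
  obtain ⟨V, hV, a3⟩ : ∃ V, IsCmp (Y \ cl C) V ∧ a0 ∈ V := ⟨_, isCmp_cmp a1, mem_cmp_self a1⟩
  have kV := clo_of hV
  have rV := rg_clo r1 kV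
  have gV : Om C ⊆ cl V := adj r1 kV cG sG hg0 ⟨a0, a3, a2⟩
  have bV := bd V kV gV
  have oV : Om V ⊆ Om (Y \ cl C) := fun x hx => ⟨fun j => hx.1 (adj1 r1 kV hx.2 j le_rfl),
    cl_mono hV.sub hx.2⟩
  have onV : On V (Om C) w := Flat.mono ho fun x hx => ⟨oV hx.1, hx.2⟩
  have tV : TD V w := by
    obtain ⟨e, he⟩ := hw.ne
    have he' := (ho.cv (bd _ (Alg36.clo_self _) sG)).subset he
    obtain ⟨c, c1, c2⟩ := Cut21.ex_ca r1.up (hw.z1 r1.up) ((Cut21.cv_om r1.up).1 he).1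
    have ca : CA V w = CA (Y \ cl C) w := Set.Subset.antisymm (fun d hd => ⟨hV.sub hd.1, hd.2⟩)
      fun d hd => ⟨(hw.conn c c1 d hd).ind (p := fun d => d.top ∈ V)
        (adj1 r1 kV (gV (he'.1 _ e.top_mem)) c1.1 (Ch.top_mono c2)) fun a ha b hb l =>
        ⟨rV.up (Ch.top_mono l), fun j => kV.cl _ j _ ha.1 (.inr (Ch.top_mono l))⟩, hd.2⟩
    have s := hw.toS1.mono hV.sub
    exact ⟨s, ca ▸ hw.conn, by rw [Cut21.chi_ca rV s, ca, ← Cut21.chi_ca r1 hw.toS1, hw.chi],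
      e, fun x hx => bV.sub (he'.1 x hx), he.2⟩
  -- the component of `Y`
  have kZ : Clo Y (cl C ∪ V) := ⟨Set.union_subset cY fun x hx => (hV.sub hx).1, fun a ha b hb l => by
    by_contra n
    have k : b ∈ Y \ cl C := ⟨hb, fun j => n (.inl j)⟩
    rcases ha with ha | ha
    · rcases l with l | l
      · rcases mem_cl.1 ha with j | j
        exacts [k.2 (sub_cl (u l j)), n (.inr (adj1 r1 kV (gV j) k l))]
      · exact k.2 (cl_low l ha)
    · exact n (.inr (kV.cl a ha b k l))⟩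
  set Z := cl C ∪ V with hZ
  have rZ := rg_clo hY.toRg kZ
  have cZ : Conn Z := by
    have k : ∀ x ∈ Z, Rch Z g0 x := fun x hx => hx.elim
      (fun j => (conn_cl h.conn g0 hg0.2 x j).mono Set.subset_union_left) fun j =>
      (Rch.of_cm (.inl hg0.2) (.inr a3) (.inl a2)).trans ((hV.conn a0 a3 x j).mono Set.subset_union_right)
    exact fun x hx y hy => (k x hx).symm.trans (k y hy)
  have cK : Conn (Om Z) := ((nm P).1 Z rZ).2.2.1.2
    (Alg36.conn_mix rZ.nice (kZ.bnd hY.nice hY.bnd2) cZ)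
  have sep : ∀ x ∉ Z, ∀ n ∈ Z, x ≤ n → n ∈ V := fun x hx n hn l =>
    hn.resolve_left fun j => hx (.inl (cl_low l j))
  have KV : Om Z ⊆ Om V := fun x ⟨j, n, a, b⟩ => ⟨fun i => j (.inr i), n, sep x j n a b, b⟩
  obtain ⟨k0, hk0⟩ : (Om Z).Nonempty := by
    obtain ⟨b, hb, r, x, hx, l⟩ := hY.esc g0 (hO hg0)
    exact ⟨x, fun j => hx (kZ.sub j), b, kZ.rch (.inl hg0.2) r, l.resolve_left fun k => hx (hY.up k hb)⟩
  have e0 : eu C = eu V - eu Z := by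
    rw [← eu_core nm rZ rV Set.subset_union_right sep, ((nm P).1 C h.amb.toRg).2.1.eu_eq]
    congr 1
    exact Set.ext fun x => ⟨fun j => ⟨.inl j, fun i => (hV.sub i).2 j⟩, fun j => j.1.resolve_right j.2⟩
  -- the cut
  have tw := Tw.three P
  obtain ⟨-, rT, -, eT, -, cS, -, oT, t1, t2⟩ := tc1 P V w rV tV
  obtain ⟨t3a, -, t3b⟩ := tc3 P V w rV tV
  obtain ⟨d1, -, d2⟩ := t1 (Om Z) (om_low rZ.up) (Flat.mono onV fun x hx =>
    ⟨KV hx.1, fun j => hx.1.1 (.inl j.2)⟩)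
  have d3 : t3 ⁻¹' Om Z ⊆ Om (tcut V w) := fun x hx => d2 ⟨hx, KV hx⟩
  have TV : ∀ x ∈ tcut V w, t3 x ∈ V := fun x hx => hx.1
  have TS : ∀ x, t3 x ∈ V → x ∉ slab V w → x ∈ tcut V w := fun x hx k =>
    ⟨hx, fun y hy j => k ⟨sub_cl hx, y, hy, j⟩⟩
  have SZ : ∀ x ∈ slab V w, t3 x ∈ Z ∧ x ∉ tcut V w := fun x hx => ⟨by_contra fun j =>
    Set.disjoint_left.1 d1 ⟨j, cl_mono Set.subset_union_right (((Tw.one P).cl V).subset hx.1)⟩ hx,
    fun j => let ⟨y, y1, y2⟩ := hx.2; j.2 y y1 y2⟩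
  have sS : ∀ b, scar V w b ⊆ slab V w := fun b x hx => hx.1.1
  obtain ⟨k1, hk1⟩ := tw.ne.2 ⟨k0, hk0⟩
  obtain ⟨a, aT, ka⟩ := (d3 hk1).2
  have main : ∀ D D' (b : ℤ), b = 0 ∨ b = 1 → IsCmp (tcut V w) D → IsCmp (tcut V w) D' →
      D ∪ D' = tcut V w → scar V w b ⊆ Om D' → scar V w (1 - b) ⊆ Om D → a ∈ D → Ines (Om C) w :=
    fun D D' b hb hD hD' hu s1 s2 ha => by
      have kD := clo_of hD
      have KD : t3 ⁻¹' Om Z ⊆ cl D :=
        adj rT kD (tw.conn.2 cK) (fun x hx => (d3 hx).2) hk1 ⟨a, ha, ka⟩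
      have sep' : ∀ x ∉ t3 ⁻¹' Z, ∀ n ∈ t3 ⁻¹' Z, x ≤ n → n ∈ D := fun x hx n hn l =>
        have k : x ∈ t3 ⁻¹' Om Z := ⟨hx, _, hn, t3_mono l⟩
        adj1 rT kD (KD k) (TS n (sep _ hx _ hn (t3_mono l)) fun j =>
          Set.disjoint_left.1 d1 k (mvS_low l j)) l
      have DZ : D ⊆ t3 ⁻¹' Z := fun x hx => .inr (TV x (hD.sub hx))
      have CN : t3 ⁻¹' cl C ⊆ t3 ⁻¹' Z \ D := fun x hx =>
        ⟨.inl hx, fun j => (hV.sub (TV x (hD.sub j))).2 hx⟩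
      have SN : slab V w ⊆ t3 ⁻¹' Z \ D := fun x hx => ⟨(SZ x hx).1, fun j => (SZ x hx).2 (hD.sub j)⟩
      obtain ⟨-, -, -, -, -, -, x0, x1, -, -, x2, -⟩ := t2 b hb
      have x3 : x0 ∈ t3 ⁻¹' cl C := (SZ x0 (sS b x1)).1.resolve_right x2
      have dj : ∀ x ∈ D', x ∈ D → D' = D := fun x j i => (hD'.eq j).trans (hD.eq i).symm
      have cN : Conn (t3 ⁻¹' Z \ D) := by
        have k : ∀ x ∈ t3 ⁻¹' Z \ D, Rch (t3 ⁻¹' Z \ D) x0 x := fun x hx => by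
          rcases hx.1 with j | j
          · exact (tw.conn.2 (conn_cl h.conn) x0 x3 x j).mono CN
          by_cases i : x ∈ slab V w
          · exact (cS.conn x0 (sS b x1) x i).mono SN
          have i1 : x ∈ D' := (hu.symm.subset (TS x j i)).resolve_left hx.2
          have i2 : D' ⊆ t3 ⁻¹' Z \ D := fun y hy =>
            ⟨.inr (TV y (hD'.sub hy)), fun n => hx.2 (dj y hy n ▸ i1)⟩
          obtain ⟨y, y1, y2⟩ := (s1 x1).2
          exact (Rch.of_cm (CN x3) (i2 y1) (.inl y2)).trans ((hD'.conn y y1 x i1).mono i2)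
        exact fun x hx y hy => (k x hx).symm.trans (k y hy)
      have kZ' : Clo (t3 ⁻¹' Y) (t3 ⁻¹' Z) := ⟨fun _ j => kZ.sub j, fun _ j _ i l =>
        kZ.cl _ j _ i (l.imp (t3_mono ·) (t3_mono ·))⟩
      have aY := hY.pre tw
      have e1 := deg _ _ _ (t3 ⁻¹' Z \ D) ((Sub.of hY h.amb.toRg h.two.sub).pre tw) (tw.ne.2 h.ne)
        (h.qq.pre h.two.sub tw) ((tw.cl C).subset.trans CN) (fun x hx => kZ.sub hx.1)
        (conn_core (rZ.pre tw).up (kZ'.bnd aY.nice aY.bnd2) (rg_clo rT kD).up DZ hD.conn cN sep')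
      replace e1 : eu D - eu Z ≤ eu C := by
        have a1 := eu_core nm (rZ.pre tw) (rg_clo rT kD) DZ sep'
        have a2 := tw.eu Z
        have a3 := tw.eu C
        exact (congrArg (eu D - ·) a2).symm.trans_le ((a1.symm.trans_le e1).trans_eq a3)
      have ne : ∀ x ∈ D', x ∉ D := fun x j i => by
        rw [dj x j i, Set.union_self] at hu
        rw [hu] at e1
        linarith
      have e2 := (Cvr.of_upper (rg_clo rT kD).up (rg_clo rT (clo_of hD')).up).eu_union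
      rw [hu, Set.eq_empty_of_forall_notMem (s := D ∩ D') fun x j => ne x j.2 j.1, eu_empty] at e2
      have od : ∀ x ∈ cl D, x ∉ Om D' := fun x j i =>
        let ⟨y, y1, y2⟩ := i.2; ne y y1 (adj1 rT kD j (hD'.sub y1) y2)
      refine t3b (Om C) D' b hb bV cG onV hD' (by linarith) s1
        (Set.disjoint_left.2 fun x j => od x (s2 j).2) fun x hx => ?_
      rcases oT ⟨fun j => hx.1 (adj1 rT (clo_of hD') hx.2 j le_rfl), cl_mono hD'.sub hx.2⟩ with j | j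
      · refine .inl (by_contra fun n => od x (KD ⟨fun i => ?_, cl_mono Set.subset_union_right j.2⟩) hx)
        obtain ⟨y, y1, y2⟩ := j.2
        exact i.elim (fun i => n ⟨fun i' => (hV.sub y1).2 (sub_cl (u y2 i')), i⟩) j.1
      · refine .inr ?_
        rcases hb with rfl | rfl
        · exact j.resolve_right fun i => od x (s2 i).2 hx
        · exact j.resolve_left fun i => od x (s2 i).2 hx
  obtain ⟨C0, C1, q0, q1, q2, q3, q4⟩ := t3a hV.conn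
  rcases q2.symm.subset aT with j | j
  · exact main C0 C1 1 (.inr rfl) q0 q1 q2 q4 q3 j
  · exact main C1 C0 0 (.inl rfl) q1 q0 ((Set.union_comm _ _).trans q2) q3 q4 j

theorem outStmt (nm : NmStmt) (deg : DegStmt) (tc1 : Tc1Stmt) (tc3 : Tc3Stmt) : OutStmt := by
  intro P _ _ R _ car Y C hY h hO he
  refine ⟨fun t f k w h1 h2 => ?_, fun t f k B hB => ?_⟩
  · rw [← k.om]
    rw [Set.preimage_sdiff, ← k.cl] at h1 h2
    rw [← k.om] at h2
    exact out_inc nm deg tc1 tc3 (hY.pre k) (h.pre k) (by rw [k.om]; exact fun _ j => hO j) h1 h2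
  · rw [← k.om]
    exact out_nb deg (hY.pre k) (h.pre k) (by rw [k.om]; exact fun _ j => hO j) (by rwa [k.eu]) hB

end Crest.Agent.X212.Sm25
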