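import Crest.Agent.X212.Sm25.Man

/-!
Row 212, layer H, package SM2 (helper25), part 9: a topological disc in a smooth surface whose
boundary has a smooth collar is a smooth disc relative to the collar.
-/

set_option autoImplicit false
set_option linter.style.longLine false

open Set Filter Topology Function Metric TopologicalSpace
open scoped ContDiff Manifold
open Crest.Agent.X212.Glue52

noncomputable section

namespace Crest.Agent.X212.Sm25

/-- the round annulus -/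
def An (a b : ℝ) : Set ℂ := {z | a < ‖z‖ ∧ ‖z‖ < b}

theorem isOpen_An (a b : ℝ) : IsOpen (An a b) := isOpen_Ioo.preimage continuous_norm

theorem isPreconnected_An {a : ℝ} (ha : 0 ≤ a) (b : ℝ) : IsPreconnected (An a b) := by
  have h1 : IsPathConnected (sphere (0 : ℂ) 1) := isPathConnected_sphere (by
    rw [← Module.finrank_eq_rank]; simp) 0 zero_le_one
  have h2 := (h1.isConnected.isPreconnected.prod (isPreconnected_Ioo (a := a) (b := b))).image
    (fun p : ℂ × ℝ => p.2 • p.1) (by fun_prop)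
  convert h2 using 1
  ext y
  constructor
  · intro hy
    have h0 : ‖y‖ ≠ 0 := (ha.trans_lt hy.1).ne'
    refine ⟨(‖y‖⁻¹ • y, ‖y‖), ⟨?_, hy⟩, ?_⟩
    · rw [mem_sphere_zero_iff_norm, norm_smul, norm_inv, norm_norm, inv_mul_cancel₀ h0]
    · simp only [smul_smul, mul_inv_cancel₀ h0, one_smul]
  · rintro ⟨⟨u, t⟩, ⟨hu, ht⟩, rfl⟩
    have : ‖t • u‖ = t := by
      rw [norm_smul, mem_sphere_zero_iff_norm.1 hu, mul_one, Real.norm_of_nonneg (ha.trans ht.1.le)]
    exact ⟨this.symm ▸ ht.1, this.symm ▸ ht.2⟩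

/-- coning: a disc is reparametrised along its boundary -/
theorem exists_cone {X : Type*} [TopologicalSpace X] [T2Space X] {c k : ℂ → X}
    (hc : ContinuousOn c (sphere 0 1)) (hci : InjOn c (sphere 0 1))
    (hk : ContinuousOn k (closedBall 0 1)) (hki : InjOn k (closedBall 0 1))
    (hb : k '' sphere 0 1 = c '' sphere 0 1) :
    ∃ k' : ℂ → X, ContinuousOn k' (closedBall 0 1) ∧ InjOn k' (closedBall 0 1) ∧
      k' '' closedBall 0 1 = k '' closedBall 0 1 ∧ EqOn k' c (sphere 0 1) := by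
  have e1 := ((hk.mono sphere_subset_closedBall).domRestrict.isClosedEmbedding
    (hki.mono sphere_subset_closedBall).injective).isEmbedding
  have e2 := (hc.domRestrict.isClosedEmbedding hci.injective).isEmbedding
  obtain ⟨σ, hσ⟩ := exists_homeo e1 e2 (by rw [range_domRestrict, range_domRestrict, hb])
  have hσ' : ∀ u, k (σ u) = c u := hσ
  let d : ℂ → sphere (0 : ℂ) 1 := dir
  let θ : ℂ → ℂ := fun z => ‖z‖ * σ (d z)
  have n : ∀ z, ‖θ z‖ = ‖z‖ := fun z => by simp [θ]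
  have hd : ∀ (r : ℝ) (u : sphere (0 : ℂ) 1), 0 < r → d (r * u) = u := fun r u hr => dir_mul hr u
  have hm : ∀ z, (‖z‖ : ℂ) * d z = z := norm_mul_dir
  have hθ : Continuous θ := continuous_iff_continuousAt.2 fun z => by
    by_cases h : z = 0
    · subst h
      have : θ 0 = 0 := by simp [θ]
      rw [ContinuousAt, this, tendsto_zero_iff_norm_tendsto_zero]
      simp only [n]
      exact tendsto_norm_zero
    · have h1 : ContinuousAt d z := (contMDiffAt_dir h).continuousAt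
      exact (Complex.continuous_ofReal.comp continuous_norm).continuousAt.mul
        ((continuous_subtype_val.comp σ.continuous).continuousAt.comp h1)
  have hi : Injective θ := fun z w e => by
    have h1 : ‖z‖ = ‖w‖ := by rw [← n z, e, n]
    by_cases h : ‖w‖ = 0
    · rw [norm_eq_zero.1 h, norm_eq_zero.1 (h1.trans h)]
    · simp only [θ, h1] at e
      have h2 := σ.injective (Subtype.ext (mul_left_cancel₀ (by exact_mod_cast h) e))
      rw [← hm z, ← hm w, h1, h2]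
  have hs : Surjective θ := fun w => by
    by_cases h : w = 0
    · exact ⟨0, by simp [θ, h]⟩
    · refine ⟨‖w‖ * σ.symm (d w), ?_⟩
      simp only [θ]
      rw [hd _ _ (norm_pos_iff.2 h), σ.apply_symm_apply]
      simpa using hm w
  have hb' : ∀ z, θ z ∈ closedBall (0 : ℂ) 1 ↔ z ∈ closedBall (0 : ℂ) 1 := fun z => by simp [n]
  refine ⟨k ∘ θ, hk.comp hθ.continuousOn fun z hz => (hb' z).2 hz,
    hki.comp hi.injOn fun z hz => (hb' z).2 hz, ?_, fun z hz => ?_⟩
  · rw [image_comp, show closedBall (0 : ℂ) 1 = θ ⁻¹' closedBall 0 1 from (ext hb').symm,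
      image_preimage_eq _ hs, ← show closedBall (0 : ℂ) 1 = θ ⁻¹' closedBall 0 1 from (ext hb').symm]
  · have h1 := mem_sphere_zero_iff_norm.1 hz
    have h2 : (d z : ℂ) = z := by simpa [h1] using hm z
    simp only [comp_apply, θ, h1, Complex.ofReal_one, one_mul, hσ', h2]

/-- the radial profile -/
theorem exists_profile {δ : ℝ} (hδ : 0 < δ) : ∃ φ : ℝ → ℝ, Continuous φ ∧ StrictMono φ ∧
    Surjective φ ∧ φ 1 = 1 - δ ∧ ∀ t, 2 * δ ≤ |t - 1| → φ t = t := by
  let φ : ℝ → ℝ := fun t => t - max (δ - |t - 1| / 2) 0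
  have h1 : Continuous φ := by fun_prop
  have h2 : ∀ t, 2 * δ ≤ |t - 1| → φ t = t := fun t ht => by
    simp only [φ]; rw [max_eq_right (by linarith), sub_zero]
  refine ⟨φ, h1, fun s t hst => ?_, fun s => ?_, by simp [φ, hδ.le], h2⟩
  · have a := abs_max_sub_max_le_abs (δ - |t - 1| / 2) (δ - |s - 1| / 2) 0
    have b := abs_abs_sub_abs_le_abs_sub (t - 1) (s - 1)
    rw [show t - 1 - (s - 1) = t - s by ring, abs_of_pos (sub_pos.2 hst)] at b
    rw [show δ - |t - 1| / 2 - (δ - |s - 1| / 2) = -(|t - 1| - |s - 1|) / 2 by ring, abs_div, abs_neg,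
      abs_two] at a
    simp only [φ]
    linarith [le_abs_self (max (δ - |t - 1| / 2) 0 - max (δ - |s - 1| / 2) 0)]
  · rcases le_or_gt (2 * δ) |s - 1| with c | c
    · exact ⟨s, h2 s c⟩
    · rw [abs_lt] at c
      obtain ⟨t, -, ht⟩ := intermediate_value_Icc (show 1 - 2 * δ ≤ 1 + 2 * δ by linarith)
        h1.continuousOn (show s ∈ Icc (φ (1 - 2 * δ)) (φ (1 + 2 * δ)) by
          rw [h2 _ (by rw [abs_of_neg] <;> linarith), h2 _ (by rw [abs_of_pos] <;> linarith)]
          constructor <;> linarith [c.1, c.2])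
      exact ⟨t, ht⟩

variable {EM : Type*} [NormedAddCommGroup EM] [NormedSpace ℝ EM] {HM : Type*} [TopologicalSpace HM]
  {M : Type*} [TopologicalSpace M]

/-- invariance of domain for maps from the plane -/
def IoD (M : Type*) [TopologicalSpace M] : Prop :=
  ∀ ⦃f : ℂ → M⦄ ⦃U : Set ℂ⦄, IsOpen U → ContinuousOn f U → InjOn f U → IsOpen (f '' U)

/-- invariance of domain, maps into a surface -/
theorem iod [ChartedSpace HM M] (I : ModelWithCorners ℝ EM HM) [I.Boundaryless] [IsManifold I ∞ M]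
    (L : EM ≃L[ℝ] E2) : IoD M := by
  intro f U hU hf hi
  refine isOpen_iff_mem_nhds.2 ?_
  rintro _ ⟨x, hx, rfl⟩
  let a := (chL I L (f x)).toOpenPartialHomeomorph
  have h1 : IsOpen (U ∩ f ⁻¹' a.source) := hf.isOpen_inter_preimage hU a.open_source
  have h2 : IsOpen ((fun z => a (f z)) '' (U ∩ f ⁻¹' a.source)) :=
    R105.Iod1_690.isOpen_image_fd (by simp) h1
      (a.continuousOn.comp (hf.mono inter_subset_left) fun z hz => hz.2)
      fun z hz w hw e => hi hz.1 hw.1 (a.injOn hz.2 hw.2 e)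
  refine mem_of_superset ((a.isOpen_inter_preimage h2).mem_nhds
    ⟨mem_chL L (f x), x, ⟨hx, mem_chL L (f x)⟩, rfl⟩) ?_
  rintro y ⟨h3, z, hz, e⟩
  exact ⟨z, hz.1, a.injOn hz.2 h3 e⟩

variable [T2Space M]

/-- the inner half of the collar lies in the disc -/
theorem side (H : IoD M) {c k : ℂ → M} {ε : ℝ} (hε : 0 < ε) (hε1 : ε ≤ 1)
    (hc : ContinuousOn c (An (1 - ε) (1 + ε))) (hci : InjOn c (An (1 - ε) (1 + ε)))
    (hk : ContinuousOn k (closedBall 0 1)) (hki : InjOn k (closedBall 0 1))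
    (hb : k '' sphere 0 1 = c '' sphere 0 1)
    (ho : ∀ z ∈ An 1 (1 + ε), c z ∉ k '' closedBall 0 1) {z : ℂ} (hz : z ∈ An (1 - ε) (1 + ε))
    (hz1 : ‖z‖ ≤ 1) : c z ∈ k '' closedBall 0 1 := by
  have hS : sphere (0 : ℂ) 1 ⊆ An (1 - ε) (1 + ε) := fun w hw => by
    have := mem_sphere_zero_iff_norm.1 hw
    constructor <;> linarith
  have hI : An (1 - ε) 1 ⊆ An (1 - ε) (1 + ε) := fun w hw => ⟨hw.1, by linarith [hw.2]⟩
  rcases hz1.eq_or_lt with h1 | h1
  · exact image_mono sphere_subset_closedBall (hb ▸ ⟨z, mem_sphere_zero_iff_norm.2 h1, rfl⟩)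
  rcases ((isPreconnected_An (sub_nonneg.2 hε1) 1).image c (hc.mono hI)).subset_or_subset
    (H isOpen_ball (hk.mono ball_subset_closedBall) (hki.mono ball_subset_closedBall))
    ((isCompact_closedBall 0 1).image_of_continuousOn hk).isClosed.isOpen_compl
    (disjoint_left.2 fun y a b => b (image_mono ball_subset_closedBall a)) (by
      rintro _ ⟨w, hw, rfl⟩
      by_cases h : c w ∈ k '' closedBall 0 1
      · obtain ⟨v, hv, e⟩ := h
        rcases (mem_closedBall_zero_iff.1 hv).eq_or_lt with h2 | h2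
        · obtain ⟨u, hu, e'⟩ : k v ∈ c '' sphere 0 1 := hb ▸ ⟨v, mem_sphere_zero_iff_norm.2 h2, rfl⟩
          have := hci (hS hu) (hI hw) (e'.trans e)
          exact absurd (mem_sphere_zero_iff_norm.1 hu) (this ▸ hw.2.ne)
        · exact Or.inl ⟨v, mem_ball_zero_iff.2 h2, e⟩
      · exact Or.inr h) with h | h
  · exact image_mono ball_subset_closedBall (h ⟨z, ⟨hz.1, h1⟩, rfl⟩)
  · exfalso
    obtain ⟨u, hu, e⟩ : c 1 ∈ k '' sphere 0 1 := hb ▸ ⟨1, by simp, rfl⟩
    have h2 : u ∈ closure (ball (0 : ℂ) 1) := by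
      rw [closure_ball _ one_ne_zero]; exact sphere_subset_closedBall hu
    have h3 : k ⁻¹' (c '' An (1 - ε) (1 + ε)) ∈ 𝓝[ball 0 1] u :=
      ((hk u (sphere_subset_closedBall hu)).mono ball_subset_closedBall)
        ((H (isOpen_An _ _) hc hci).mem_nhds ⟨1, hS (by simp), e.symm⟩)
    have := mem_closure_iff_nhdsWithin_neBot.1 h2
    obtain ⟨v, ⟨w, hw, e'⟩, hv⟩ := Filter.nonempty_of_mem (inter_mem h3 self_mem_nhdsWithin)
    have h4 : c w ∈ k '' closedBall 0 1 := ⟨v, ball_subset_closedBall hv, e'.symm⟩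
    rcases lt_trichotomy ‖w‖ 1 with c1 | c1 | c1
    · exact h ⟨w, ⟨hw.1, c1⟩, rfl⟩ h4
    · obtain ⟨v', hv', e2⟩ : c w ∈ k '' sphere 0 1 := hb ▸ ⟨w, mem_sphere_zero_iff_norm.2 c1, rfl⟩
      have := hki (sphere_subset_closedBall hv') (ball_subset_closedBall hv) (e2.trans e')
      exact (mem_ball_zero_iff.1 hv).ne (this ▸ mem_sphere_zero_iff_norm.1 hv')
    · exact ho w ⟨c1, hw.2⟩ h4

/-- a topological parametrisation which agrees with the collar -/
theorem exists_top (H : IoD M) {c k : ℂ → M} {δ : ℝ} (hδ : 0 < δ) (hδ1 : 3 * δ ≤ 1)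
    (hc : ContinuousOn c (An (1 - 3 * δ) (1 + 3 * δ))) (hci : InjOn c (An (1 - 3 * δ) (1 + 3 * δ)))
    (hk : ContinuousOn k (closedBall 0 1)) (hki : InjOn k (closedBall 0 1))
    (hb : k '' sphere 0 1 = c '' sphere 0 1)
    (ho : ∀ z ∈ An 1 (1 + 3 * δ), c z ∉ k '' closedBall 0 1) :
    ∃ h : ℂ → M, ContinuousOn h (ball 0 (1 + 3 * δ)) ∧ InjOn h (ball 0 (1 + 3 * δ)) ∧
      (∀ z, 1 - δ ≤ ‖z‖ → h z = c z) ∧ h '' closedBall 0 1 = k '' closedBall 0 1 := by
  classical
  set A := An (1 - 3 * δ) (1 + 3 * δ) with hA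
  have hS : sphere (0 : ℂ) 1 ⊆ A := fun w hw => by
    have := mem_sphere_zero_iff_norm.1 hw
    constructor <;> linarith
  have hin := @side _ _ _ H c k (3 * δ) (by positivity) hδ1 hc hci hk hki hb ho
  obtain ⟨k', a1, a2, a3, a4⟩ := exists_cone (hc.mono hS) (hci.mono hS) hk hki hb
  rw [← a3] at ho hin ⊢
  obtain ⟨φ, p1, p2, p3, p4, p5⟩ := exists_profile hδ
  have q1 : φ (1 - 3 * δ) = 1 - 3 * δ := p5 _ (by rw [abs_of_neg] <;> linarith)
  have q2 : φ (1 + 3 * δ) = 1 + 3 * δ := p5 _ (by rw [abs_of_pos] <;> linarith)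
  have q3 : ∀ t, φ t ∈ Ioo (1 - 3 * δ) (1 + 3 * δ) ↔ t ∈ Ioo (1 - 3 * δ) (1 + 3 * δ) := fun t => by
    conv_lhs => rw [← q1, ← q2]
    exact and_congr p2.lt_iff_lt p2.lt_iff_lt
  have pos : ∀ z ∈ A, 0 < ‖z‖ := fun z hz => by linarith [hz.1]
  have nrm : ∀ z ∈ A, ∀ t ∈ Ioo (1 - 3 * δ) (1 + 3 * δ), ‖(t / ‖z‖) • z‖ = t := fun z hz t ht => by
    rw [norm_smul, Real.norm_of_nonneg (div_nonneg (by linarith [ht.1]) (norm_nonneg _)),
      div_mul_cancel₀ _ (pos z hz).ne']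
  let u : A → A := fun z => ⟨(φ ‖z.1‖ / ‖z.1‖) • z.1, by
    have := (q3 _).2 z.2
    show _ ∈ Ioo _ _
    rwa [nrm z z.2 _ this]⟩
  have un : ∀ z, ‖(u z).1‖ = φ ‖z.1‖ := fun z => nrm z z.2 _ ((q3 _).2 z.2)
  have uc : Continuous u := Continuous.subtype_mk (((p1.comp continuous_subtype_val.norm).div
    continuous_subtype_val.norm fun z => (pos z z.2).ne').smul continuous_subtype_val) _
  have ui : Injective u := fun z w e => by
    have h1 : ‖z.1‖ = ‖w.1‖ := p2.injective (by rw [← un, e, un])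
    have h2 : (φ ‖z.1‖ / ‖z.1‖) • z.1 = (φ ‖w.1‖ / ‖w.1‖) • w.1 := congrArg Subtype.val e
    rw [h1] at h2
    exact Subtype.ext (smul_right_injective _ (div_pos (by linarith [((q3 _).2 w.2).1])
      (pos w w.2)).ne' h2)
  have us : Surjective u := fun w => by
    obtain ⟨t, ht⟩ := p3 ‖w.1‖
    have h1 := (q3 t).1 (ht ▸ w.2)
    have h2 := nrm w w.2 t h1
    refine ⟨⟨(t / ‖w.1‖) • w.1, by show _ ∈ Ioo _ _; rwa [h2]⟩, Subtype.ext ?_⟩
    have h3 : t ≠ 0 := by linarith [h1.1]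
    have h4 := (pos w w.2).ne'
    simp only [u, h2, ht, smul_smul]
    rw [show ‖w.1‖ / t * (t / ‖w.1‖) = 1 by field_simp, one_smul]
  have he : IsOpenEmbedding (A.domRestrict c) := by
    refine .of_continuous_injective_isOpenMap hc.domRestrict hci.injective fun V hV => ?_
    have hs : Subtype.val '' V ⊆ A := Subtype.coe_image_subset _ _
    have := H ((isOpen_An _ _).isOpenMap_subtype_val V hV) (hc.mono hs) (hci.mono hs)
    rwa [image_image] at this
  have hK : IsCompact {z : A | |‖z.1‖ - 1| ≤ 2 * δ} := by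
    refine Topology.IsEmbedding.subtypeVal.isCompact_iff.2 ?_
    have : Subtype.val '' {z : A | |‖z.1‖ - 1| ≤ 2 * δ} = {z : ℂ | |‖z‖ - 1| ≤ 2 * δ} := by
      ext z
      refine ⟨by rintro ⟨w, hw, rfl⟩; exact hw, fun hz => ⟨⟨z, ?_⟩, hz, rfl⟩⟩
      have := abs_le.1 (show |‖z‖ - 1| ≤ 2 * δ from hz)
      constructor <;> linarith [this.1, this.2]
    rw [this]
    refine (isCompact_closedBall 0 2).of_isClosed_subset (isClosed_le (by fun_prop) continuous_const)
      fun z hz => mem_closedBall_zero_iff.2 ?_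
    linarith [(abs_le.1 (show |‖z‖ - 1| ≤ 2 * δ from hz)).2]
  have uK : ∀ z, z ∉ {z : A | |‖z.1‖ - 1| ≤ 2 * δ} → u z = z := fun z hz => Subtype.ext (by
    simp only [u]
    rw [p5 _ (not_le.1 hz).le, div_self (pos z z.2).ne', one_smul])
  set ρ := Glb47.push (A.domRestrict c) u with hρ
  have r1 : Continuous ρ := Glb47.continuous_push' he uc hK uK
  have r2 : ∀ z : A, ρ (c z) = c (u z) := Glb47.push_apply he.injective u
  have r3 : ∀ y, (¬∃ z : A, c z = y) → ρ y = y := fun y hy =>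
    Glb47.push_of_notMem he.injective uK fun ⟨z, _, e⟩ => hy ⟨z, e⟩
  have r4 : Injective ρ := fun x y e => by
    by_cases a : ∃ z : A, c z = x <;> by_cases b : ∃ z : A, c z = y
    · obtain ⟨z, rfl⟩ := a
      obtain ⟨w, rfl⟩ := b
      rw [r2, r2] at e
      rw [ui (he.injective e)]
    · obtain ⟨z, rfl⟩ := a
      exact absurd ⟨u z, by rw [← r2, e, r3 y b]⟩ b
    · obtain ⟨z, rfl⟩ := b
      exact absurd ⟨u z, by rw [← r2, ← e, r3 x a]⟩ a
    · rwa [r3 x a, r3 y b] at e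
  have d0 : 0 < 1 - δ := by linarith
  have sc : ∀ z : ℂ, ‖(1 - δ)⁻¹ • z‖ = ‖z‖ / (1 - δ) := fun z => by
    rw [norm_smul, Real.norm_of_nonneg (by positivity), inv_mul_eq_div]
  have sm : ∀ z : ℂ, ‖z‖ ≤ 1 - δ → (1 - δ)⁻¹ • z ∈ closedBall (0 : ℂ) 1 := fun z hz => by
    rwa [mem_closedBall_zero_iff, sc, div_le_one d0]
  let h : ℂ → M := fun z => if ‖z‖ ≤ 1 - δ then ρ (k' ((1 - δ)⁻¹ • z)) else c z
  have h1 : ∀ z, ‖z‖ ≤ 1 - δ → h z = ρ (k' ((1 - δ)⁻¹ • z)) := fun z hz => if_pos hz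
  have h2 : ∀ z, 1 - δ ≤ ‖z‖ → h z = c z := fun z hz => by
    rcases hz.eq_or_lt with e | e
    · have n1 : ‖(1 - δ)⁻¹ • z‖ = 1 := by rw [sc, ← e, div_self d0.ne']
      have m := mem_sphere_zero_iff_norm.2 n1
      rw [h1 z e.ge, a4 m, r2 ⟨_, hS m⟩]
      simp only [u, n1, p4, smul_smul, div_one, mul_inv_cancel₀ d0.ne', one_smul]
    · exact if_neg (not_le.2 e)
  have mA : ∀ z ∈ ball (0 : ℂ) (1 + 3 * δ), 1 - δ ≤ ‖z‖ → z ∈ A := fun z hz e =>
    ⟨by linarith, mem_ball_zero_iff.1 hz⟩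
  have hne : ∀ z, ‖z‖ ≤ 1 - δ → ∀ w ∈ ball (0 : ℂ) (1 + 3 * δ), 1 - δ < ‖w‖ → h z ≠ h w := by
    intro z hz w hw hw' e
    obtain ⟨v, hv⟩ := us ⟨w, mA w hw hw'.le⟩
    have e1 : c w = ρ (c v) := by rw [r2, hv]
    rw [h1 z hz, h2 w hw'.le, e1] at e
    refine ho v ⟨p2.lt_iff_lt.1 ?_, v.2.2⟩ ⟨_, sm z hz, r4 e⟩
    rw [p4, ← un, hv]; exact hw'
  have le1 : ∀ z : A, c z ∈ k' '' closedBall 0 1 → ‖z.1‖ ≤ 1 := fun z hz =>
    not_lt.1 fun c1 => ho z ⟨c1, z.2.2⟩ hz
  refine ⟨h, fun z hz => ?_, fun z hz w hw e => ?_, h2, Subset.antisymm ?_ ?_⟩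
  · have c1 : ContinuousOn h (closedBall 0 (1 - δ)) := (r1.comp_continuousOn (a1.comp
      (continuous_const_smul _).continuousOn fun z hz => sm z (mem_closedBall_zero_iff.1 hz))).congr
      fun z hz => h1 z (mem_closedBall_zero_iff.1 hz)
    have c2 : ContinuousOn h (ball 0 (1 + 3 * δ) ∩ {z | 1 - δ ≤ ‖z‖}) :=
      (hc.mono fun z hz => mA z hz.1 hz.2).congr fun z hz => h2 z hz.2
    have c3 : ContinuousWithinAt h (closedBall 0 (1 - δ)) z := by
      by_cases m : z ∈ closedBall (0 : ℂ) (1 - δ)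
      · exact c1 z m
      · exact continuousWithinAt_of_notMem_closure (by rwa [isClosed_closedBall.closure_eq])
    have c4 : ContinuousWithinAt h (ball 0 (1 + 3 * δ) ∩ {z | 1 - δ ≤ ‖z‖}) z := by
      by_cases m : 1 - δ ≤ ‖z‖
      · exact c2 z ⟨hz, m⟩
      · exact continuousWithinAt_of_notMem_closure fun h' => m (closure_minimal inter_subset_right
          (isClosed_le continuous_const continuous_norm) h')
    refine (c3.union c4).mono fun w hw => ?_
    rcases le_total ‖w‖ (1 - δ) with m | m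
    exacts [Or.inl (mem_closedBall_zero_iff.2 m), Or.inr ⟨hw, m⟩]
  · rcases le_or_gt ‖z‖ (1 - δ) with a | a <;> rcases le_or_gt ‖w‖ (1 - δ) with b | b
    · rw [h1 z a, h1 w b] at e
      exact smul_right_injective _ (inv_ne_zero d0.ne') (a2 (sm z a) (sm w b) (r4 e))
    · exact absurd e (hne z a w hw b)
    · exact absurd e.symm (hne w b z hz a)
    · rw [h2 z a.le, h2 w b.le] at e
      exact hci (mA z hz a.le) (mA w hw b.le) e
  · rintro _ ⟨z, hz, rfl⟩
    have z1 := mem_closedBall_zero_iff.1 hz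
    rcases le_total ‖z‖ (1 - δ) with a | a
    · rw [h1 z a]
      by_cases b : ∃ w : A, c w = k' ((1 - δ)⁻¹ • z)
      · obtain ⟨w, e⟩ := b
        rw [← e, r2]
        refine hin (u w).2 ?_
        rw [un]
        linarith [p2.monotone (le1 w ⟨_, sm z a, e.symm⟩)]
      · rw [r3 _ b]; exact ⟨_, sm z a, rfl⟩
    · rw [h2 z a]; exact hin ⟨by linarith, by linarith⟩ z1
  · have key : ∀ y ∈ k' '' closedBall 0 1, ρ y ∈ h '' closedBall 0 1 := by
      rintro _ ⟨v, hv, rfl⟩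
      have n1 : ‖(1 - δ) • v‖ ≤ 1 - δ := by
        rw [norm_smul, Real.norm_of_nonneg d0.le]
        nlinarith [mem_closedBall_zero_iff.1 hv]
      exact ⟨(1 - δ) • v, mem_closedBall_zero_iff.2 (by linarith), by
        rw [h1 _ n1, smul_smul, inv_mul_cancel₀ d0.ne', one_smul]⟩
    intro y hy
    by_cases b : ∃ w : A, c w = y
    · obtain ⟨w, rfl⟩ := b
      rcases le_total ‖w.1‖ (1 - δ) with a | a
      · obtain ⟨v, rfl⟩ := us w
        rw [← r2]
        refine key _ (hin v.2 (p2.le_iff_le.1 ?_))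
        rwa [p4, ← un]
      · exact ⟨w, mem_closedBall_zero_iff.2 (le1 w hy), h2 w a⟩
    · rw [← r3 y b]; exact key y hy

/-- **DISC** -/
theorem disc [ChartedSpace HM M] {I : ModelWithCorners ℝ EM HM} [I.Boundaryless] [IsManifold I ∞ M]
    (L : EM ≃L[ℝ] E2) {c k : ℂ → M} {ε : ℝ} (hε : 0 < ε)
    (hc : ∀ z ∈ An (1 - ε) (1 + ε), IsLocalDiffeomorphAt 𝓘(ℝ, ℂ) I ∞ c z)
    (hci : InjOn c (An (1 - ε) (1 + ε)))
    (hk : ContinuousOn k (closedBall 0 1)) (hki : InjOn k (closedBall 0 1))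
    (hb : k '' sphere 0 1 = c '' sphere 0 1)
    (ho : ∀ z ∈ An 1 (1 + ε), c z ∉ k '' closedBall 0 1) :
    ∃ δ > 0, δ ≤ ε ∧ ∃ g : ℂ → M, (∀ z ∈ ball (0 : ℂ) (1 + δ), IsLocalDiffeomorphAt 𝓘(ℝ, ℂ) I ∞ g z) ∧
      InjOn g (ball 0 (1 + δ)) ∧ (∀ z, 1 - δ ≤ ‖z‖ → g z = c z) ∧
      g '' closedBall 0 1 = k '' closedBall 0 1 := by
  classical
  set δ := min ε 1 / 3 with hδ
  have d0 : 0 < δ := by positivity
  have d1 : 3 * δ ≤ ε := by linarith [min_le_left ε 1]
  have d2 : 3 * δ ≤ 1 := by linarith [min_le_right ε 1]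
  have hs : An (1 - 3 * δ) (1 + 3 * δ) ⊆ An (1 - ε) (1 + ε) := fun z hz =>
    ⟨by linarith [hz.1], by linarith [hz.2]⟩
  obtain ⟨h, h1, h2, h3, h4⟩ := exists_top (iod I L) d0 d2
    (fun z hz => (hc z (hs hz)).contMDiffAt.continuousAt.continuousWithinAt) (hci.mono hs) hk hki hb
    fun z hz => ho z ⟨hz.1, by linarith [hz.2]⟩
  let B : Opens ℂ := ⟨ball 0 (1 + 3 * δ), isOpen_ball⟩
  let W : Opens M := ⟨h '' ball 0 (1 + 3 * δ), iod I L isOpen_ball h1 h2⟩
  have he : IsOpenEmbedding fun z : B => h z := by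
    refine .of_continuous_injective_isOpenMap h1.domRestrict h2.injective fun V hV => ?_
    have hs : Subtype.val '' V ⊆ ball 0 (1 + 3 * δ) := Subtype.coe_image_subset _ _
    have := iod I L (B.2.isOpenMap_subtype_val V hV) (h1.mono hs) (h2.mono hs)
    rwa [image_image] at this
  obtain ⟨η, hη⟩ := exists_homeo (f := (Subtype.val : W → M)) IsEmbedding.subtypeVal he.isEmbedding
    (by rw [Subtype.range_coe]; exact range_domRestrict h _)
  have : PreconnectedSpace B := Subtype.preconnectedSpace (convex_ball _ _).isPreconnected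
  have : PreconnectedSpace W := η.surjective.denseRange.preconnectedSpace η.continuous
  have lv : IsLocalDiffeomorph 𝓘(ℝ, ℂ) 𝓘(ℝ, E2) ∞ fun z : B => cE z :=
    ld_comp (g := cE) (ld_clm cE) (ld_val B)
  obtain ⟨ψ, p1, p2⟩ := mp (I := I) L (f := fun y : W => cE (η.symm y))
    ((cE.toHomeomorph.isOpenEmbedding.comp B.2.isOpenEmbedding_subtypeVal).comp
      η.symm.isOpenEmbedding) (A := {y | 1 - δ / 2 ≤ ‖(η.symm y : ℂ)‖})
    (D := η '' {z | ‖(z : ℂ)‖ ≤ 1}) (isClosed_le continuous_const (by fun_prop))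
    ⟨η ⟨1, by simpa [B] using d0⟩, by simpa using (half_pos d0).le⟩
    ((Topology.IsEmbedding.subtypeVal.isCompact_iff.2 (by
      convert isCompact_closedBall (0 : ℂ) 1
      ext z
      refine ⟨by rintro ⟨w, hw, rfl⟩; simpa using hw, fun hz => ⟨⟨z, ?_⟩, by simpa using hz, rfl⟩⟩
      exact closedBall_subset_ball (by linarith) hz)).image η.continuous) (fun y hy => by
    obtain ⟨z, rfl⟩ := η.surjective y
    have hz : 1 - δ / 2 ≤ ‖(z : ℂ)‖ := by simpa using hy
    have l1 : IsLocalDiffeomorphAt 𝓘(ℝ, ℂ) I ∞ h z := by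
      refine ld_congr (hc z (hs ⟨by linarith, mem_ball_zero_iff.1 z.2⟩)) ?_
      filter_upwards [(isOpen_lt continuous_const continuous_norm).mem_nhds
        (show 1 - δ < ‖(z : ℂ)‖ by linarith)] with w hw using h3 w (le_of_lt hw)
    have l2 : IsLocalDiffeomorphAt 𝓘(ℝ, ℂ) I ∞ η z :=
      ld_codRestrict (by rw [show Subtype.val ∘ η = fun z : B => h z from funext hη]
                         exact ld_restrict l1)
    refine ld_of_comp l2 (ld_congr (lv z) (Eventually.of_forall fun w => ?_))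
    simp)
  let G : B ≃ₜ W := η.trans ψ.symm
  have lG : IsLocalDiffeomorph 𝓘(ℝ, ℂ) I ∞ G := fun z => by
    refine ld_of_comp_left (p2 (G z) ?_) G.continuous.continuousAt
      (ld_congr (lv z) (Eventually.of_forall fun w => ?_))
    · obtain ⟨w, e⟩ := η.surjective (G z)
      rw [← e]
      rcases le_total ‖(w : ℂ)‖ 1 with c1 | c1
      · exact Or.inr ⟨w, c1, rfl⟩
      · left; simp only [mem_ofPred_eq, η.symm_apply_apply]; linarith
    · simp [G]
  have GA : ∀ z : B, 1 - δ / 2 ≤ ‖(z : ℂ)‖ → G z = η z := fun z hz =>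
    (p1.symm.ev (x := η z) fun h' => h' (by simpa using hz)).self_of_nhds
  let g : ℂ → M := fun z => if hz : z ∈ B then (G ⟨z, hz⟩ : M) else c z
  have g1 : ∀ z : B, g z = G z := fun z => dif_pos z.2
  have mB : ball (0 : ℂ) (1 + δ / 2) ⊆ B := ball_subset_ball (by linarith)
  have mB' : closedBall (0 : ℂ) 1 ⊆ B := closedBall_subset_ball (by linarith)
  refine ⟨δ / 2, by positivity, by linarith, g, fun z hz => ?_, fun z hz w hw e => ?_,
    fun z hz => ?_, ?_⟩
  · refine ld_of_comp (ld_val B ⟨z, mB hz⟩) ?_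
    rw [show g ∘ Subtype.val = Subtype.val ∘ G from funext g1]
    exact ld_comp (ld_val W) lG _
  · rw [g1 ⟨z, mB hz⟩, g1 ⟨w, mB hw⟩] at e
    exact congrArg Subtype.val (G.injective (Subtype.ext e))
  · by_cases m : z ∈ B
    · rw [g1 ⟨z, m⟩, GA ⟨z, m⟩ hz, hη, h3 z (by linarith)]
    · exact dif_neg m
  · rw [← h4]
    refine Subset.antisymm ?_ ?_
    · rintro _ ⟨z, hz, rfl⟩
      obtain ⟨w, e⟩ := η.surjective (G ⟨z, mB' hz⟩)
      refine ⟨w, mem_closedBall_zero_iff.2 (not_lt.1 fun c1 => ?_), by rw [g1 ⟨z, mB' hz⟩, ← e, hη]⟩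
      rw [← GA w (by linarith)] at e
      rw [G.injective e] at c1
      exact absurd (mem_closedBall_zero_iff.1 hz) (not_le.2 c1)
    · rintro _ ⟨z, hz, rfl⟩
      obtain ⟨w, e⟩ := G.surjective (η ⟨z, mB' hz⟩)
      refine ⟨w, mem_closedBall_zero_iff.2 (not_lt.1 fun c1 => ?_), by rw [g1, e, hη]⟩
      rw [GA w (by linarith)] at e
      rw [η.injective e] at c1
      exact absurd (mem_closedBall_zero_iff.1 hz) (not_le.2 c1)

end Crest.Agent.X212.Sm25
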