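import Crest.Agent.X212.Smo49.Rm

/-!
Row 212, layer H, package SM2 (helper25), part 1: the files `Smo49/Pert`, `Smo49/Rm` in any
dimension (a reflection `ρ` replaces `-1`).
-/

set_option autoImplicit false
set_option linter.style.longLine false
set_option linter.unusedSectionVars false

open Set Metric Filter Topology MeasureTheory
open scoped NNReal ContDiff Manifold

namespace Crest.Agent.X212.Sm25

open Crest.Agent.R096.P5Spec_205 (HomeoOn MollAt)
open Crest.Agent.R096.Str_696 (LocPL)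
open Crest.Agent.X212.Smo49 hiding pert plize rm

variable {E : Type*} [NormedAddCommGroup E] [InnerProductSpace ℝ E] [MeasureSpace E]
  [BorelSpace E] [FiniteDimensional ℝ E] [(volume : Measure E).IsAddHaarMeasure]
  {ρ : E ≃L[ℝ] E}

/-- the convex class up to the reflection `ρ` -/
def SM (ρ : E ≃L[ℝ] E) (h : E → E) (x : E) : Prop := MollAt h x ∨ MollAt (fun y => ρ (h y)) x

theorem SM.congr {h h' : E → E} {x : E} (hx : SM ρ h x) (he : h' =ᶠ[𝓝 x] h) : SM ρ h' x := by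
  rcases hx with hx | hx
  · exact Or.inl (moll_congr hx he)
  · exact Or.inr (moll_congr hx (he.mono fun y hy => by simp only [hy]))

theorem det_comp (A B : E →L[ℝ] E) : (A.comp B).det = A.det * B.det :=
  LinearMap.det_comp (A : E →ₗ[ℝ] E) (B : E →ₗ[ℝ] E)

theorem fderiv_lin (ρ : E ≃L[ℝ] E) (h : E → E) (x : E) :
    fderiv ℝ (fun y => ρ (h y)) x = (ρ : E →L[ℝ] E).comp (fderiv ℝ h x) :=
  ρ.comp_fderiv (f := h) (x := x)

theorem det_symm_neg (hρ : (ρ : E →L[ℝ] E).det < 0) : (ρ.symm : E →L[ℝ] E).det < 0 := by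
  have h1 := det_comp (ρ : E →L[ℝ] E) (ρ.symm : E →L[ℝ] E)
  rw [ρ.coe_comp_coe_symm] at h1
  have h2 : (ContinuousLinearMap.id ℝ E).det = 1 := LinearMap.det_id
  rw [h2] at h1
  by_contra hn
  nlinarith [mul_nonneg (neg_nonneg.2 hρ.le) (not_lt.1 hn)]

theorem moll_not_both (hρ : (ρ : E →L[ℝ] E).det < 0) {h : E → E} {x : E} (h1 : MollAt h x)
    (h2 : MollAt (fun y => ρ (h y)) x) : False := by
  obtain ⟨r, hr, K, -, -, hdet, -, hae⟩ := h1
  obtain ⟨r', hr', K', -, -, hdet', -, hae'⟩ := h2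
  have h3 : ∀ᵐ y ∂(volume : Measure E), y ∉ ball x (min r r') := by
    filter_upwards [hae, hae'] with y hy hy' hb
    have h4 := hdet _ (hy (ball_subset_ball (min_le_left _ _) hb))
    have h5 := hdet' _ (hy' (ball_subset_ball (min_le_right _ _) hb))
    rw [fderiv_lin, det_comp] at h5
    nlinarith
  have h4 := measure_eq_zero_iff_ae_notMem.2 h3
  exact (measure_ball_pos volume x (lt_min hr hr')).ne' h4

theorem moll_lin (hρ : (ρ : E →L[ℝ] E).det < 0) {f : E → E} {A : E →L[ℝ] E} {x : E} {r : ℝ}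
    (hr : 0 < r) {c : ℝ≥0} (hf : ApproximatesLinearOn f A (ball x r) c)
    (hdet : ∀ B ∈ closedBall A (c : ℝ), B.det < 0) : MollAt (fun y => ρ (f y)) x := by
  have : ProperSpace (E →L[ℝ] E) := FiniteDimensional.proper_real _
  have hL : LipschitzOnWith c (f - ⇑A) (ball x r) :=
    ApproximatesLinearOn.approximatesLinearOn_iff_lipschitzOnWith.1 hf
  have hL2 : LipschitzOnWith (‖A‖₊ + c) f (ball x r) := lipschitzOnWith_iff_restrict.2 hf.lipschitz
  let T : (E →L[ℝ] E) →L[ℝ] (E →L[ℝ] E) := ContinuousLinearMap.compL ℝ E E E (ρ : E →L[ℝ] E)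
  refine ⟨r, hr, T '' closedBall A c, (convex_closedBall _ _).linear_image T.toLinearMap,
    (isCompact_closedBall _ _).image T.continuous, ?_,
    ⟨_, (ρ : E →L[ℝ] E).lipschitz.comp_lipschitzOnWith hL2⟩, ?_⟩
  · rintro _ ⟨B, hB, rfl⟩
    show 0 < ((ρ : E →L[ℝ] E).comp B).det
    rw [det_comp]
    exact mul_pos_of_neg_of_neg hρ (hdet B hB)
  filter_upwards [hL2.ae_differentiableWithinAt_of_mem (μ := volume)] with y hy hyx
  have hd := (hy hyx).differentiableAt (isOpen_ball.mem_nhds hyx)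
  have h1 := norm_fderiv_le_of_lipschitzOn ℝ (isOpen_ball.mem_nhds hyx) hL
  rw [fderiv_sub hd A.differentiableAt, A.fderiv] at h1
  exact ⟨fderiv ℝ f y, by rwa [mem_closedBall, dist_eq_norm], (fderiv_lin ρ f y).symm⟩

theorem sm_of_smOn (hρ : (ρ : E →L[ℝ] E).det < 0) {h : E → E} {U : Set E} (hU : IsOpen U)
    (hs : SmOn h U) {x : E} (hx : x ∈ U) : SM ρ h x := by
  have hcd : ContDiffAt ℝ 1 h x := (hs.1.contDiffAt (hU.mem_nhds hx)).of_le (by simp)
  rcases lt_or_gt_of_ne (hs.2 x hx) with hlt | hlt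
  · refine Or.inr (R096.Mo_119.mollAt_of_contDiffAt (μ := volume)
      ((ρ : E →L[ℝ] E).contDiff.contDiffAt.comp x hcd) ?_)
    rw [fderiv_lin, det_comp]; exact mul_pos_of_neg_of_neg hρ hlt
  · exact Or.inl (R096.Mo_119.mollAt_of_contDiffAt (μ := volume) hcd hlt)

theorem homeo_lin (ρ : E ≃L[ℝ] E) {h : E → E} {Om La : Set E} (hh : HomeoOn h Om La) :
    HomeoOn (fun x => ρ (h x)) Om (ρ '' La) := by
  obtain ⟨k, hk, hkl⟩ := hh.inv
  refine ⟨(ρ.injective.injOn.bijOn_image).comp hh.bij, ρ.continuous.comp_continuousOn hh.cont,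
    fun y => k (ρ.symm y), hk.comp ρ.symm.continuous.continuousOn ?_, fun x hx => by
      simp [hkl x hx]⟩
  rintro _ ⟨y, hy, rfl⟩
  simpa using hy

theorem homeo_lin' (ρ : E ≃L[ℝ] E) {h : E → E} {Om La : Set E} (hh : HomeoOn h Om (ρ '' La)) :
    HomeoOn (fun x => ρ.symm (h x)) Om La := by
  have := homeo_lin ρ.symm hh
  rwa [image_image, show (fun x => ρ.symm (ρ x)) = id from funext ρ.symm_apply_apply,
    image_id] at this

theorem isOpen_lin (ρ : E ≃L[ℝ] E) {La : Set E} (h : IsOpen La) : IsOpen (ρ '' La) :=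
  ρ.toHomeomorph.isOpenMap _ h

/-- small Lipschitz perturbations with compact support -/
theorem pert [Nontrivial E] (hρ : (ρ : E →L[ℝ] E).det < 0) {h : E → E} {Om La U K : Set E} (hOm : IsOpen Om)
    (hLa : IsOpen La) (hh : HomeoOn h Om La) (hU : IsOpen U) (hUO : U ⊆ Om) (hs : SmOn h U)
    (hK : IsCompact K) (hKU : K ⊆ U) :
    ∃ ε > 0, ∀ d : E → E, (∀ x ∉ K, d x = 0) → (∀ x, ‖d x‖ ≤ ε) →
      (∀ x y, ‖d x - d y‖ ≤ ε * ‖x - y‖) →
      HomeoOn (fun x => h x + d x) Om La ∧ ∀ x ∈ U, SM ρ (fun x => h x + d x) x := by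
  have : CompleteSpace E := FiniteDimensional.complete ℝ E
  obtain ⟨t, ht, hQ⟩ := exists_Qp hU hs hK hKU
  have ht' : (0 : ℝ) < t := ht
  obtain ⟨k, hk, hkl, hkr⟩ := inv_spec hh
  have hKO : K ⊆ Om := hKU.trans hUO
  have hKi : IsCompact (h '' K) := hK.image_of_continuousOn (hh.cont.mono hKO)
  have hKL : h '' K ⊆ La := by rintro _ ⟨x, hx, rfl⟩; exact hh.bij.mapsTo (hKO hx)
  obtain ⟨s, hs0, hss⟩ := Metric.mem_uniformity_dist.1 (hKi.uniformContinuousAt_of_continuousAt k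
    (fun a ha => hk.continuousAt (hLa.mem_nhds (hKL ha))) (Metric.dist_mem_uniformity ht'))
  obtain ⟨β, βc, β0, β1, βL⟩ := exists_beta hLa
  obtain ⟨b, hb0, hb⟩ : ∃ b > 0, ∀ z ∈ h '' K, b ≤ β z := by
    rcases (h '' K).eq_empty_or_nonempty with he | hne
    · exact ⟨1, one_pos, by rw [he]; exact fun z hz => hz.elim⟩
    · obtain ⟨z, hz, hzm⟩ := hKi.exists_isMinOn hne βc.continuousOn
      exact ⟨β z, β0 z (hKL hz), fun w hw => hzm hw⟩
  refine ⟨min (min t (s / 4)) (min b 1), by positivity, fun d hd0 hd1 hd2 => ?_⟩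
  have e1 : min (min (t : ℝ) (s / 4)) (min b 1) ≤ t := (min_le_left _ _).trans (min_le_left _ _)
  have e2 : min (min (t : ℝ) (s / 4)) (min b 1) ≤ s / 4 := (min_le_left _ _).trans (min_le_right _ _)
  have e3 : min (min (t : ℝ) (s / 4)) (min b 1) ≤ b := (min_le_right _ _).trans (min_le_left _ _)
  have e4 : min (min (t : ℝ) (s / 4)) (min b 1) ≤ 1 := (min_le_right _ _).trans (min_le_right _ _)
  have hdt : ∀ x y, ‖d x - d y‖ ≤ t * ‖x - y‖ := fun x y =>
    (hd2 x y).trans (mul_le_mul_of_nonneg_right e1 (norm_nonneg _))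
  have hdc : Continuous d := by
    refine (LipschitzWith.of_dist_le_mul (K := t) fun x y => ?_).continuous
    rw [dist_eq_norm, dist_eq_norm]; exact hdt x y
  have happ : ∀ {a : E} {A : E →L[ℝ] E} {c : ℝ≥0}, ApproximatesLinearOn h A (ball a t) c →
      ApproximatesLinearOn (fun x => h x + d x) A (ball a t) (c + t) := by
    intro a A c H x hx y hy
    have e : h x + d x - (h y + d y) - A (x - y) = (h x - h y - A (x - y)) + (d x - d y) := by abel
    rw [e]
    refine (norm_add_le _ _).trans ?_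
    rw [NNReal.coe_add, add_mul]
    exact add_le_add (H x hx y hy) (hdt x y)
  have hoff : ∀ x ∉ K, (fun x => h x + d x) =ᶠ[𝓝 x] h := by
    intro x hx
    filter_upwards [hK.isClosed.isOpen_compl.mem_nhds hx] with y hy
    rw [hd0 y hy, add_zero]
  have hinj1 : ∀ a ∈ K, ∀ y ∈ Om, h a + d a = h y + d y → a = y := by
    intro a ha y hy e
    obtain ⟨-, A, c, h2, h3, -⟩ := hQ a ha
    refine (happ h2).injOn (Or.inr h3) (mem_ball_self ht') ?_ e
    have h4 : dist (h a) (h y) < s := by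
      rw [dist_eq_norm]
      have e' : h a - h y = d y - d a := by rw [sub_eq_sub_iff_add_eq_add, e, add_comm]
      rw [e']
      linarith [norm_sub_le (d y) (d a), hd1 y, hd1 a]
    have h5 := hss h4 (mem_image_of_mem h ha)
    simp only [mem_ofPred_eq, hkl a (hKO ha), hkl y hy] at h5
    rw [mem_ball, dist_comm]; exact h5
  refine ⟨homeo_of_close hOm hLa hh (hh.cont.add hdc.continuousOn) ?_ ?_ ?_ ?_, fun x hx => ?_⟩
  · intro x hx y hy e
    by_cases hxK : x ∈ K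
    · exact hinj1 x hxK y hy e
    · by_cases hyK : y ∈ K
      · exact (hinj1 y hyK x hx e.symm).symm
      · simp only [hd0 x hxK, hd0 y hyK, add_zero] at e
        exact hh.bij.injOn hx hy e
  · intro x hx
    by_cases hxK : x ∈ K
    · obtain ⟨-, A, c, h2, h3, -⟩ := hQ x hxK
      exact ((happ h2).map_nhds_eq A.toNonlinearRightInverse (ball_mem_nhds x ht') (Or.inr h3)).ge
    · rw [map_congr (hoff x hxK), hd0 x hxK, add_zero]
      intro N hN
      obtain ⟨N', hN', hNo, hxN⟩ := _root_.mem_nhds_iff.1 (inter_mem (mem_map.1 hN) (hOm.mem_nhds hx))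
      refine mem_of_superset ((isOpen_image hLa hh hNo fun y hy => (hN' hy).2).mem_nhds
        (mem_image_of_mem h hxN)) ?_
      rintro _ ⟨y, hy, rfl⟩
      exact (hN' hy).1
  · intro x _
    rw [add_sub_cancel_left]; exact (hd1 x).trans e4
  · intro x _ y hy
    rw [add_sub_cancel_left]
    by_cases hxK : x ∈ K
    · exact (hd1 x).trans (e3.trans ((hb _ (mem_image_of_mem h hxK)).trans (βL _ y hy)))
    · rw [hd0 x hxK, norm_zero]; positivity
  · by_cases hxK : x ∈ K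
    · obtain ⟨-, A, c, h2, -, h4 | h4⟩ := hQ x hxK
      · exact Or.inl (moll_of_approx ht' (happ h2) h4)
      · exact Or.inr (moll_lin hρ ht' (happ h2) h4)
    · exact (sm_of_smOn hρ hU hs hx).congr (hoff x hxK)

/-- **smooth ⟹ piecewise affine near a compact set** -/
theorem plize [Nontrivial E] (hρ : (ρ : E →L[ℝ] E).det < 0) {h : E → E} {Om La U C : Set E} (hOm : IsOpen Om)
    (hLa : IsOpen La) (hh : HomeoOn h Om La) (hU : IsOpen U) (hUO : U ⊆ Om) (hs : SmOn h U)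
    (hC : IsCompact C) (hCU : C ⊆ U) :
    ∃ (h₁ : E → E) (K V : Set E), HomeoOn h₁ Om La ∧ IsCompact K ∧ K ⊆ U ∧ (∀ x ∉ K, h₁ x = h x) ∧
      (∀ x ∈ U, SM ρ h₁ x) ∧ IsOpen V ∧ C ⊆ V ∧ LocPL h₁ V := by
  obtain ⟨χ, K, χs, hK, hKU, χ0, χ1, χ01⟩ := exists_bump hC hU hCU
  obtain ⟨ψ, K', ψs, hK', hK'U, ψ0, ψ1, -⟩ := exists_bump hK hU hKU
  obtain ⟨ε, hε, H⟩ := pert hρ hOm hLa hh hU hUO hs hK hKU
  have χsupp : HasCompactSupport χ := HasCompactSupport.intro hK χ0
  obtain ⟨L, hL⟩ := χs.lipschitzWith_of_hasCompactSupport χsupp (by simp)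
  set φ : E → E := fun x => ψ x • h x with hφ
  have φs : ContDiff ℝ 2 φ := by
    rw [contDiff_iff_contDiffAt]
    intro x
    by_cases hx : x ∈ U
    · exact ((ψs.contDiffAt.smul (hs.1.contDiffAt (hU.mem_nhds hx))).of_le (by norm_cast))
    · refine (contDiffAt_const (c := (0 : E))).congr_of_eventuallyEq ?_
      filter_upwards [hK'.isClosed.isOpen_compl.mem_nhds fun h' => hx (hK'U h')] with y hy
      simp only [hφ, ψ0 y hy, zero_smul]
  have φsupp : HasCompactSupport φ :=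
    HasCompactSupport.intro hK' fun x hx => by simp only [hφ, ψ0 x hx, zero_smul]
  have hL0 : (0 : ℝ) ≤ L := L.2
  have hε' : 0 < ε / (1 + L) := by positivity
  obtain ⟨g, gs, g0, g1⟩ := exists_sel φs φsupp hK hε'
  have hεε : ε / (1 + L) * (1 + L) = ε := by field_simp
  have hχL : ∀ x y, |χ x - χ y| ≤ L * ‖x - y‖ := fun x y => by
    have := hL.dist_le_mul x y
    rwa [Real.dist_eq, dist_eq_norm] at this
  have hχ1 : ∀ x, |χ x| ≤ 1 := fun x => by rw [abs_of_nonneg (χ01 x).1]; exact (χ01 x).2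
  have hone : ∀ x y, y ∉ K → ‖χ x • (g x - φ x) - χ y • (g y - φ y)‖ ≤ ε * ‖x - y‖ := by
    intro x y hy
    by_cases hx : x ∈ K
    · have h1 := hχL x y
      rw [χ0 y hy, sub_zero] at h1
      rw [χ0 y hy, zero_smul, sub_zero, norm_smul, Real.norm_eq_abs]
      calc |χ x| * ‖g x - φ x‖ ≤ (L * ‖x - y‖) * (ε / (1 + L)) :=
            mul_le_mul h1 (g0 x hx) (norm_nonneg _) (by positivity)
        _ ≤ ((1 + L) * ‖x - y‖) * (ε / (1 + L)) := by gcongr; linarith
        _ = ε * ‖x - y‖ := by field_simp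
    · rw [χ0 y hy, χ0 x hx, zero_smul, zero_smul, sub_zero, norm_zero]; positivity
  obtain ⟨H1, H2⟩ := H (fun x => χ x • (g x - φ x)) (fun x hx => by rw [χ0 x hx, zero_smul])
    (fun x => by
      by_cases hx : x ∈ K
      · rw [norm_smul, Real.norm_eq_abs]
        calc |χ x| * ‖g x - φ x‖ ≤ 1 * (ε / (1 + L)) :=
              mul_le_mul (hχ1 x) (g0 x hx) (norm_nonneg _) zero_le_one
          _ ≤ (1 + L) * (ε / (1 + L)) := by gcongr; linarith
          _ = ε := by field_simp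
      · rw [χ0 x hx, zero_smul, norm_zero]; exact hε.le)
    (fun x y => by
      by_cases hy : y ∈ K
      · by_cases hx : x ∈ K
        · have e : χ x • (g x - φ x) - χ y • (g y - φ y) =
              χ x • ((g x - φ x) - (g y - φ y)) + (χ x - χ y) • (g y - φ y) := by
            rw [smul_sub (χ x) (g x - φ x), sub_smul]; abel
          rw [e]
          refine (norm_add_le _ _).trans ?_
          rw [norm_smul, norm_smul, Real.norm_eq_abs, Real.norm_eq_abs]
          have a1 : |χ x| * ‖(g x - φ x) - (g y - φ y)‖ ≤ 1 * (ε / (1 + L) * ‖x - y‖) :=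
            mul_le_mul (hχ1 x) (g1 x hx y hy) (norm_nonneg _) zero_le_one
          have a2 : |χ x - χ y| * ‖g y - φ y‖ ≤ (L * ‖x - y‖) * (ε / (1 + L)) :=
            mul_le_mul (hχL x y) (g0 y hy) (norm_nonneg _) (by positivity)
          have a3 : 1 * (ε / (1 + L) * ‖x - y‖) + (L * ‖x - y‖) * (ε / (1 + L)) = ε * ‖x - y‖ := by
            field_simp
          linarith
        · rw [norm_sub_rev, norm_sub_rev x y]; exact hone y x hx
      · exact hone x y hy)
  obtain ⟨V, hVo, hCV, hV⟩ := mem_nhdsSet_iff_exists.1 χ1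
  refine ⟨fun x => h x + χ x • (g x - φ x), K, V, H1, hK, hKU,
    fun x hx => by simp only [χ0 x hx, zero_smul, add_zero], H2, hVo, hCV, fun x hx => ?_⟩
  obtain ⟨r, hr, hrV⟩ := Metric.isOpen_iff.1 hVo x hx
  have he : ∀ y ∈ ball x r, h y + χ y • (g y - φ y) = g y := by
    intro y hy
    have h1 : χ y = 1 := hV (hrV hy)
    have h2 : y ∈ K := by
      by_contra hn
      rw [χ0 y hn] at h1
      exact zero_ne_one h1
    have h3 : ψ y = 1 := ψ1.self_of_nhdsSet y h2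
    simp only [hφ, h1, h3, one_smul]
    abel
  obtain ⟨gc, S, hS⟩ := gs
  exact ⟨r, hr, S, gc.continuousOn.congr he, fun y hy => by
    obtain ⟨a, ha, e⟩ := hS y
    exact ⟨a, ha, (he y hy).trans e⟩⟩

/-- **relative mollification**, any orientation: `h` is in the convex class on `O` and smooth on
`O \ Q`, `Q` compact in the open set `W`. -/
theorem rm (hρ : (ρ : E →L[ℝ] E).det < 0) {h : E → E} {Om La O Q W : Set E} (hLa : IsOpen La)
    (hh : HomeoOn h Om La) (hO : IsOpen O) (hOO : O ⊆ Om) (hm : ∀ x ∈ O, SM ρ h x)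
    (hQ : IsCompact Q) (hW : IsOpen W) (hQW : Q ⊆ W) (hs : ContDiffOn ℝ ∞ h (O \ Q)) :
    ∃ (g : E → E) (K : Set E), HomeoOn g Om La ∧ SmOn g O ∧ IsCompact K ∧ K ⊆ W ∧
      (∀ x ∉ O, g x = h x) ∧ ∀ x ∉ K, g x = h x := by
  obtain ⟨χ, K, χs, hK, hKW, χ0, χ1, χ01⟩ := exists_bump hQ hW hQW
  have χsupp : HasCompactSupport χ := HasCompactSupport.intro hK χ0
  obtain ⟨L, hL⟩ := χs.lipschitzWith_of_hasCompactSupport χsupp (by simp)
  have hM : ∀ x, ‖fderiv ℝ χ x‖ ≤ L := fun x => norm_fderiv_le_of_lipschitz ℝ hL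
  have hχ1 : ∀ x ∈ Q, χ =ᶠ[𝓝 x] fun _ => 1 := fun x hx => χ1.filter_mono (nhds_le_nhdsSet hx)
  set O1 : Set E := O ∩ {x | MollAt h x} with hO1
  set O2 : Set E := O ∩ {x | MollAt (fun y => ρ (h y)) x} with hO2
  have o1 : IsOpen O1 := hO.inter (isOpen_iff_mem_nhds.2 fun x hx => moll_ev hx)
  have o2 : IsOpen O2 := hO.inter (isOpen_iff_mem_nhds.2 fun x hx => moll_ev hx)
  have hdisj : ∀ x ∈ O1, x ∉ O2 := fun x h1 h2 => moll_not_both hρ h1.2 h2.2
  obtain ⟨g, g1, g2, g3, g4, g5⟩ := rm_pos hLa hh o1 (inter_subset_left.trans hOO)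
    (fun x hx => hx.2) χs χ01 L.2 hM (hO.sdiff hQ.isClosed) hs fun x hx => by
      by_cases hxQ : x ∈ Q
      · exact Or.inr (hχ1 x hxQ)
      · exact Or.inl ⟨hx.1, hxQ⟩
  have e2 : ∀ x ∈ O2, g x = h x := fun x hx => g4 x fun h' => hdisj x h' hx
  obtain ⟨f, f1, f2, f3, f4, f5⟩ := rm_pos (S := O2 \ Q) (isOpen_lin ρ hLa) (homeo_lin ρ g1) o2
    (inter_subset_left.trans hOO) (fun x hx => moll_congr hx.2 (by
      filter_upwards [o2.mem_nhds hx] with y hy
      rw [e2 y hy])) χs χ01 L.2 hM (o2.sdiff hQ.isClosed)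
    ((ρ : E →L[ℝ] E).contDiff.comp_contDiffOn
      ((hs.mono fun x hx => ⟨hx.1.1, hx.2⟩).congr fun x hx => e2 x hx.1)) fun x hx => by
      by_cases hxQ : x ∈ Q
      · exact Or.inr (hχ1 x hxQ)
      · exact Or.inl ⟨hx, hxQ⟩
  have e1 : ∀ x ∈ O1, (fun x => ρ.symm (f x)) =ᶠ[𝓝 x] g := fun x hx => by
    filter_upwards [o1.mem_nhds hx] with y hy
    rw [f4 y (hdisj y hy), ρ.symm_apply_apply]
  refine ⟨fun x => ρ.symm (f x), K, homeo_lin' ρ f1, ⟨fun x hx => ?_, fun x hx => ?_⟩, hK, hKW,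
    fun x hx => ?_, fun x hx => ?_⟩
  · rcases hm x hx with h1 | h1
    · exact ((g2.contDiffAt (o1.mem_nhds ⟨hx, h1⟩)).congr_of_eventuallyEq
        (e1 x ⟨hx, h1⟩)).contDiffWithinAt
    · exact ((ρ.symm : E →L[ℝ] E).contDiff.contDiffAt.comp x
        (f2.contDiffAt (o2.mem_nhds ⟨hx, h1⟩))).contDiffWithinAt
  · rcases hm x hx with h1 | h1
    · rw [(e1 x ⟨hx, h1⟩).fderiv_eq]; exact (g3 x ⟨hx, h1⟩).ne'
    · rw [fderiv_lin, det_comp]; exact mul_ne_zero (det_symm_neg hρ).ne (f3 x ⟨hx, h1⟩).ne'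
  · show ρ.symm (f x) = h x
    rw [f4 x fun h' => hx h'.1, ρ.symm_apply_apply, g4 x fun h' => hx h'.1]
  · show ρ.symm (f x) = h x
    rw [f5 x (χ0 x hx), ρ.symm_apply_apply, g5 x (χ0 x hx)]

end Crest.Agent.X212.Sm25
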