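import Crest.Agent.X212.Nv5.Cyl
import Crest.Agent.X212.Mv17.Cl
import Crest.Agent.X212.Num57.Lt
import Crest.Agent.X212.Geo28.Bas
import Crest.Agent.X212.Rod53.Band

/-!
# Row 212, layer GEO (helper25): cutting along a neck

* `PO`, `Emb` : positive embeddings; `NK` : necks with a compactified time;
* `pL`, `pQ`, `cp3` : the two sides of a neck and their gluing;
* `exists_rad` : polar coordinates; `nz` : a cap with negative form lies in a negative cobordism.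
-/

set_option autoImplicit false
set_option linter.unusedSectionVars false

open Set Filter Topology Function Module Real
open scoped ContDiff Manifold
open Crest.Agent.R208 Crest.Agent.R208.F
open Crest.Agent.X212.Dr59 (Cs Cl Ex HZ Bd Lat ip pm)
open Crest.Agent.X212.Int54 (Ori)
open Crest.Agent.X212.Orx52 (Pos pr oR oriOn)
open Crest.Agent.X212.Rod53 (E4 pdOn ld_pd)
open Crest.Agent.X212.Cyl58 (IsOE)
open Crest.Agent.X212.M (Mf)
open Crest.Agent.X212.Nv5 (cyM)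

noncomputable section

namespace Crest.Agent.X212.Sm25

open Bor5.T Geo28

theorem pre_cover {Z : Type*} [TopologicalSpace Z] {U V : Set Z} (hU : IsOpen U) (hV : IsOpen V)
    (hc : IsPreconnected (U ∪ V)) (h : IsPreconnected (U ∩ V)) : IsPreconnected U := by
  have key : ∀ A B : Set Z, IsOpen A → IsOpen B → U ⊆ A ∪ B → (U ∩ A).Nonempty → (U ∩ B).Nonempty →
      U ∩ V ⊆ A → (U ∩ (A ∩ B)).Nonempty := fun A B hA hB s a b k => by
    obtain ⟨p, -, h1, h2⟩ := hc (U ∩ A ∪ V) (U ∩ B) ((hU.inter hA).union hV) (hU.inter hB)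
      (fun p hp => hp.elim (fun x => (s x).elim (fun y => .inl (.inl ⟨x, y⟩)) fun y => .inr ⟨x, y⟩)
        fun x => .inl (.inr x)) (a.mono fun _ x => ⟨.inl x.1, .inl x⟩) (b.mono fun _ x => ⟨.inl x.1, x⟩)
    exact ⟨p, h2.1, h1.elim And.right fun x => k ⟨h2.1, x⟩, h2.2⟩
  intro A B hA hB s a b
  by_cases k : U ∩ V ⊆ A
  · exact key A B hA hB s a b k
  by_cases k' : U ∩ V ⊆ B
  · exact inter_comm B A ▸ key B A hB hA (union_comm A B ▸ s) b a k'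
  obtain ⟨p, p1, p2⟩ := not_subset.1 k
  obtain ⟨q, q1, q2⟩ := not_subset.1 k'
  exact (h A B hA hB (inter_subset_left.trans s) ⟨q, q1, (s q1.1).resolve_right q2⟩
    ⟨p, p1, (s p1.1).resolve_left p2⟩).mono (inter_subset_inter_left _ inter_subset_left)

theorem pre_all {Z : Type*} [TopologicalSpace Z] [PreconnectedSpace Z] {U : Set Z} (h : ∀ p, p ∈ U) :
    IsPreconnected U := eq_univ_of_forall h ▸ isPreconnected_univ

theorem mx_iff {a b c : ℝ} (h : b < c) : max a b = c ↔ a = c :=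
  ⟨fun e => (max_choice a b).elim (·.symm.trans e) fun k => (h.ne (k.symm.trans e)).elim,
    fun e => e ▸ max_eq_left (e ▸ h.le)⟩

theorem mn_iff {a b c : ℝ} (h : c < b) : min a b = c ↔ a = c :=
  ⟨fun e => (min_choice a b).elim (·.symm.trans e) fun k => (h.ne' (k.symm.trans e)).elim,
    fun e => e ▸ min_eq_left (e ▸ h.le)⟩

theorem tan_lt_iff {a t : ℝ} (h : a ∈ Ioo (-(π / 2)) (π / 2)) : tan a < t ↔ a < arctan t := by
  rw [← arctan_strictMono.lt_iff_lt, arctan_tan h.1 h.2]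

theorem lt_tan_iff {a t : ℝ} (h : a ∈ Ioo (-(π / 2)) (π / 2)) : t < tan a ↔ arctan t < a := by
  rw [← arctan_strictMono.lt_iff_lt, arctan_tan h.1 h.2]

theorem at_pos {t : ℝ} (h : 0 < t) : 0 < arctan t := arctan_zero ▸ arctan_strictMono h

variable {X X' X'' : M4} {A B S : O3} {J J' : Set ℝ}

/-- positive embeddings of `U` -/
structure PO (X X' : M4) (f : X.M → X'.M) (U : Set X.M) : Prop where
  ld : ∀ p ∈ U, IsLocalDiffeomorphAt X.I X'.I ∞ f p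
  inj : InjOn f U
  pos : Pos X.I X'.I f U X.o X'.o

namespace PO
variable {f : X.M → X'.M} {g : X'.M → X''.M} {U V : Set X.M} {W : Set X'.M}

theorem mono (h : PO X X' f U) (k : V ⊆ U) : PO X X' f V :=
  ⟨fun p hp => h.ld p (k hp), h.inj.mono k, h.pos.mono k⟩

theorem comp (h' : PO X' X'' g W) (h : PO X X' f U) (m : MapsTo f U W) : PO X X'' (g ∘ f) U :=
  ⟨fun p hp => (h.ld p hp).comp _ _ (h'.ld _ (m hp)), h'.inj.comp h.inj m, h'.pos.comp h.pos h'.ld h.ld m⟩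

protected theorem id (U : Set X.M) : PO X X id U :=
  ⟨fun p _ => Cyl58.ld_id p, injOn_id U, Orx52.pos_id.2 (oriOn X.ori U).same⟩

theorem cont (h : PO X X' f U) : ContinuousOn f U :=
  fun p hp => (h.ld p hp).contMDiffAt.continuousAt.continuousWithinAt

end PO

/-- positive open embeddings -/
structure Emb (X' X : M4) where
  φ : PartialDiffeomorph X'.I X.I X'.M X.M ∞
  src : φ.source = univ
  pos : Pos X'.I X.I φ univ X'.o X.o

namespace Emb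
variable (E : Emb X' X)

theorem mem (q : X'.M) : q ∈ E.φ.source := E.src.ge trivial

theorem oe : IsOE X'.I X.I E.φ := IsOE.of_pd E.φ IsOE.id E.mem

theorem po : PO X' X E.φ univ := ⟨fun p _ => E.oe.loc p, E.oe.inj.injOn, E.pos⟩

theorem tgt : E.φ.target = range E.φ := by
  rw [← image_univ, ← E.src, E.φ.image_source_eq_target]

theorem li (q : X'.M) : E.φ.symm (E.φ q) = q := E.φ.left_inv (E.mem q)

theorem ri {p : X.M} (h : p ∈ range E.φ) : E.φ (E.φ.symm p) = p := E.φ.right_inv (E.tgt.ge h)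

theorem inv : PO X X' E.φ.symm (range E.φ) :=
  ⟨fun _ h => ld_pd E.φ.symm (E.tgt.ge h), E.tgt ▸ E.φ.symm.injOn,
    image_univ (f := E.φ) ▸ Orx52.Pos.symm E.pos E.src.ge⟩

theorem cpt {K : Set X.M} (hK : IsCompact K) (h : K ⊆ range E.φ) : IsCompact (E.φ ⁻¹' K) :=
  E.oe.isOpenEmbedding.isInducing.isCompact_preimage' hK h

/-- the inverse of a diffeomorphism -/
def dif (φ : X.Dif X') : Emb X' X := ⟨φ.φ.symm.toPartialDiffeomorph, rfl, φ.symm.pos⟩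

theorem dif_range (φ : X.Dif X') (p : X.M) : p ∈ range (dif φ).φ := φ.φ.symm.surjective p

end Emb

/-- an open part -/
def subM (X : M4) (V : TopologicalSpace.Opens X.M) (hc : ConnectedSpace V) : M4 where
  X := Mf.of 4 X.I V X.X.dim
  con := hc
  o := pm X.I X.I (Subtype.val : V → X.M) X.o
  ori := (Orx52.ori_pm X.ori (Cyl58.isOE_val (IA := X.I) V).loc :)

theorem exists_sub (X : M4) {U : Set X.M} (hU : IsOpen U) (hc : IsConnected U) :
    ∃ (X' : M4) (E : Emb X' X), range E.φ = U ∧ X'.o = pm X'.I X.I E.φ X.o :=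
  let V : TopologicalSpace.Opens X.M := ⟨U, hU⟩
  haveI c : ConnectedSpace V := Subtype.connectedSpace hc
  have h := Cyl58.isOE_val (IA := X.I) V
  ⟨subM X V c, ⟨h.pd, rfl, Orx52.pos_pm (oriOn X.ori univ) (fun y _ => h.loc y) (mapsTo_univ _ _)⟩,
    Subtype.range_coe, rfl⟩

/-- a chart from a map and a time function -/
def mkNc (hJ : IsOpen J) (hn : J.Nonempty) {j : A.Y.M × ℝ → X.M} (h : PO (cyM A) X j (univ ×ˢ J))
    {τ : X.M → ℝ} (hc : Continuous τ) (h1 : ∀ y, ∀ t ∈ J, τ (j (y, t)) = t)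
    (h2 : ∀ p, τ p ∈ J → ∃ y, j (y, τ p) = p) : Nc A X J where
  k := pdOn (isOpen_univ.prod hJ) (univ_nonempty.prod hn) h.ld h.inj
  tm := τ
  cont := hc
  src := rfl
  tgt := Set.ext fun p => ⟨by rintro ⟨z, hz, rfl⟩; exact (h1 z.1 z.2 hz.2).symm.subst (motive := (· ∈ J)) hz.2,
    fun hp => let ⟨y, e⟩ := h2 p hp; ⟨(y, τ p), ⟨trivial, hp⟩, e⟩⟩
  tmk z hz := h1 z.1 z.2 hz.2
  pos := h.pos

theorem nc_po (k : Nc A X J) : PO (cyM A) X k.k (univ ×ˢ J) :=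
  ⟨fun _ h => ld_pd k.k (k.src.ge h), k.src ▸ k.k.injOn, k.pos.mono k.src.ge⟩

theorem nc_t (k : Nc A X J) (y : A.Y.M) {t : ℝ} (h : t ∈ J) : k.tm (k.k (y, t)) = t :=
  k.tmk (y, t) (k.src.ge ⟨trivial, h⟩)

/-- the pull-back of a chart -/
def ncP (k : Nc A X J) (E : Emb X' X) (h : ∀ p, k.tm p ∈ J → p ∈ range E.φ) : Nc A X' J :=
  have m : MapsTo k.k (univ ×ˢ J) (range E.φ) := fun z hz => h _ ((nc_t k z.1 hz.2).symm ▸ hz.2)
  have s : (k.k.trans E.φ.symm).source = univ ×ˢ J :=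
    (inter_eq_left (t := k.k ⁻¹' E.φ.target).2 fun z hz => E.tgt.ge (m (k.src.le hz))).trans k.src
  { k := k.k.trans E.φ.symm
    tm := k.tm ∘ E.φ
    cont := k.cont.comp E.oe.continuous
    src := s
    tgt := Set.ext fun q => ⟨fun x => k.tgt.le x.2, fun x => ⟨E.mem q, k.tgt.ge x⟩⟩
    tmk := fun z hz => (congrArg k.tm (E.ri (m (s.le hz)))).trans (k.tmk z hz.1)
    pos := (E.inv.comp (nc_po k) m).pos.mono s.le }

theorem ncP_k (k : Nc A X J) (E : Emb X' X) (h) (y : A.Y.M) {t : ℝ} (ht : t ∈ J) :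
    E.φ ((ncP k E h).k (y, t)) = k.k (y, t) := E.ri (h _ ((nc_t k y ht).symm ▸ ht))

/-- the incoming end -/
abbrev eI (e : En2 (some A) (some B) X) : Nc A X (Iio 0) := e.ki

/-- the outgoing end -/
abbrev eO (e : En2 (some A) (some B) X) : Nc B X (Ioi 0) := e.ko

/-- the ends are carried along a diffeomorphism -/
def enP (e : En2 (some A) (some B) X) (φ : X.Dif X') : En2 (some A) (some B) X' :=
  ⟨ncP (eI e) (.dif φ) fun p _ => Emb.dif_range φ p, ncP (eO e) (.dif φ) fun p _ => Emb.dif_range φ p,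
    fun _ => e.io _, fun T => (Emb.dif φ).cpt (e.cpt T) fun p _ => Emb.dif_range φ p⟩

/-- a neck over `J`, with a time function that is bounded on the neck -/
structure NK (S : O3) (X : M4) (J : Set ℝ) where
  j : S.Y.M × ℝ → X.M
  u : X.M → ℝ
  po : PO (cyM S) X j (univ ×ˢ J)
  ct : Continuous u
  uj : ∀ y, ∀ t ∈ J, u (j (y, t)) = arctan t
  sj : ∀ p, ∀ t ∈ J, u p = arctan t → ∃ y, j (y, t) = p

namespace NK
variable (N : NK S X J)

/-- restriction -/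
abbrev mono (h : J' ⊆ J) : NK S X J' :=
  ⟨N.j, N.u, N.po.mono (prod_mono_right h), N.ct, fun y t k => N.uj y t (h k), fun p t k => N.sj p t (h k)⟩

/-- pull-back -/
abbrev pull (E : Emb X' X) (h : ∀ y, ∀ t ∈ J, N.j (y, t) ∈ range E.φ) : NK S X' J where
  j := E.φ.symm ∘ N.j
  u := N.u ∘ E.φ
  po := E.inv.comp N.po fun z hz => h z.1 z.2 hz.2
  ct := N.ct.comp E.oe.continuous
  uj y t ht := (congrArg N.u (E.ri (h y t ht))).trans (N.uj y t ht)
  sj q t ht e := (N.sj _ t ht e).imp fun _ k => (congrArg E.φ.symm k).trans (E.li q)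

/-- the translated chart, with the clipped time -/
def nc {w : X.M → ℝ} (cw : Continuous w) (bw : ∀ p, w p ∈ Ioo (-(π / 2)) (π / 2)) (d : ℝ) (hJ : IsOpen J')
    (hn : J'.Nonempty) (m : ∀ t ∈ J', t + d ∈ J)
    (e : ∀ p, ∀ t ∈ J', w p = arctan (t + d) ↔ N.u p = arctan (t + d)) : Nc S X J' :=
  mkNc hJ hn (j := N.j ∘ Prod.map id fun t => t + d)
    (N.po.comp (X := cyM S) ⟨fun z _ => (Nv5.oe_sh S d).loc z, (Nv5.oe_sh S d).inj.injOn,
      (Nv5.pos_sh S d).mono (subset_univ _)⟩ fun _ hz => ⟨trivial, m _ hz.2⟩) (τ := fun p => tan (w p) - d)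
    ((continuous_iff_continuousAt.2 fun p => ContinuousAt.comp (g := tan)
      (continuousAt_tan.2 (cos_pos_of_mem_Ioo (bw p)).ne') cw.continuousAt).sub continuous_const)
    (fun y t ht => by
      show tan (w (N.j (y, t + d))) - d = t
      rw [(e _ t ht).2 (N.uj y _ (m t ht)), tan_arctan, add_sub_cancel_right])
    fun p hp => N.sj p _ (m _ hp) ((e p _ hp).1 (by rw [sub_add_cancel, arctan_tan (bw p).1 (bw p).2]))

theorem img {a b : ℝ} (ha : -(π / 2) ≤ a) (hb : b ≤ π / 2) (h : ∀ t, t ∈ J' ↔ arctan t ∈ Ioo a b) (k : J' ⊆ J) :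
    N.u ⁻¹' Ioo a b = N.j '' (univ ×ˢ J') := by
  refine Set.ext fun p => ⟨fun x => ?_, ?_⟩
  · have e := arctan_tan (ha.trans_lt x.1) (x.2.trans_le hb)
    have m := (h _).2 (e.symm.subst (motive := (· ∈ Ioo a b)) x)
    obtain ⟨y, hy⟩ := N.sj p _ (k m) e.symm
    exact ⟨(y, _), ⟨trivial, m⟩, hy⟩
  · rintro ⟨z, hz, rfl⟩
    exact (N.uj z.1 z.2 (k hz.2)).symm.subst (motive := (· ∈ Ioo a b)) ((h _).1 hz.2)

theorem con {a b : ℝ} (ha : -(π / 2) ≤ a) (hb : b ≤ π / 2) (h : ∀ t, t ∈ J' ↔ arctan t ∈ Ioo a b) (k : J' ⊆ J)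
    (c : IsConnected J') : IsConnected (N.u ⁻¹' Ioo a b) :=
  N.img ha hb h k ▸ (isConnected_univ.prod c).image _ (N.po.mono (prod_mono_right k)).cont

theorem exL (N : NK S X (Ioi 0)) : ∃ (X' : M4) (E : Emb X' X), range E.φ = N.u ⁻¹' Iio (π / 2) :=
  have c := N.con (a := 0) (by linarith [pi_pos]) le_rfl (fun t => ⟨fun h => ⟨at_pos h, arctan_lt_pi_div_two t⟩,
    fun h => arctan_strictMono.lt_iff_lt.1 (arctan_zero.trans_lt h.1)⟩) subset_rfl isConnected_Ioi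
  let ⟨X', E, h, _⟩ := exists_sub X (isOpen_Iio.preimage N.ct) ⟨c.1.mono fun _ => And.right,
    pre_cover (isOpen_Iio.preimage N.ct) ((isOpen_Ioi (a := 0)).preimage N.ct)
      (pre_all fun p => (lt_or_ge 0 (N.u p)).symm.imp_left fun h => h.trans_lt pi_div_two_pos)
      (by rw [inter_comm]; exact c.2)⟩
  ⟨X', E, h⟩

theorem conQ (N : NK S X (Iio 4)) : IsConnected (N.u ⁻¹' Ioi (-(π / 2))) :=
  have c := N.con (b := arctan 4) le_rfl (arctan_lt_pi_div_two 4).le (fun t => ⟨fun h =>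
    ⟨neg_pi_div_two_lt_arctan t, arctan_strictMono h⟩, fun h => arctan_strictMono.lt_iff_lt.1 h.2⟩)
    subset_rfl isConnected_Iio
  ⟨c.1.mono fun _ => And.left, pre_cover (isOpen_Ioi.preimage N.ct) ((isOpen_Iio (a := arctan 4)).preimage N.ct)
    (pre_all fun p => (lt_or_ge (N.u p) (arctan 4)).symm.imp_left fun h =>
      (neg_pi_div_two_lt_arctan 4).trans_le h) c.2⟩

end NK

/-! ### the two sides -/

section cut
variable {X₁ X₂ L Q : M4}

theorem bL {a : ℝ} (h : a < π / 2) : max a 0 ∈ Ioo (-(π / 2)) (π / 2) :=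
  ⟨lt_max_of_lt_right (neg_lt_zero.2 pi_div_two_pos), max_lt h pi_div_two_pos⟩

theorem bQ {a : ℝ} (h : -(π / 2) < a) (t : ℝ) : min a (arctan t) ∈ Ioo (-(π / 2)) (π / 2) :=
  ⟨lt_min h (neg_pi_div_two_lt_arctan t), min_lt_of_right_lt (arctan_lt_pi_div_two t)⟩

/-- the third end -/
def nL (N : NK S X (Ioi 0)) (E : Emb L X) (hE : range E.φ = N.u ⁻¹' Iio (π / 2)) : Nc S L (Ioi 0) :=
  (N.pull E fun y t ht => hE.ge ((N.uj y t ht).trans_lt (arctan_lt_pi_div_two t))).nc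
    (w := fun q => max (N.u (E.φ q)) 0) ((N.ct.comp E.oe.continuous).max continuous_const)
    (fun q => bL (hE.le ⟨q, rfl⟩)) 0 isOpen_Ioi nonempty_Ioi (fun t h => by rwa [add_zero])
    fun _ _ h => mx_iff (at_pos (by rwa [add_zero]))

theorem nL_k (N : NK S X (Ioi 0)) (E : Emb L X) (hE) (y : S.Y.M) {t : ℝ} (h : 0 < t) :
    E.φ ((nL N E hE).k (y, t)) = N.j (y, t) := by
  show E.φ (E.φ.symm (N.j (y, t + 0))) = _
  rw [add_zero, E.ri (hE.ge ((N.uj y t h).trans_lt (arctan_lt_pi_div_two t)))]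

theorem nL_le (N : NK S X (Ioi 0)) (E : Emb L X) (hE) (q : L.M) (t : ℝ) :
    (nL N E hE).tm q ≤ t ↔ max (N.u (E.φ q)) 0 ≤ arctan t := by
  show tan _ - 0 ≤ t ↔ _
  rw [sub_zero, ← not_lt, lt_tan_iff (bL (hE.le ⟨q, rfl⟩)), not_lt]

theorem nL_lt (N : NK S X (Ioi 0)) (E : Emb L X) (hE) (q : L.M) :
    (nL N E hE).tm q < 4 ↔ N.u (E.φ q) < arctan 4 := by
  show tan _ - 0 < 4 ↔ _
  rw [sub_zero, tan_lt_iff (bL (hE.le ⟨q, rfl⟩)), max_lt_iff, and_iff_left (at_pos four_pos)]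

theorem inI (N : NK S X J) {τ : X.M → ℝ} (hc : ∀ p, 0 < N.u p → 0 ≤ τ p) {R : Set X.M}
    (hE : R = N.u ⁻¹' Iio (π / 2)) (p : X.M) (hp : τ p ∈ Iio 0) : p ∈ R :=
  hE.ge ((not_lt.1 fun k => (hc p k).not_gt hp).trans_lt pi_div_two_pos)

theorem inO (N : NK S X J) {τ : X.M → ℝ} (hc : ∀ p, 0 < N.u p → τ p ≤ 0) {R : Set X.M}
    (hE : R = N.u ⁻¹' Iio (π / 2)) (p : X.M) (hp : τ p ∈ Ioi 0) : p ∈ R :=
  hE.ge ((not_lt.1 fun k => (hc p k).not_gt hp).trans_lt pi_div_two_pos)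

/-- the piece before the neck -/
def pL (N : NK S X (Ioi 0)) (e : En2 (some A) (some B) X)
    (hc : ∀ p, 0 < N.u p → 0 ≤ (eI e).tm p ∧ (eO e).tm p ≤ 0) (E : Emb L X)
    (hE : range E.φ = N.u ⁻¹' Iio (π / 2)) : Pm (some A) (some B) (some S) where
  X := L
  ki := ncP (eI e) E (inI N (fun p k => (hc p k).1) hE)
  ko := ncP (eO e) E (inO N (fun p k => (hc p k).2) hE)
  k3 := nL N E hE
  io q := e.io (E.φ q)
  i3 q h := (nL_le N E hE q 0).2 (arctan_zero.symm ▸ max_le (not_lt.1 fun k => (hc _ k).1.not_gt h) le_rfl)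
  o3 q h := (nL_le N E hE q 0).2 (arctan_zero.symm ▸ max_le (not_lt.1 fun k => (hc _ k).2.not_gt h) le_rfl)
  cpt T := by
    refine (congrArg _ (Set.ext fun q => ?_)).mp (E.cpt ((e.cpt T).inter_right (isClosed_le (N.ct.max continuous_const)
      (continuous_const (y := arctan T)))) fun p (h : _ ∧ max (N.u p) 0 ≤ _) =>
        hE.ge (((le_max_left _ _).trans h.2).trans_lt (arctan_lt_pi_div_two T)))
    exact ⟨fun ⟨⟨a, b, _⟩, c⟩ => ⟨a, b, (nL_le N E hE q T).2 c⟩, fun ⟨a, b, c⟩ =>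
      have k := (nL_le N E hE q T).1 c
      ⟨⟨a, b, arctan_strictMono.le_iff_le.1 (arctan_zero.trans_le ((le_max_right _ _).trans k))⟩, k⟩⟩
  nb := 0
  bx := Fin.elim0
  src j := j.elim0
  core j := j.elim0

/-- an incoming end, at depth `d` -/
def nQ {d : ℝ} (N : NK S X (Iio d)) (E : Emb Q X) (h : ∀ y, ∀ t < d, N.j (y, t) ∈ range E.φ)
    (hE : ∀ q, -(π / 2) < N.u (E.φ q)) : Nc S Q (Iio 0) :=
  (N.pull E h).nc (w := fun q => min (N.u (E.φ q)) (arctan d)) ((N.ct.comp E.oe.continuous).min continuous_const)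
    (fun q => bQ (hE q) d) d isOpen_Iio nonempty_Iio (fun _ k => mem_Iio.2 (add_lt_of_neg_left d k))
    fun _ _ k => mn_iff (arctan_strictMono (add_lt_of_neg_left _ k))

theorem nQ_k {d : ℝ} (N : NK S X (Iio d)) (E : Emb Q X) (h hE) (y : S.Y.M) {t : ℝ} (k : t < 0) :
    E.φ ((nQ N E h hE).k (y, t)) = N.j (y, t + d) := E.ri (h y _ (add_lt_of_neg_left _ k))

theorem nQ_lt {d : ℝ} (N : NK S X (Iio d)) (E : Emb Q X) (h hE) (q : Q.M) {t : ℝ} (k : t ≤ 0) :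
    (nQ N E h hE).tm q < t ↔ N.u (E.φ q) < arctan (t + d) := by
  show tan _ - d < t ↔ _
  rw [sub_lt_iff_lt_add, tan_lt_iff (bQ (hE q) d), min_lt_iff,
    or_iff_left (arctan_strictMono.monotone (add_le_of_nonpos_left k)).not_gt]

theorem nQ_gt {d : ℝ} (N : NK S X (Iio d)) (E : Emb Q X) (h hE) (q : Q.M) {t : ℝ} (k : t < 0) :
    t < (nQ N E h hE).tm q ↔ arctan (t + d) < N.u (E.φ q) := by
  show t < tan _ - d ↔ _
  rw [lt_sub_iff_add_lt, lt_tan_iff (bQ (hE q) d), lt_min_iff,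
    and_iff_left (arctan_strictMono (add_lt_of_neg_left _ k))]

theorem nQ_cpt {d : ℝ} (N : NK S X (Iio d)) (E : Emb Q X) (h hE) {T : ℝ} (k : 0 ≤ T) (q : Q.M) :
    -T ≤ (nQ N E h hE).tm q ↔ arctan (-T + d) ≤ N.u (E.φ q) := by
  rw [← not_lt, nQ_lt N E h hE q (neg_nonpos.2 k), not_lt]

theorem inQ (N : NK S X J) {R : Set X.M} (hE : R = N.u ⁻¹' Ioi (-(π / 2))) (y : S.Y.M) (t : ℝ) (h : t ∈ J) :
    N.j (y, t) ∈ R := hE.ge ((neg_pi_div_two_lt_arctan t).trans_eq (N.uj y t h).symm)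

/-- the piece after the neck -/
def pQ (N : NK S X (Iio 4)) (hc : ∀ t, IsCompact (N.u ⁻¹' Ici (arctan t))) (E : Emb Q X)
    (hE : range E.φ = N.u ⁻¹' Ioi (-(π / 2))) : Pm (some S) none none :=
  En2.pm (a := some S) (b := none) ⟨nQ N E (inQ N hE) fun q => hE.le ⟨q, rfl⟩, (), fun _ _ => le_rfl, fun T => by
      refine (congrArg _ (Set.ext fun q => ?_)).mp (E.cpt ((hc (-T + 4)).inter_right
        (isClosed_const (p := 0 ≤ T))) fun _ k => hE.ge ((neg_pi_div_two_lt_arctan _).trans_le k.1))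
      exact ⟨fun ⟨a, b⟩ => ⟨(nQ_cpt N E _ _ b q).2 a, b, b⟩, fun ⟨a, b, _⟩ => ⟨(nQ_cpt N E _ _ b q).1 a, b⟩⟩⟩

theorem bN (a : ℝ) : max (min a (arctan 4)) 0 ∈ Ioo (-(π / 2)) (π / 2) :=
  bL (min_lt_of_right_lt (arctan_lt_pi_div_two 4))

/-- the middle of the neck -/
def nN (N : NK S X (Ioo 0 4)) : Nc S X (Ioo 0 4) :=
  N.nc (w := fun p => max (min (N.u p) (arctan 4)) 0) ((N.ct.min continuous_const).max continuous_const)
    (fun _ => bN _) 0 isOpen_Ioo (nonempty_Ioo.2 four_pos) (fun t h => by rwa [add_zero])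
    fun t _ h => (mx_iff (at_pos (h.1.trans_eq (add_zero _).symm))).trans
      (mn_iff (arctan_strictMono ((add_zero _).trans_lt h.2)))

theorem nN_lt (N : NK S X (Ioo 0 4)) : (nN N).tm ⁻¹' Iio 4 = N.u ⁻¹' Iio (arctan 4) := Set.ext fun p => by
  show tan _ - 0 < 4 ↔ _
  rw [sub_zero, tan_lt_iff (bN _), max_lt_iff, and_iff_left (at_pos four_pos), min_lt_iff, or_iff_left (lt_irrefl _)]
  rfl

theorem nN_gt (N : NK S X (Ioo 0 4)) : (nN N).tm ⁻¹' Ioi 0 = N.u ⁻¹' Ioi 0 := Set.ext fun p => by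
  show 0 < tan _ - 0 ↔ _
  rw [sub_zero, lt_tan_iff (bN _), arctan_zero, lt_max_iff, or_iff_left (lt_irrefl _), lt_min_iff,
    and_iff_left (at_pos four_pos)]
  rfl

theorem img_emb (E : Emb X' X) {Z : Type} (f : X.M → Z) {U : Set X.M} (h : U ⊆ range E.φ) :
    (f ∘ E.φ) '' (E.φ ⁻¹' U) = f '' U := by rw [image_comp, image_preimage_eq_of_subset h]

/-- **the gluing of the two sides** -/
theorem cp3 (N₁ : NK S X₁ (Ioi 0)) (e₁ : En2 (some A) (some B) X₁) (h₁) (E₁ : Emb L X₁) (k₁)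
    (N₂ : NK S X₂ (Iio 4)) (h₂) (E₂ : Emb Q X₂) (k₂) (N : NK S X (Ioo 0 4)) (e : En2 (some A) (some B) X)
    {ψ : X₁.M → X.M} (hψ : PO X₁ X ψ (N₁.u ⁻¹' Iio (arctan 4)))
    (iψ : ψ '' (N₁.u ⁻¹' Iio (arctan 4)) = N.u ⁻¹' Iio (arctan 4))
    (jψ : ∀ y, ∀ t ∈ Ioo (0 : ℝ) 4, ψ (N₁.j (y, t)) = N.j (y, t))
    (aψ : ∀ y, ∀ t < (0 : ℝ), ψ ((eI e₁).k (y, t)) = (eI e).k (y, t))
    (bψ : ∀ y, ∀ t > (0 : ℝ), ψ ((eO e₁).k (y, t)) = (eO e).k (y, t))
    {χ : X₂.M → X.M} (hχ : PO X₂ X χ (N₂.u ⁻¹' Ioi 0)) (iχ : χ '' (N₂.u ⁻¹' Ioi 0) = N.u ⁻¹' Ioi 0)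
    (jχ : ∀ y, ∀ t ∈ Ioo (0 : ℝ) 4, χ (N₂.j (y, t)) = N.j (y, t)) :
    ∃ g : Cp3 (A := S) (pL N₁ e₁ h₁ E₁ k₁) (pQ N₂ h₂ E₂ k₂) e.pm, (g.l : L.M → X.M) = ψ ∘ E₁.φ ∧
      g.l.source = E₁.φ ⁻¹' (N₁.u ⁻¹' Iio (arctan 4)) ∧ (g.r : Q.M → X.M) = χ ∘ E₂.φ ∧
      g.r.source = E₂.φ ⁻¹' (N₂.u ⁻¹' Ioi 0) := by
  obtain ⟨y₀⟩ : Nonempty S.Y.M := inferInstance
  have s₁ : N₁.u ⁻¹' Iio (arctan 4) ⊆ range E₁.φ := fun p h => k₁.ge (lt_trans h (arctan_lt_pi_div_two 4))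
  have s₂ : N₂.u ⁻¹' Ioi 0 ⊆ range E₂.φ := fun p h => k₂.ge (lt_trans (neg_lt_zero.2 pi_div_two_pos) h)
  have l := hψ.comp (E₁.po.mono (subset_univ _)) (mapsTo_preimage _ _)
  have r := hχ.comp (E₂.po.mono (subset_univ _)) (mapsTo_preimage _ _)
  have nl : (E₁.φ ⁻¹' (N₁.u ⁻¹' Iio (arctan 4))).Nonempty := Nonempty.preimage'
    ⟨N₁.j (y₀, 1), (N₁.uj y₀ 1 (mem_Ioi.2 one_pos)).trans_lt (arctan_strictMono (by norm_num))⟩ s₁
  have nr : (E₂.φ ⁻¹' (N₂.u ⁻¹' Ioi 0)).Nonempty := Nonempty.preimage'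
    ⟨N₂.j (y₀, 1), (at_pos one_pos).trans_eq (N₂.uj y₀ 1 (by norm_num : (1 : ℝ) < 4)).symm⟩ s₂
  have nk : ∀ y t, (nN N).k (y, t) = N.j (y, t) := fun y t => congrArg (fun s => N.j (y, s)) (add_zero t)
  refine ⟨⟨⟨nN N, pdOn ((isOpen_Iio.preimage N₁.ct).preimage E₁.oe.continuous) nl l.ld l.inj,
    pdOn ((isOpen_Ioi.preimage N₂.ct).preimage E₂.oe.continuous) nr r.ld r.inj,
    Set.ext fun q => (nL_lt N₁ E₁ k₁ q).symm, ((img_emb E₁ ψ s₁).trans iψ).trans (nN_lt N).symm,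
    Set.ext fun q => ?_, ((img_emb E₂ χ s₂).trans iχ).trans (nN_gt N).symm, l.pos, r.pos, fun y t h => ?_,
    fun y t h => ?_⟩, fun y t h _ => (congrArg ψ (ncP_k _ E₁ (inI N₁ (fun p k => (h₁ p k).1) k₁) y h)).trans
      (aψ y t h), fun y t h _ => (congrArg ψ (ncP_k _ E₁ (inO N₁ (fun p k => (h₁ p k).2) k₁) y h)).trans (bψ y t h),
    rfl, rfl, rfl⟩, rfl, rfl, rfl, rfl⟩
  · refine Iff.trans ?_ (nQ_gt N₂ E₂ _ (fun q => k₂.le ⟨q, rfl⟩) q (by norm_num : (-4 : ℝ) < 0)).symm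
    rw [neg_add_cancel, arctan_zero]
    rfl
  · exact ((congrArg ψ (nL_k N₁ E₁ k₁ y h.1)).trans (jψ y t h)).trans (nk y t).symm
  · refine ((congrArg χ (nQ_k N₂ E₂ (inQ N₂ k₂) (fun q => k₂.le ⟨q, rfl⟩) y (sub_neg.2 h.2))).trans ?_).trans (nk y t).symm
    rw [sub_add_cancel, jχ y t h]

end cut

end Crest.Agent.X212.Sm25
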