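import Crest.Agent.X212.Sm25.BuN
import Crest.Agent.X212.Dr59.Tex
import Crest.Agent.X212.Dr59.Rod
import Crest.Agent.X212.Bu22.Main

/-!
# Row 212, layer GEO (helper25): the cut round the exceptional curve
-/

set_option autoImplicit false
set_option linter.unusedSectionVars false
set_option linter.style.haveILetI false

open Set Filter Topology Function Module Real MeasureTheory
open scoped ContDiff Manifold
open Crest.Agent.R208
open Crest.Agent.R208.F hiding wd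
open Crest.Agent.X212.Dr59 hiding o4 IT
open Crest.Agent.X212.Orx52 (Pos pr oR oT oriOn OX oX oX_spec)
open Crest.Agent.X212.Rod53
open Crest.Agent.X212.Cyl58 (IsOE)
open Crest.Agent.X212.M (Mf)
open Crest.Agent.X212.Nv5 (cyM)

noncomputable section

namespace Crest.Agent.X212.Sm25

open Bor5.T Geo28

section rod

variable {EN HN : Type} [NormedAddCommGroup EN] [NormedSpace ℝ EN] [FiniteDimensional ℝ EN]
  [TopologicalSpace HN] {IN : ModelWithCorners ℝ EN HN} [IN.Boundaryless]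
  {N : Type} [TopologicalSpace N] [ChartedSpace HN N] [IsManifold IN ∞ N] [T2Space N]
  {T : Tb IN N} {v v' : ℝ → Z2} {a b e a' e' : Z2} {x y z C : ℝ}

variable (T v z C) in
/-- the clipped radius -/
def rad (p : X T v) : ℝ := min √((T.time v p - z) ^ 2 + T.hf v (min · C) C p ^ 2) C

theorem rad_cont : Continuous (rad T v z C) :=
  (((T.continuous_time.sub continuous_const).pow 2).add ((T.continuous_hf (by fun_prop) (tendsto_const_nhds.congr'
    ((eventually_ge_atTop C).mono fun _ h => (min_eq_right h).symm))).pow 2)).sqrt.min continuous_const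

theorem rad_mem {S : Set ℝ} (hS : S ⊆ Iio C) {p : X T v} : rad T v z C p ∈ S ↔ p ∈ T.disc v z S := by
  have k : T.hf v (min · C) C p = C → rad T v z C p ∉ S := fun h m => (hS m).not_ge (le_min
    (le_sqrt_of_sq_le (by rw [h]; exact le_add_of_nonneg_left (sq_nonneg _))) le_rfl)
  by_cases h : p ∈ T.tor v
  · rcases le_total (T.yy v p) C with l | l
    · rw [T.mem_disc, and_iff_right h, rad, hf_tor _ _ h, min_eq_left l]
      show min (T.rr v z p) C ∈ S ↔ _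
      exact ⟨fun m => (min_choice (T.rr v z p) C).elim (· ▸ m) fun e => (lt_irrefl C (hS (e ▸ m))).elim,
        fun m => (min_eq_left (mem_Iio.1 (hS m)).le).symm ▸ m⟩
    · exact iff_of_false (k ((hf_tor _ _ h).trans (min_eq_right l)))
        fun m => (hS m.2).not_ge (l.trans (T.yy_le z p))
  · exact iff_of_false (k (hf_not _ _ h)) fun m => h m.1

theorem rad_fn {p : X T v'} (h : p ∈ T.ag v' v) : rad T v z C (fn T T id v' v p) = rad T v' z C p := by
  rw [rad, rad, (TE.refl T).time_fn h, (TE.refl T).hf_fn _ _ h]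

theorem rad_ag (h : ∀ t, t ∉ Icc x y → v' t = v t) (hz : z ∈ Icc x y) {s : ℝ} (h1 : y - x < s) (h2 : s ≤ C)
    {p : X T v'} (hp : s ≤ rad T v' z C p) : p ∈ T.ag v' v := by_contra fun k => by
  have o : p ∉ Line51.off T v' := fun m => k (.inl m)
  have t : T.time v' p ∈ Icc x y := by_contra fun m => k (.inr (interior_maximal h isClosed_Icc.isOpen_compl m))
  refine hp.not_gt ((rad_mem (Iio_subset_Iio h2)).2 ⟨Line51.tor_of_not_off o, ?_⟩)
  show T.rr v' z p < s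
  rcases T.time_of_rr (c := z) (yy_axis o) with m | m <;> linarith [t.1, t.2, hz.1, hz.2]

theorem star_cut {S : Set ℝ} (hS : Convex ℝ S) (hc : x ∈ S) :
    StarConvex ℝ ((x, 0) : ℝ × ℝ) {q | q.2 ≠ 0 ∨ q.1 ∈ S} := fun q hq s t hs ht h => by
  rcases ht.eq_or_lt with rfl | k
  · exact .inr (by simpa [show s = 1 by linarith] using hc)
  · exact hq.imp (fun m => by simpa [k.ne'] using m) fun m => hS hc m hs ht h

theorem open_cut {S : Set ℝ} (hS : IsOpen S) : IsOpen {q : ℝ × ℝ | q.2 ≠ 0 ∨ q.1 ∈ S} :=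
  (isOpen_ne.preimage continuous_snd).union (hS.preimage continuous_fst)

/-- a convex region with two vertices -/
theorem hom_two [SigmaCompactSpace (X T v)] (h1 : Uni a b) (h2 : Uni b e) (V : V2 v a b e x y) {O : Set (ℝ × ℝ)}
    (hO : IsOpen O) (hc : Convex ℝ O) (hx : (x, 0) ∈ O) (hy : (y, 0) ∈ O) :
    HZ (𝓡 4) 1 (T.ov v O) ∧ Bd (𝓡 4) 2 (T.ov v O) 1 := by
  have A₁ := acy_ov (T := T) h1 (hO.inter (open_cut isOpen_Iio)) ⟨hx, .inr V.1⟩
    ((hc hx).inter (star_cut (convex_Iio y) V.1)) fun t ht => V.2.1 t (ht.2.resolve_left fun k => k rfl)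
  have A₂ := acy_ov (T := T) h2 (hO.inter (open_cut isOpen_Ioi)) ⟨hy, .inr V.1⟩
    ((hc hy).inter (star_cut (convex_Ioi x) V.1)) fun t ht => V.2.2 t (ht.2.resolve_left fun k => k rfl)
  have m : (x + y) / 2 ∈ Ioo x y := ⟨by linarith [V.1], by linarith [V.1]⟩
  have m' : ((x + y) / 2, 0) ∈ O := by
    convert hc hx hy one_half_pos.le one_half_pos.le (add_halves 1) using 1
    simp only [Prod.smul_mk, Prod.mk_add_mk, smul_eq_mul, mul_zero, add_zero]
    ring_nf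
  have c := circ_ov (T := T) h2 (hO.inter (open_cut isOpen_Ioo)) ⟨m', .inr m⟩
    ((hc m').inter (star_cut (convex_Ioo x y) m)) fun t ht =>
      have k := ht.2.resolve_left fun k => k rfl; Jv.right (V.2.1 t k.2) k.1
  have H := (Hd.refl A₁.op).two A₂ (by
    convert c using 1
    exact Set.ext fun p => ⟨fun ⟨k, l⟩ => ⟨k.1, k.2.1, k.2.2.elim .inl fun m => l.2.2.imp_right fun n => ⟨n, m⟩⟩,
      fun k => ⟨⟨k.1, k.2.1, k.2.2.imp_right And.right⟩, k.1, k.2.1, k.2.2.imp_right And.left⟩⟩)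
  rw [show T.ov v O = _ ∪ _ from Set.ext fun p => ⟨fun k => (lt_or_ge (T.time v p) y).imp
    (fun m => (⟨k.1, k.2, .inr m⟩ : p ∈ T.ov v (O ∩ {q | q.2 ≠ 0 ∨ q.1 ∈ Iio y})))
    fun m => (⟨k.1, k.2, .inr (V.1.trans_le m)⟩ : p ∈ T.ov v (O ∩ {q | q.2 ≠ 0 ∨ q.1 ∈ Ioi x})),
    fun k => k.elim (fun k => ⟨k.1, k.2.1⟩) fun k => ⟨k.1, k.2.1⟩⟩]
  exact ⟨H.hz one_lt_two.ne (A₁.hz 0), H.bd2 (bd_zero.2 (A₁.hz 1))⟩

theorem pm_wd (h1 : Uni a' b) (h2 : Uni b e') (ha : PM a' a) (he : PM e' e) (V : V2 v a b e x y) (t : ℝ) :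
    PM (v t) (wd (w2 a' b e') ((y - x)⁻¹ * (t - x))) := by
  have d := sub_pos.2 V.1
  have k : ∀ s : ℝ, ((y - x)⁻¹ * (t - x) < s ↔ t - x < (y - x) * s) ∧ ((y - x)⁻¹ * (t - x) = s ↔ t - x = (y - x) * s) :=
    fun s => ⟨inv_mul_lt_iff₀ d, inv_mul_eq_iff_eq_mul₀ d.ne'⟩
  simp only [Bu22.wd2 h1 h2, k, mul_zero, mul_one, sub_eq_zero, sub_left_inj, sub_lt_zero, sub_lt_sub_iff_right]
  have l := fun h => (mem_Jv.1 (V.2.1 t h)).self_of_nhds
  have r := fun h => (mem_Jv.1 (V.2.2 t h)).self_of_nhds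
  split_ifs with i j n
  · exact .inl (i.elim (fun i => (l (i ▸ V.1)).2.1 i) fun i => (r (i ▸ V.1)).2.1 i)
  · exact ((l (j.trans V.1)).1 j).trans ha.symm
  · exact (l n).2.2 (lt_of_le_of_ne (not_lt.1 j) fun m => i (.inl m.symm))
  · have m := lt_of_le_of_ne (not_lt.1 n) fun m => i (.inr m.symm)
    exact ((r (V.1.trans m)).2.2 m).trans he.symm

theorem adm_aff {w : ℝ → Z2} {A : ℝ → ℝ × ℝ} (h : Adm w A) {l : ℝ → ℝ} (hl : ContDiff ℝ ∞ l)
    (k : ∀ t, PM (v t) (w (l t))) : Adm v (A ∘ l) :=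
  ⟨h.sm.comp hl, fun t => (((hl.continuous.tendsto t).prodMap (hl.continuous.tendsto t)).eventually
    (h.ev (l t))).mono fun q m => by
      rcases k q.2 with n | n <;> rw [n]
      · exact m
      · simp only [dr, Prod.map_fst, Prod.map_snd, comp_apply, Prod.fst_neg, Prod.snd_neg, Int.cast_neg] at m ⊢
        linarith⟩

theorem om_aff {A : ℝ → ℝ × ℝ} (h : ContDiff ℝ ∞ A) {c : ℝ} (hc : 0 < c) :
    ∫ t, om (A ∘ fun t => c * (t - x)) (A ∘ fun t => c * (t - x)) t = ∫ t, om A A t := by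
  have k : ∀ t, om (A ∘ fun t => c * (t - x)) (A ∘ fun t => c * (t - x)) t = c * om A A (c * (t - x)) := fun t => by
    rw [om, ((h.differentiable (by simp) _).hasDerivAt.scomp t
      (((hasDerivAt_id' t).sub_const x).const_mul c)).deriv, om]
    simp only [comp_apply, Prod.smul_fst, Prod.smul_snd, smul_eq_mul]
    ring
  rw [funext k, integral_const_mul, integral_sub_right_eq_self (fun t => om A A (c * t)),
    Measure.integral_comp_mul_left, abs_of_pos (inv_pos.2 hc), smul_eq_mul, mul_inv_cancel_left₀ hc.ne']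

/-- the form of the exceptional curve -/
theorem neg_form [MeasurableSpace E4] [BorelSpace E4] [MeasurableSpace (X T v)] [BorelSpace (X T v)]
    [SecondCountableTopology (X T v)] (hv : Loc v) {o : N → Ext EN} {O : X T v → Ext E4} {σ : ℤ} (hO : OX T v o O)
    (hσ : σ = 1 ∨ σ = -1) (hτ : Pos IT IN T.τ {z | z.2 ≠ 0} ((σ : ℝ) • oT) o) (h1 : Uni a' b) (h2 : Uni b e')
    (ha : PM a' a) (he : PM e' e) (hb : a' + e' = b) (hd : dt a' b = -σ) (V : V2 v a b e x y) :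
    ∃ F, Cs (𝓡 4) 2 (T.ov v (Icc (x - (y - x)) (y + (y - x)) ×ˢ Icc 0 (2 * 1))) F ∧ ip (𝓡 4) O F F < 0 := by
  let m : ℤ → ℝ × ℝ := fun j => if j = 0 then (-a'.2, a'.1) else if j = 1 then (e'.2, -e'.1) else 0
  have d := sub_pos.2 V.1
  have st : ∀ j, dr (m (j + 1) - m j) (w2 a' b e' j) = 0 := fun j => by
    subst hb
    rcases (by omega : j < -1 ∨ j = -1 ∨ j = 0 ∨ j = 1 ∨ 1 < j) with h | rfl | rfl | rfl | h
    · simp [m, dr, show j + 1 ≠ 0 by omega, show j ≠ 0 by omega, show j ≠ 1 by omega]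
    · simp [m, dr, w2]; ring
    · simp [m, dr, w2]; ring
    · simp [m, dr, w2]; ring
    · simp [m, dr, show j + 1 ≠ 0 by omega, show j ≠ 0 by omega, show j ≠ 1 by omega]
  obtain ⟨F, hF⟩ := exists_TG (T := T) one_pos (adm_aff (adm_pth st) (l := fun t => (y - x)⁻¹ * (t - x)) (by fun_prop)
    (pm_wd h1 h2 ha he V)) (contDiff_const (c := 0)) (xa_zero T 3)
  have c := hF.cs_ov (xa_zero T 3) (by norm_num) hv (isCompact_Icc (a := x - (y - x)) (b := y + (y - x)))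
    fun t ht => (not_and_or.1 ht).elim
      (fun k => (eventually_le_nhds (not_le.1 k)).mono fun u hu => pth_lo (j := -1) (fun i hi => by
        simp [m, show i ≠ 0 by omega, show i ≠ 1 by omega]) ((inv_mul_le_iff₀ d).2 (by push_cast; linarith)))
      fun k => (eventually_ge_nhds (not_le.1 k)).mono fun u hu => pth_hi (j := 2) (fun i hi => by
        simp [m, show i ≠ 0 by omega, show i ≠ 1 by omega]) ((le_inv_mul_iff₀ d).2 (by push_cast; linarith))
  have i : ∫ t, om (pth m ∘ fun t => (y - x)⁻¹ * (t - x)) (pth m ∘ fun t => (y - x)⁻¹ * (t - x)) t = σ := by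
    rw [om_aff (contDiff_pth m) (inv_pos.2 d), integral_om (S := {-1, 0, 1}) (fun j h => by
      simp only [Finset.mem_insert, Finset.mem_singleton, not_or] at h
      simp [m, h, show j + 1 ≠ 0 by omega]) fun j _ => by simp [det2, mul_comm]]
    have : ((dt a' (a' + e') : ℤ) : ℝ) = -σ := by rw [hb, hd, Int.cast_neg]
    simp [m, det2, dt] at this ⊢
    linarith
  refine ⟨F, c, ?_⟩
  rcases hσ with rfl | rfl
  · rw [hF.tf.ip_eq hO (by simpa using hτ) isOpen_univ hF.tf (c.mono (subset_univ _)), i]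
    simpa using (by positivity : 0 < (2 * π) ^ 2)
  · rw [← neg_neg O, ip_neg_ori, hF.tf.ip_eq hO.neg (Orx52.pos_neg_left.1 (by simpa using hτ)) isOpen_univ hF.tf
      (c.mono (subset_univ _)), i]
    simpa using (by positivity : 0 < (2 * π) ^ 2)

end rod

variable {τ : Tub} {v v' : ℝ → Z2} {a b e : Z2} {x y z R : ℝ} {A B S : O3} {X X' : M4} {J : Set ℝ}

variable (τ) in
/-- the rod manifold -/
abbrev rM (hv : Loc v) (hc : ConnectedSpace (τ.X v)) : M4 :=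
  @M4.mk (@Mf.ofB 4 _ _ _ _ _ _ (𝓡 4) _ (τ.X v) _ _ _ _ (τ.T.secondCountable hv) (by simp)) hc
    (oX hv τ.ori) (oX_spec hv τ.ori).ori

/-- push-forward -/
abbrev NK.push (N : NK S X J) {ψ : X.M → X'.M} {W : Set X.M} (h : PO X X' ψ W) (hj : ∀ y, ∀ t ∈ J, N.j (y, t) ∈ W)
    {u : X'.M → ℝ} (cu : Continuous u) (h1 : ∀ p ∈ W, u (ψ p) = N.u p)
    (h2 : ∀ q t, u q = arctan t → q ∈ ψ '' W) : NK S X' J where
  j := ψ ∘ N.j
  u := u
  po := h.comp N.po fun q k => hj q.1 q.2 k.2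
  ct := cu
  uj y t k := (h1 _ (hj y t k)).trans (N.uj y t k)
  sj q t k m := by
    obtain ⟨p, hp, rfl⟩ := h2 q t m
    exact (N.sj p t k ((h1 p hp).symm.trans m)).imp fun _ => congrArg ψ

theorem po_dif (φ : X.Dif X') (U : Set X.M) : PO X X' φ.φ U :=
  ⟨fun p _ => φ.φ.isLocalDiffeomorph p, φ.φ.injective.injOn, φ.pos.mono (subset_univ _)⟩

theorem img_dif (φ : X.Dif X') (U : Set X.M) : φ.φ '' U = (Emb.dif φ).φ ⁻¹' U := φ.φ.toEquiv.image_eq_preimage_symm U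

variable (τ v z R) in
/-- the depth -/
def uR (p : τ.X v) : ℝ := R - rad τ.T v z (R + π / 2) p

theorem uR_cont : Continuous (uR τ v z R) := continuous_const.sub rad_cont

theorem uR_gt {s : ℝ} (h : -(π / 2) ≤ s) : uR τ v z R ⁻¹' Ioi s = τ.T.disc v z (Iio (R - s)) :=
  Set.ext fun _ => (lt_sub_comm (a := s) (b := R)).trans (rad_mem (S := Iio (R - s)) (Iio_subset_Iio (by linarith)))

theorem uR_ge {s : ℝ} (h : -(π / 2) < s) : uR τ v z R ⁻¹' Ici s = τ.T.disc v z (Iic (R - s)) :=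
  Set.ext fun _ => (le_sub_comm (a := s) (b := R)).trans
    (rad_mem (S := Iic (R - s)) (C := R + π / 2) (Iic_subset_Iio.2 (by linarith)))

theorem uR_eq {t : ℝ} {p : τ.X v} : uR τ v z R p = arctan t ↔ p ∈ τ.T.disc v z {R + -1 * arctan t} :=
  Iff.trans ⟨fun h => by rw [← h, uR, mem_singleton_iff]; ring, fun h => by rw [uR, h]; ring⟩
    (rad_mem (C := R + π / 2) (singleton_subset_iff.2 (mem_Iio.2 (by linarith [neg_pi_div_two_lt_arctan t]))))

theorem uR_cpt (hv : Loc v) (t : ℝ) : IsCompact (uR τ v z R ⁻¹' Ici (arctan t)) :=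
  uR_ge (neg_pi_div_two_lt_arctan t) ▸ τ.T.isCompact_disc isClosed_Iic (fun _ => id) fun x _ => hv x

theorem uR_ag (h : ∀ t, t ∉ Icc x y → v' t = v t) (hz : z ∈ Icc x y) (hR : y - x + 2 ≤ R) {p : τ.X v'} {t : ℝ}
    (hp : uR τ v' z R p ≤ arctan t) : p ∈ τ.T.ag v' v :=
  rad_ag (C := R + π / 2) h hz (s := R - arctan t) (by linarith [arctan_lt_pi_div_two t, pi_le_four])
    (by linarith [neg_pi_div_two_lt_arctan t]) (sub_le_comm.1 hp)

/-- the neck round one vertex -/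
theorem exists_nk (s : Sph S) (hi : Injective s.π) (hv : Loc v) (hc) (hu : Uni a e) (V : V1 v a e z) (hR : 2 ≤ R) :
    ∃ j, PO (cyM S) (rM τ hv hc) j (univ ×ˢ univ) ∧ (∀ y t, uR τ v z R (j (y, t)) = arctan t) ∧
      ∀ p t, uR τ v z R p = arctan t → ∃ y, j (y, t) = p := by
  have m : ∀ q, q ∈ Uv v a e z := fun q => .inr (V _)
  have f := IsOE.of_pd (τ.T.vtx v hu z) (IsOE.of_diffeo L4.toDiffeomorph) fun _ => m _
  have p : ∀ t, 0 < R + -1 * arctan t := fun t => by linarith [arctan_lt_pi_div_two t, pi_le_four]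
  obtain ⟨g, g1, g2, g3, g4⟩ := exists_rad s hi (Orx52.ori_pm (oX_spec hv τ.ori).ori f.loc)
    (isOE_sqrt ((isOE_aff R (neg_ne_zero.2 one_ne_zero)).comp isOE_arctan) p) fun t => sqrt_pos.2 (p t)
  refine ⟨_, ⟨fun q _ => (f.comp g1).loc q, (f.comp g1).inj.injOn, ((Orx52.pos_pm (oriOn (oX_spec hv τ.ori).ori univ)
    (fun q _ => f.loc q) (mapsTo_univ _ _)).comp g2 (fun q _ => f.loc q) (fun q _ => g1.loc q)
    (mapsTo_univ _ _)).mono (subset_univ _)⟩, fun y t => uR_eq.2 ⟨τ.T.vtx_mem_tor hu (m _),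
      (τ.T.rr_vtx hu (m _)).trans ((norm_L4 _).trans (by rw [g3]; exact sq_sqrt (p t).le))⟩, fun q t h => ?_⟩
  obtain ⟨h1, h2⟩ := uR_eq.1 h
  obtain ⟨w, -, rfl⟩ := τ.T.mem_vtx hu h1 (.inr (V _))
  obtain ⟨w, rfl⟩ := L4.surjective w
  have k : ‖w‖ ^ 2 = R + -1 * arctan t := ((τ.T.rr_vtx hu (m _)).trans (norm_L4 w)).symm.trans h2
  exact (g4 w t ((sqrt_sq (norm_nonneg w)).symm.trans (congrArg _ k))).imp fun _ k => congrArg (τ.T.vtx v hu z ∘ L4) k

/-- an end over a rod -/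
def ncR (hv : Loc v) (hc : ConnectedSpace (τ.X v)) (f : Fo τ A a) (d : ℝ) (hJ : IsOpen J) (hn : J.Nonempty)
    (h : ∀ t ∈ J, t + d ∈ Jr v a) : Nc A (rM τ hv hc) J :=
  mkNc hJ hn (j := f.cy v ∘ Prod.map id fun t => t + d)
    (PO.comp (X' := cyM A) (W := univ ×ˢ Jr v a) ⟨fun q k => f.F.ld_cyf f.hu q.1 k.2, f.F.injOn_cyf f.hu,
      (oX_spec hv τ.ori).cyf f.F f.hu A.ori f.pos⟩ ⟨fun q _ => (Nv5.oe_sh A d).loc q, (Nv5.oe_sh A d).inj.injOn,
      (Nv5.pos_sh A d).mono (subset_univ _)⟩ fun _ k => ⟨trivial, h _ k.2⟩) (τ := fun p => τ.T.time v p - d)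
    (τ.T.continuous_time.sub continuous_const)
    (fun y t k => (congrArg (· - d) (f.F.time_cyf f.hu y (h t k))).trans (add_sub_cancel_right t d))
    fun p k => by simpa using f.F.exists_cyf f.hu (p := p) (sub_add_cancel (τ.T.time v p) d ▸ h _ k)

/-- the two ends -/
def enR (hv : Loc v) (hc : ConnectedSpace (τ.X v)) (f : Fo τ A a) (g : Fo τ B e) (hR : 0 ≤ R)
    (h1 : ∀ t ∈ Iio (0 : ℝ), t + (z - R) ∈ Jr v a) (h2 : ∀ t ∈ Ioi (0 : ℝ), t + (z + R) ∈ Jr v e) :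
    En2 (some A) (some B) (rM τ hv hc) :=
  ⟨ncR hv hc f _ isOpen_Iio nonempty_Iio h1, ncR hv hc g _ isOpen_Ioi nonempty_Ioi h2,
    fun p (h : τ.T.time v p - (z - R) < 0) => show τ.T.time v p - (z + R) ≤ 0 by linarith, fun t =>
      (τ.T.isCompact_time (isCompact_Icc (a := -t + (z - R)) (b := t + (z + R))) fun x _ => hv x).of_isClosed_subset
        ((isClosed_le continuous_const (Nc.cont _)).inter ((isClosed_le (Nc.cont _) continuous_const).inter
          isClosed_const)) fun _ k => ⟨le_sub_iff_add_le.1 k.1, sub_le_iff_le_add.1 k.2.1⟩⟩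

theorem fn_cyf (f : Fo τ A a) (hJ : IsOpen J) (h : ∀ x ∈ J, v' x = v x) (y : A.Y.M) {t : ℝ} (ht : t ∈ J)
    (k : t ∈ Jr v' a) : fn τ.T τ.T id v' v (f.cy v' (y, t)) = f.cy v (y, t) := by
  unfold Fo.cy
  rcases f.F.surj y with ⟨q, rfl⟩ | ⟨w, rfl⟩
  · rw [f.F.cyf_ie, f.F.cyf_ie]
    exact (TE.refl τ.T).fn_ext (q := (q.1, t)) ((f.F.hW _).1 q.2)
  · rw [f.F.cyf_it, f.F.cyf_it]
    exact (TE.refl τ.T).fn_rod f.hu (.inr k) (.inr (interior_maximal h hJ ht))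

theorem uR_core (hv : Loc v) (hc) (f : Fo τ A a) (g : Fo τ B e) (hR h1 h2) (p : τ.X v) (h : 0 < uR τ v z R p) :
    0 ≤ (eI (enR (z := z) (R := R) hv hc f g hR h1 h2)).tm p ∧ (eO (enR hv hc f g hR h1 h2)).tm p ≤ 0 := by
  have k := abs_lt.1 ((τ.T.abs_time_le z p).trans_lt ((uR_gt (by linarith [pi_pos])).le h).2)
  exact ⟨show 0 ≤ τ.T.time v p - (z - R) by linarith [k.1], show τ.T.time v p - (z + R) ≤ 0 by linarith [k.2]⟩

/-- a realisation as a positive diffeomorphism -/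
abbrev rzD {A B : Q3} {c : Cob A B} {hv : Loc v} {f : Fo τ A.toO3 a} {g : Fo τ B.toO3 e} (r : Rz c hv f g) (hc) :
    (rM τ hv hc).Dif (m4 c.toW4) := ⟨r.φ, r.pos⟩

theorem onC {A B : Q3} {c : Cob A B} {hv : Loc v} {f : Fo τ A.toO3 a} {g : Fo τ B.toO3 e} (r : Rz c hv f g)
    (hc hR h1 h2) : OnC c (enP (enR (z := z) (R := R) hv hc f g hR h1 h2) (rzD r hc)) :=
  ⟨Rfl19.ag_trans Rfl19.nd_bot ⟨z - R, .of_forall fun _ _ => rfl⟩ r.ki,
    Rfl19.ag_trans Rfl19.nd_top ⟨z + R, .of_forall fun _ _ => rfl⟩ r.ko⟩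

theorem mem_O (h : |x - z| < R) : ((x, 0) : ℝ × ℝ) ∈ {q : ℝ × ℝ | √((q.1 - z) ^ 2 + q.2 ^ 2) ∈ Iio R} := by
  simpa [sqrt_sq_eq_abs] using h

theorem lat0 {U K : Set X.M} (hU : IsOpen U) (h : K ⊆ U) (k : HZ X.I 2 U) :
    Lat X.I X.o U K (Fin.elim0 : Fin 0 → X.Fm) (Matrix.diagonal Fin.elim0) := .empty X.ori hU h k

/-- **GEO-BU** -/
theorem bu : Geo28.BuStmt := by
  intro S s hi A B c c' τ a b e v v' x y z hv hv' f g r r' ⟨a', e', ha, he, hb, hd⟩ V V' hz ho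
  have h1 : Uni a' b := τ.hσ.elim (fun h => .inr (by rw [hd, h])) fun h => .inl (by rw [hd, h, neg_neg])
  have h2 : Uni b e' := by rwa [Uni, show dt b e' = dt a' b by subst hb; simp only [dt, Prod.fst_add, Prod.snd_add]; ring]
  have h3 : Uni a' e' := by rwa [Uni, show dt a' e' = dt a' b by subst hb; simp only [dt, Prod.fst_add, Prod.snd_add]; ring]
  have h4 : Uni a e := (he.symm.uni (ha.symm.uni h3).symm).symm
  have hc : ConnectedSpace (τ.X v) := r.φ.symm.surjective.connectedSpace r.φ.symm.continuous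
  have hc' : ConnectedSpace (τ.X v') := r'.φ.symm.surjective.connectedSpace r'.φ.symm.continuous
  obtain ⟨R, hR⟩ : ∃ R, R = 2 * (y - x) + 2 := ⟨_, rfl⟩
  have d := V.1
  have z1 := hz.1
  have z2 := hz.2
  have R0 : 0 ≤ R := by linarith
  obtain ⟨j, j1, j2, j3⟩ := exists_nk (R := R) s hi hv' hc' h4 V' (by linarith)
  let N' : NK S.toO3 (rM τ hv' hc') univ := ⟨j, uR τ v' z R, j1, uR_cont, fun y t _ => j2 y t, fun p t _ => j3 p t⟩
  have F : PO (rM τ hv' hc') (rM τ hv hc) (fn τ.T τ.T id v' v) (τ.T.ag v' v) :=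
    ⟨fun _ => (TE.refl _).ld_fn, (TE.refl _).injOn_fn,
      (oX_spec hv' τ.ori).fn (oX_spec hv τ.ori) (TE.refl _) (Orx52.pos_id.2 τ.ori.same)⟩
  have g1 : ∀ {p t}, uR τ v' z R p ≤ arctan t → p ∈ τ.T.ag v' v := uR_ag ho hz (by linarith)
  have g2 : ∀ {p t}, uR τ v z R p ≤ arctan t → p ∈ fn τ.T τ.T id v' v '' τ.T.ag v' v := fun h =>
    (TE.refl _).exists_fn (uR_ag (fun t k => (ho t k).symm) hz (by linarith) h) (.inr surjective_id)
  have g3 : ∀ p ∈ τ.T.ag v' v, uR τ v z R (fn τ.T τ.T id v' v p) = uR τ v' z R p := fun p h =>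
    congrArg (R - ·) (rad_fn h)
  let N := N'.push F (fun y t _ => g1 (j2 y t).le) uR_cont g3 fun _ _ h => g2 h.le
  obtain ⟨L, E, hE⟩ := (N'.mono (J' := Ioi 0) (subset_univ _)).exL
  obtain ⟨Q, G, hG, -⟩ := exists_sub _ (isOpen_Ioi.preimage N.ct) (N.mono (subset_univ _)).conQ
  obtain ⟨Q', G', hG', -⟩ := exists_sub _ (isOpen_Ioi.preimage N'.ct) (N'.mono (subset_univ _)).conQ
  have a1 : ∀ t ∈ Iio (0 : ℝ), t + (z - R) < x := fun t (h : t < 0) => by linarith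
  have a2 : ∀ t ∈ Ioi (0 : ℝ), y < t + (z + R) := fun t (h : 0 < t) => by linarith
  have b1 := fun t h => Jv.left (V.2.1 _ ((a1 t h).trans d)) (a1 t h)
  have b2 := fun t h => Jv.right (V.2.2 _ (d.trans (a2 t h))) (a2 t h)
  have c1 := fun t h => Jv.left (V' _) ((a1 t h).trans_le z1)
  have c2 := fun t h => Jv.right (V' _) (z2.trans_lt (a2 t h))
  have i : fn τ.T τ.T id v' v '' (uR τ v' z R ⁻¹' Iio (arctan 4)) = uR τ v z R ⁻¹' Iio (arctan 4) :=
    Set.ext fun q => ⟨by rintro ⟨p, h, rfl⟩; exact (g3 p (g1 (le_of_lt h))).trans_lt h,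
      fun h => let ⟨p, k, m⟩ := g2 (le_of_lt h); ⟨p, ((g3 p k).symm.trans (congrArg _ m)).trans_lt h, m⟩⟩
  obtain ⟨k, k1, k2, -⟩ := cp3 (N'.mono (subset_univ _)) (enR hv' hc' f g R0 c1 c2) (uR_core hv' hc' f g R0 c1 c2) E hE
    (N.mono (subset_univ _)) (uR_cpt hv) G hG ((N.mono (subset_univ _)).pull (.dif (rzD r hc))
      fun _ _ _ => Emb.dif_range _ _) (enP (enR hv hc f g R0 b1 b2) (rzD r hc))
    ((po_dif (rzD r hc) univ).comp (F.mono fun _ h => g1 (le_of_lt h)) (mapsTo_univ _ _))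
    ((image_comp _ _ _).trans ((congrArg _ i).trans (img_dif (rzD r hc) _))) (fun _ _ _ => rfl)
    (fun q t h => congrArg r.φ (fn_cyf f isOpen_Iio (fun t h => ho t fun k => k.1.not_gt h) q (a1 t h) (c1 t h)))
    (fun q t h => congrArg r.φ (fn_cyf g isOpen_Ioi (fun t h => ho t fun k => k.2.not_gt h) q (a2 t h) (c2 t h)))
    (po_dif (rzD r hc) _) (img_dif (rzD r hc) _) fun _ _ _ => rfl
  obtain ⟨k', k1', k2', -⟩ := cp3 (N'.mono (subset_univ _)) (enR hv' hc' f g R0 c1 c2) (uR_core hv' hc' f g R0 c1 c2) E hE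
    (N'.mono (subset_univ _)) (uR_cpt hv') G' hG' ((N'.mono (subset_univ _)).pull (.dif (rzD r' hc'))
      fun _ _ _ => Emb.dif_range _ _) (enP (enR hv' hc' f g R0 c1 c2) (rzD r' hc'))
    (po_dif (rzD r' hc') _) (img_dif (rzD r' hc') _) (fun _ _ _ => rfl) (fun _ _ _ => rfl) (fun _ _ _ => rfl)
    (po_dif (rzD r' hc') _) (img_dif (rzD r' hc') _) fun _ _ _ => rfl
  have o : IsOpen {q : ℝ × ℝ | √((q.1 - z) ^ 2 + q.2 ^ 2) ∈ Iio (R - -(π / 2))} := isOpen_Iio.preimage (by fun_prop)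
  have sub : ∀ w : ℝ → Z2, uR τ w z R ⁻¹' Ici (arctan (-9)) ⊆ uR τ w z R ⁻¹' Ioi (-(π / 2)) :=
    fun _ _ h => (neg_pi_div_two_lt_arctan _).trans_le h
  refine ⟨_, _, _, _, _, k, k', onC r _ _ _ _, onC r' _ _ _ _, ?_, ?_, fun d d' d₀ p' p => ?_⟩
  · haveI := Rfl19.sig (τ := τ) hv
    have H := hom_two (T := τ.T) (ha.symm.uni h1) (he.symm.uni h2.symm).symm V o (convex_disc _ _)
      (mem_O (abs_lt.2 ⟨by linarith [pi_pos], by linarith [pi_pos]⟩))
      (mem_O (abs_lt.2 ⟨by linarith [pi_pos], by linarith [pi_pos]⟩))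
    letI : MeasurableSpace E4 := borel _
    haveI : BorelSpace E4 := ⟨rfl⟩
    letI : MeasurableSpace (τ.X v) := borel _
    haveI : BorelSpace (τ.X v) := ⟨rfl⟩
    haveI := τ.T.secondCountable hv
    obtain ⟨w, w1, w2⟩ := neg_form hv (oX_spec hv τ.ori) τ.hσ τ.pos h1 h2 ha he hb hd V
    refine nz s hi N (uR_cpt hv) G hG ((uR_gt le_rfl).symm ▸ H.1) (n := 1) (e := fun _ => w)
      (g := fun _ => ip (𝓡 4) _ w w) ⟨(rM τ hv hc).ori, isOpen_Ioi.preimage N.ct, sub v, (uR_gt le_rfl).symm ▸ H.2,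
        fun _ => w1.mono fun p h => (uR_ge (neg_pi_div_two_lt_arctan _)).ge ⟨h.1, ?_⟩,
        fun i j => by rw [Subsingleton.elim i j, Matrix.diagonal_apply_eq], by simpa using w2.ne⟩ fun _ => w2
    have m : arctan (-9) < 0 := (arctan_strictMono (by norm_num)).trans_eq arctan_zero
    have n : |(τ.T.bs v p).1 - z| ≤ 2 * (y - x) := abs_le.2 ⟨by linarith [h.2.1.1], by linarith [h.2.1.2]⟩
    refine (sqrt_le_iff.2 ⟨by linarith, ?_⟩).trans (by linarith : R ≤ _)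
    nlinarith [sq_abs ((τ.T.bs v p).1 - z), abs_nonneg ((τ.T.bs v p).1 - z), h.2.2.1, h.2.2.2]
  · haveI := Rfl19.sig (τ := τ) hv'
    have m : ((z, 0) : ℝ × ℝ) ∈ _ := mem_O (z := z) (R := R - -(π / 2)) (by rw [sub_self, abs_zero]; linarith [pi_pos])
    have H := acy_ov (T := τ.T) h4 o m (convex_disc _ _ m) fun t _ => V' t
    exact nz s hi N' (uR_cpt hv') G' hG' ((uR_gt le_rfl).symm ▸ H.hz 0) (n := 0) (e := Fin.elim0) (g := Fin.elim0)
      (lat0 (isOpen_Ioi.preimage N'.ct) (sub v') ((uR_gt le_rfl).symm ▸ H.hz 1)) fun i => i.elim0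
  · obtain ⟨l, q⟩ : ∃ l, Pb E.φ univ d₀ l := ⟨_, Rfl19.pb_pull fun q _ => E.oe.loc q⟩
    refine ⟨l, ?_, ?_⟩
    · show Pb k.l k.l.source d _
      rw [k1, k2]
      exact Rfl19.pb_comp p (Rfl19.pb_mono q (subset_univ _)) fun _ h => g1 (le_of_lt h)
    · show Pb k'.l k'.l.source d' _
      rw [k1', k2']
      exact Rfl19.pb_comp p' (Rfl19.pb_mono q (subset_univ _)) (mapsTo_univ _ _)

end Crest.Agent.X212.Sm25
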