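import Crest.Agent.X212.Sm25.BuA

/-!
# Row 212, layer GEO (helper25): polar coordinates, punctures, negative caps
-/

set_option autoImplicit false
set_option linter.unusedSectionVars false

open Set Filter Topology Function Module Real Metric
open scoped ContDiff Manifold
open Crest.Agent.R208 Crest.Agent.R208.F
open Crest.Agent.X212.Dr59 (Cs Cl Ex HZ Bd Lat ip pm bd_zero)
open Crest.Agent.X212.Int54 (Ori SameOn)
open Crest.Agent.X212.Orx52 (Pos pr oR oriOn ori_pr ori_oR same_neg same_symm)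
open Crest.Agent.X212.Rod53 (E4)
open Crest.Agent.X212.Cyl58 (IsOE)
open Crest.Agent.X212.Nv5 (cyM rf4)

noncomputable section

namespace Crest.Agent.X212.Sm25

open Bor5.T Geo28

variable {X X' Q : M4} {S : O3}

theorem pos_rf4 {o : E4 → Ext E4} (ho : Ori (𝓡 4) o) : Pos (𝓡 4) (𝓡 4) rf4 univ (-o) o := by
  have r : Pos (𝓡 4) (𝓡 4) rf4 univ (-o4) o4 := Orx52.pos_of_eq (oriOn Nv5.ori_o4 univ).neg (c := fun _ => 1)
    (fun _ _ => one_pos) fun y _ => by rw [Nv5.pm_rf4, one_smul]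
  have k : ∀ a, Pos (𝓡 4) (𝓡 4) rf4 univ (-a) a → SameOn a o univ → Pos (𝓡 4) (𝓡 4) rf4 univ (-o) o :=
    fun a h e => (h.left (same_neg e)).right (fun y _ => rf4.toDiffeomorph.isLocalDiffeomorph y)
      (mapsTo_univ _ _) (same_symm e)
  exact (Orx52.same_or (oriOn Nv5.ori_o4 univ) (oriOn ho univ) isPreconnected_univ).elim (k _ r) (k _ r.neg)

/-- **polar coordinates** -/
theorem exists_rad (s : Sph S) (hi : Injective s.π) {o : E4 → Ext E4} (ho : Ori (𝓡 4) o) {ρ : ℝ → ℝ}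
    (hρ : IsOE 𝓘(ℝ, ℝ) 𝓘(ℝ, ℝ) ρ) (h0 : ∀ t, 0 < ρ t) : ∃ g : S.Y.M × ℝ → E4, IsOE (IY S) (𝓡 4) g ∧
      Pos (IY S) (𝓡 4) g univ (pr S.o oR) o ∧ (∀ z, ‖g z‖ = ρ z.2) ∧ ∀ x t, ‖x‖ = ρ t → ∃ y, g (y, t) = x := by
  let φ := (IsOE.mk hi s.ld).diffeo s.surj
  have g := (Rod53.isOE_shell (E := E4) (n := 3) hρ h0).comp
    ((IsOE.of_diffeo φ.symm).prodMap (IsOE.id (IA := 𝓘(ℝ, ℝ)) (A := ℝ)))
  have n : ∀ z : S.Y.M × ℝ, ‖ρ z.2 • (φ.symm z.1 : E4)‖ = ρ z.2 := fun z => by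
    rw [norm_smul, norm_eq_of_mem_sphere, mul_one, Real.norm_of_nonneg (h0 _).le]
  have u : ∀ (x : E4) t, ‖x‖ = ρ t → ∃ y, ρ t • (φ.symm y : E4) = x := fun x t h =>
    let ⟨w, e⟩ := Rod53.exists_shell (h0 t) h; ⟨φ w, by rw [φ.symm_apply_apply, e]⟩
  have r := IsOE.of_diffeo rf4.toDiffeomorph
  have m : ∀ x, ‖rf4 x‖ = ‖x‖ := fun x => LinearIsometryEquiv.norm_map _ x
  rcases Orx52.pos_or isPreconnected_univ (oriOn (ori_pr S.ori ori_oR) univ) (oriOn ho univ)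
    (fun y _ => g.loc y) (mapsTo_univ _ _) with h | h
  · exact ⟨_, g, h, n, u⟩
  · refine ⟨_, r.comp g, (pos_rf4 ho).comp h (fun y _ => r.loc y) (fun y _ => g.loc y) (mapsTo_univ _ _),
      fun z => (m _).trans (n z), fun x t e => ?_⟩
    obtain ⟨x, rfl⟩ := rf4.surjective x
    exact (u x t ((m x).symm.trans e)).imp fun _ => congrArg rf4

theorem cont_ext {Z : Type*} [TopologicalSpace Z] [T2Space Z] {f : E4 → Z} (hf : IsOpenEmbedding f) :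
    Continuous (extend f (fun x => min ‖x‖ 1) 1) := by
  refine continuous_iff_continuousAt.2 fun p => ?_
  by_cases h : p ∈ f '' closedBall 0 1
  · obtain ⟨x, -, rfl⟩ := h
    rw [← hf.continuousAt_iff, extend_comp hf.injective]
    fun_prop
  refine (continuousAt_const (y := (1 : ℝ))).congr (eventually_of_mem
    (((isCompact_closedBall 0 1).image hf.continuous).isClosed.isOpen_compl.mem_nhds h) fun q hq => ?_)
  by_cases k : ∃ x, f x = q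
  · obtain ⟨x, rfl⟩ := k
    rw [hf.injective.extend_apply, min_eq_right (not_lt.1 fun e => hq ⟨x, mem_closedBall_zero_iff.2 e.le, rfl⟩)]
  · rw [extend_apply' _ _ _ k]; rfl

/-- **the end of a puncture** -/
theorem exists_pun (s : Sph S) (hi : Injective s.π) {f : E4 → X.M} (hf : IsOE (𝓡 4) X.I f)
    (pf : Pos (𝓡 4) X.I f univ o4 X.o) (E : Emb X' X) (h0 : ∀ q, E.φ q ≠ f 0) (h1 : ∀ x ≠ 0, f x ∈ range E.φ) :
    ∃ k : Nc S X' (Ioi 0), (∀ q, E.φ q ∉ range f → k.tm q = 0) ∧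
      ∀ T, ∃ C, IsClosed C ∧ f 0 ∉ C ∧ ∀ q, k.tm q ≤ T ↔ E.φ q ∈ C := by
  obtain ⟨g, g1, g2, g3, g4⟩ := exists_rad s hi Nv5.ori_o4 (ρ := fun t => exp (0 + -1 * t))
    (Cyl58.isOE_exp.comp (Rod53.isOE_aff 0 (by norm_num))) fun _ => exp_pos _
  simp only [zero_add, neg_mul, one_mul] at g3 g4
  set w := extend f (fun x => min ‖x‖ 1) (1 : X.M → ℝ)
  have cw : Continuous w := cont_ext hf.isOpenEmbedding
  have wf : ∀ x, w (f x) = min ‖x‖ 1 := fun x => hf.inj.extend_apply _ _ _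
  have w1 : ∀ p, p ∉ range f → w p = 1 := fun p h => extend_apply' _ _ _ h
  have wp : ∀ q, 0 < w (E.φ q) := fun q => by
    by_cases h : E.φ q ∈ range f
    · obtain ⟨x, e⟩ := h
      rw [← e, wf]
      exact lt_min (norm_pos_iff.2 fun k => h0 q (k ▸ e.symm)) one_pos
    · rw [w1 _ h]; exact one_pos
  have m : ∀ z, f (g z) ∈ range E.φ := fun z => h1 _ (norm_pos_iff.1 ((exp_pos _).trans_eq (g3 z).symm))
  refine ⟨mkNc isOpen_Ioi nonempty_Ioi (j := E.φ.symm ∘ f ∘ g) (E.inv.comp (X := cyM S)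
    ⟨fun z _ => (hf.comp g1).loc z, (hf.comp g1).inj.injOn, (pf.comp g2 (fun y _ => hf.loc y) (fun y _ => g1.loc y)
      (mapsTo_univ _ _)).mono (subset_univ _)⟩ fun z _ => m z) (τ := fun q => -log (w (E.φ q)))
    ((cw.comp E.oe.continuous).log fun q => (wp q).ne').neg (fun y t ht => ?_) fun q hq => ?_,
    fun q h => ?_, fun T => ⟨w ⁻¹' Ici (exp (-T)), isClosed_Ici.preimage cw, fun h => ?_, fun q => ?_⟩⟩
  · show -log (w (E.φ (E.φ.symm (f (g (y, t)))))) = t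
    rw [E.ri (m _), wf, g3, min_eq_left (exp_le_one_iff.2 (neg_nonpos.2 (le_of_lt ht))), log_exp, neg_neg]
  · replace hq : 0 < -log (w (E.φ q)) := hq
    obtain ⟨x, e⟩ : E.φ q ∈ range f := by_contra fun h => by simp [w1 _ h] at hq
    have l : w (E.φ q) < 1 := (log_neg_iff (wp q)).1 (neg_pos.1 hq)
    obtain ⟨y, hy⟩ := g4 x (-log (w (E.φ q))) (by
      rw [neg_neg, exp_log (wp q), ← e, wf, min_eq_left (not_lt.1 fun k => ?_)]
      rw [← e, wf, min_eq_right k.le] at l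
      exact l.false)
    exact ⟨y, (congrArg E.φ.symm ((congrArg f hy).trans e)).trans (E.li q)⟩
  · show -log (w (E.φ q)) = 0
    rw [w1 _ h, log_one, neg_zero]
  · exact (exp_pos (-T)).not_ge (h.trans_eq ((wf 0).trans (by simp)))
  · show -log (w (E.φ q)) ≤ T ↔ exp (-T) ≤ _
    rw [neg_le, le_log_iff_exp_le (wp q)]

/-- **a cap with negative form lies in a negative cobordism** -/
theorem nz {S : Q3} (s : Sph S.toO3) (hi : Injective s.π) (N : NK S.toO3 X univ)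
    (hc : ∀ t, IsCompact (N.u ⁻¹' Ici (arctan t))) (E : Emb Q X) (hE : range E.φ = N.u ⁻¹' Ioi (-(π / 2)))
    (h1 : HZ X.I 1 (N.u ⁻¹' Ioi (-(π / 2)))) {n : ℕ} {e : Fin n → X.Fm} {g : Fin n → ℝ}
    (hl : Lat X.I X.o (N.u ⁻¹' Ioi (-(π / 2))) (N.u ⁻¹' Ici (arctan (-9))) e (Matrix.diagonal g)) (hg : ∀ a, g a < 0) :
    (pQ (N.mono (subset_univ _)) hc E hE).Nz := fun d₂ => by
  obtain ⟨y₀⟩ : Nonempty S.Y.M := inferInstance
  have lt : ∀ {a b : ℝ}, a < b → arctan a < arctan b := fun h => arctan_strictMono h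
  obtain ⟨f, f1, f2, f3⟩ := Nv5.exists_box X (x := N.j (y₀, -10)) (U := N.u ⁻¹' Ioo (arctan (-11)) (arctan (-9)))
    ((isOpen_Ioo.preimage N.ct).mem_nhds (by
      rw [mem_preimage, N.uj y₀ _ trivial]; exact ⟨lt (by norm_num), lt (by norm_num)⟩))
  let U := N.u ⁻¹' Ioi (-(π / 2))
  have oU : IsOpen U := isOpen_Ioi.preimage N.ct
  have fU : range f ⊆ U := range_subset_iff.2 fun x => (neg_pi_div_two_lt_arctan _).trans (f3 x).1
  have mU : ∀ {p t}, arctan t ≤ N.u p → p ∈ U := fun h => (neg_pi_div_two_lt_arctan _).trans_le h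
  have n0 : ∀ {p}, N.u p ≤ arctan (-11) ∨ arctan (-9) ≤ N.u p → p ∉ range f := by
    rintro _ h ⟨x, rfl⟩; exact h.elim (f3 x).1.not_ge (f3 x).2.not_ge
  have e0 : U \ {f 0} ∩ range f = f '' {0}ᶜ := Set.ext fun p => ⟨fun ⟨k, x, e⟩ => ⟨x, fun h => k.2 (e.symm.trans
    (congrArg f h)), e⟩, fun ⟨x, h, e⟩ => ⟨⟨fU ⟨x, e⟩, fun k => h (f1.inj (e.trans k))⟩, x, e⟩⟩
  have c0 := (isConnected_compl_singleton_of_one_lt_rank (E := E4)
    (by rw [← finrank_eq_rank]; norm_num) 0).image f f1.continuous.continuousOn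
  obtain ⟨T, G, hG, oT⟩ := exists_sub X (oU.sdiff isClosed_singleton) ⟨(e0 ▸ c0.1).mono inter_subset_left,
    pre_cover (oU.sdiff isClosed_singleton) f1.isOpen_range (by
      rw [show U \ {f 0} ∪ range f = U from subset_antisymm (union_subset sdiff_subset fU) fun p hp =>
        (em (p = f 0)).elim (fun k => .inr ⟨0, k.symm⟩) fun k => .inl ⟨hp, k⟩]
      exact (N.mono (subset_univ _)).conQ.2) (e0 ▸ c0.2)⟩
  have mG : ∀ {p}, p ∈ U → p ∉ range f → p ∈ range G.φ := fun h k => hG.ge ⟨h, fun e => k ⟨0, e.symm⟩⟩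
  obtain ⟨k, k1, k2⟩ := exists_pun s hi f1 f2 G (fun q => (hG.le ⟨q, rfl⟩).2)
    fun x hx => hG.ge ⟨fU ⟨x, rfl⟩, fun e => hx (f1.inj e)⟩
  have a1 : ∀ y, ∀ t < (-12 : ℝ), N.j (y, t) ∈ range G.φ := fun y t h => mG (mU (N.uj y t trivial).ge)
    (n0 (.inl ((N.uj y t trivial).trans_le (lt (by linarith)).le)))
  have a2 : ∀ q, -(π / 2) < N.u (G.φ q) := fun q => (hG.le ⟨q, rfl⟩).1
  have a3 := nQ_lt (N.mono (J' := Iio (-12)) (subset_univ _)) G a1 a2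
  let w : En2 (some S.toO3) (some S.toO3) T := ⟨nQ (N.mono (subset_univ _)) G a1 a2, k,
    fun q h => (k1 q (n0 (.inl (((a3 q le_rfl).1 h).trans (lt (by norm_num))).le))).le, fun t => by
      obtain ⟨C, c1, c2, c3⟩ := k2 t
      refine (congrArg _ (Set.ext fun q => ?_)).mp (G.cpt (((hc (-t + -12)).inter_right c1).inter_right
        (isClosed_const (p := 0 ≤ t))) fun p h => hG.ge ⟨mU h.1.1, fun e => c2 (e ▸ h.1.2)⟩)
      exact ⟨fun ⟨⟨a, b⟩, c⟩ => ⟨(nQ_cpt _ G a1 a2 c q).2 a, (c3 q).2 b, c⟩,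
        fun ⟨a, b, c⟩ => ⟨⟨(nQ_cpt _ G a1 a2 c q).1 a, (c3 q).1 b⟩, c⟩⟩⟩
  have b0 : arctan (-9) < 0 := (lt (by norm_num)).trans_eq arctan_zero
  have b1 : N.u ⁻¹' Ici (arctan (-9)) ⊆ range G.φ := fun p h => mG (mU h) (n0 (.inr h))
  have b2 : N.u ⁻¹' Ioi 0 ⊆ range G.φ := fun p h => b1 (b0.trans h).le
  let M := (N.mono (J' := Ioi 0) (subset_univ _)).pull G fun y t h => b2 ((at_pos h).trans_eq (N.uj y t trivial).symm)
  obtain ⟨L, F, hF⟩ := M.exL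
  obtain ⟨c, -, -, c1, c2⟩ := cp3 M w (fun q h => ⟨not_lt.1 fun x => ((a3 q le_rfl).1 x).not_gt
    (((lt (by norm_num)).trans_eq arctan_zero).trans h), (k1 q (n0 (.inr (b0.trans h).le))).le⟩) F hF
    (N.mono (subset_univ _)) hc E hE (M.mono Ioo_subset_Ioi_self) w (.id _) (image_id _) (fun _ _ _ => rfl)
    (fun _ _ _ => rfl) (fun _ _ _ => rfl) (G.inv.mono b2) (Set.ext fun q => ⟨by
      rintro ⟨p, h, rfl⟩; exact h.trans_eq (congrArg N.u (G.ri (b2 h))).symm, fun h => ⟨_, h, G.li q⟩⟩)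
    fun _ _ _ => rfl
  have s0 : (G.φ.trans E.φ.symm).source = univ := eq_univ_of_forall fun q => ⟨G.mem q, E.tgt.ge (hE.ge (a2 q))⟩
  obtain ⟨d, p⟩ : ∃ d, Pb (G.φ.trans E.φ.symm) univ (show Q.L from d₂) d :=
    ⟨_, Rfl19.pb_pull fun q _ => Rod53.ld_pd (G.φ.trans E.φ.symm) (s0.ge trivial : q ∈ _)⟩
  refine ⟨S, S, _, w.pm, c, d, ?_, ?_, n, _, g, _, oT ▸ Num57.lat_pull (T.X.dim.trans X.X.dim.symm).symm G.oe
    ⟨hl.ori, G.oe.isOpen_range, b1, hG ▸ hl.bd.of_surj _ (Num57.res_pt f1 oU fU one_lt_two).2, hl.cs, hl.gram, hl.det⟩,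
    Nat.card_eq_zero.2 (.inl ⟨fun a => (hg a).not_gt a.2⟩)⟩
  · have := Rfl19.pb_mono (Mv17.pb_inv (G.φ.trans E.φ.symm) (s0 ▸ p)) (W' := E.φ ⁻¹' (N.u ⁻¹' Ioi 0))
      fun q h => ⟨E.mem q, G.tgt.ge (b2 h)⟩
    show Pb c.r c.r.source d d₂
    rw [c1, c2]
    exact this
  · refine (Dr59.hz_oe G.oe.loc G.oe.inj isOpen_univ).1 ?_
    rw [image_univ, hG]
    exact bd_zero.1 ((bd_zero.2 h1).of_surj _ (Num57.res_pt f1 oU fU two_pos).2)

end Crest.Agent.X212.Sm25
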