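import Crest.Agent.X212.Sm25.HS

/-!
Row 212, layer H, package SM2 (helper25), part 7: straightening along one cell of a planar grid
(the two-dimensional copy of `Glb47/Box`, `Glb47/Grid`).
-/

set_option autoImplicit false
set_option linter.style.longLine false

open Set Filter Topology Function Metric
open scoped ContDiff Manifold
open Crest.Agent.X212.Glue52

noncomputable section

namespace Crest.Agent.X212.Sm25

/-- coordinatewise maps -/
theorem ld_coord (c : E2) {φ : Fin 2 → ℝ → ℝ} (h : ∀ i, ContDiff ℝ ∞ (φ i))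
    (h' : ∀ i t, deriv (φ i) t ≠ 0) : IsLocalDiffeomorph 𝓘(ℝ, E2) 𝓘(ℝ, E2) ∞
      fun x : E2 => (WithLp.toLp 2 fun i => c i + φ i (x i) : E2) := by
  intro x
  have hc : ContDiff ℝ ∞ fun x : E2 => (WithLp.toLp 2 fun i => c i + φ i (x i) : E2) := by
    rw [contDiff_euclidean]
    intro i
    exact contDiff_const.add ((h i).comp (EuclideanSpace.proj (𝕜 := ℝ) i).contDiff)
  refine ld_of_injective_mfderiv rfl isOpen_univ (mem_univ x) hc.contMDiff.contMDiffOn ?_
  rw [mfderiv_eq_fderiv]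
  refine (injective_iff_map_eq_zero _).2 fun (v : E2) hv => ?_
  show v = 0
  ext i
  have d1 : HasFDerivAt (fun x : E2 => c i + φ i (x i))
      (deriv (φ i) (x i) • EuclideanSpace.proj (𝕜 := ℝ) i) x :=
    ((((h i).differentiable (by simp)) (x i)).hasDerivAt.comp_hasFDerivAt x
      (EuclideanSpace.proj (𝕜 := ℝ) i).hasFDerivAt).const_add _
  have d2 := (EuclideanSpace.proj (𝕜 := ℝ) i).hasFDerivAt.comp x
    ((hc.differentiable (by simp)) x).hasFDerivAt
  have d3 := congrArg (fun A : E2 →L[ℝ] ℝ => A v) (d1.unique d2)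
  have hv' : fderiv ℝ (fun x : E2 => (WithLp.toLp 2 fun i => c i + φ i (x i) : E2)) x v = 0 := hv
  simp only [smul_apply, ContinuousLinearMap.comp_apply, hv', map_zero,
    smul_eq_mul, mul_eq_zero, h' i, false_or] at d3
  simpa using d3

/-- closed cell with centre `c`, directions `J`, half side `s` -/
def cl (c : E2) (J : Finset (Fin 2)) (s : ℝ) : Set E2 :=
  {x | ∀ i, (i ∈ J → |x i - c i| ≤ s) ∧ (i ∉ J → x i = c i)}

/-- open cell -/
def op (c : E2) (J : Finset (Fin 2)) (s : ℝ) : Set E2 :=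
  {x | ∀ i, (i ∈ J → |x i - c i| < s) ∧ (i ∉ J → x i = c i)}

theorem op_sub (c : E2) (J : Finset (Fin 2)) (s : ℝ) : op c J s ⊆ cl c J s :=
  fun _ h i => ⟨fun hi => ((h i).1 hi).le, (h i).2⟩

theorem norm_le_of_coord {x : E2} {r : ℝ} (hr : 0 ≤ r) (h : ∀ i, |x i| ≤ r) : ‖x‖ ≤ 2 * r := by
  rw [EuclideanSpace.norm_eq, Real.sqrt_le_iff, Fin.sum_univ_two]
  have := fun i => sq_le_sq' (abs_le.1 (h i)).1 (abs_le.1 (h i)).2
  refine ⟨by positivity, ?_⟩
  simp only [Real.norm_eq_abs, sq_abs]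
  nlinarith [this 0, this 1]

theorem cl_sub_ball (c : E2) (J : Finset (Fin 2)) {s : ℝ} (hs : 0 ≤ s) :
    cl c J s ⊆ closedBall c (2 * s) := fun x hx => by
  rw [mem_closedBall_iff_norm]
  refine norm_le_of_coord hs fun i => ?_
  by_cases hi : i ∈ J
  · exact (hx i).1 hi
  · simp [(hx i).2 hi, hs]

theorem isClosed_cl (c : E2) (J : Finset (Fin 2)) (s : ℝ) : IsClosed (cl c J s) := by
  simp only [cl, ofPred_forall, ofPred_and]
  refine isClosed_iInter fun i => (isClosed_iInter fun _ => ?_).inter (isClosed_iInter fun _ => ?_)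
  · exact isClosed_le (by fun_prop) continuous_const
  · exact isClosed_eq (by fun_prop) continuous_const

theorem isCompact_cl (c : E2) (J : Finset (Fin 2)) {s : ℝ} (hs : 0 ≤ s) : IsCompact (cl c J s) :=
  (isCompact_closedBall c _).of_isClosed_subset (isClosed_cl c J s) (cl_sub_ball c J hs)

/-- the geometric data: a box around a slightly smaller cell -/
theorem exists_box {c : E2} {J : Finset (Fin 2)} {s : ℝ} (hs : 0 < s) {O W : Set E2}
    (hO : IsOpen O) (hW : IsOpen W) (h1 : op c J s ⊆ O) (h2 : cl c J s \ op c J s ⊆ W) :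
    ∃ e : E2 → E2, IsLocalDiffeomorph 𝓘(ℝ, E2) 𝓘(ℝ, E2) ∞ e ∧ Injective e ∧ (∀ y, e y ∈ O) ∧
      (∀ y, (∃ i ∈ J, 1 / 2 ≤ |y i|) → e y ∈ W) ∧
      ∀ x ∈ cl c J s, (∃ y : E2, (∀ i, i ∉ J → y i = 0) ∧ e y = x) ∨ (x ∉ range e ∧ x ∈ W) := by
  -- a collar of the boundary inside `W`
  have hb : IsCompact (cl c J s \ op c J s) := by
    have : cl c J s \ op c J s = cl c J s ∩ ⋃ i ∈ J, {x : E2 | s ≤ |x i - c i|} := by
      ext x
      simp only [Set.mem_sdiff, mem_inter_iff, mem_iUnion, mem_ofPred_eq, exists_prop, and_congr_right_iff]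
      intro hx
      simp only [op, mem_ofPred_eq, not_forall]
      refine ⟨fun ⟨i, hi⟩ => ?_, fun ⟨i, hi, h⟩ => ⟨i, fun h' => absurd (h'.1 hi) (not_lt.2 h)⟩⟩
      by_cases hJ : i ∈ J
      · exact ⟨i, hJ, not_lt.1 fun h => hi ⟨fun _ => h, fun h' => absurd hJ h'⟩⟩
      · exact absurd ⟨fun h => absurd h hJ, (hx i).2⟩ hi
    rw [this]
    exact (isCompact_cl c J hs.le).inter_right
      (J.finite_toSet.isClosed_biUnion fun i _ => isClosed_le continuous_const (by fun_prop))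
  obtain ⟨δ, δ0, hδ⟩ := hb.exists_cthickening_subset_open hW h2
  set η : ℝ := min (δ / 4) (s / 4) with hη
  have η0 : 0 < η := lt_min (by positivity) (by positivity)
  have η1 : η ≤ δ / 4 := min_le_left _ _
  have η2 : η ≤ s / 4 := min_le_right _ _
  have hcol : ∀ x : E2, (∀ i, (i ∈ J → |x i - c i| ≤ s) ∧ (i ∉ J → |x i - c i| ≤ 2 * η)) →
      (∃ i ∈ J, s - 2 * η ≤ |x i - c i|) → x ∈ W := by
    rintro x hx ⟨j, hj, hxj⟩
    let z : E2 := WithLp.toLp 2 fun i =>
      if i = j then (if 0 ≤ x j - c j then c j + s else c j - s) else if i ∈ J then x i else c i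
    have zj : |z j - c j| = s := by
      by_cases h : 0 ≤ x j - c j
      · simp [z, -sub_nonneg, h, abs_of_pos hs]
      · simp [z, -sub_nonneg, h, abs_of_pos hs]
    have hz : z ∈ cl c J s \ op c J s := by
      refine ⟨fun i => ⟨fun hi => ?_, fun hi => ?_⟩, fun h => absurd ((h j).1 hj) (by simp [zj])⟩
      · by_cases h : i = j
        · rw [h, zj]
        · simpa [z, h, hi] using (hx i).1 hi
      · have h : i ≠ j := fun h => hi (h ▸ hj)
        simp [z, h, hi]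
    refine hδ (mem_cthickening_of_dist_le x z δ _ hz ?_)
    rw [dist_eq_norm]
    refine (norm_le_of_coord (r := 2 * η) (by positivity) fun i => ?_).trans (by linarith)
    by_cases h : i = j
    · subst h
      have := (hx i).1 hj
      by_cases h : 0 ≤ x i - c i
      · rw [abs_of_nonneg h] at this hxj
        simp only [PiLp.sub_apply, z, h, if_true]
        rw [abs_le]; constructor <;> linarith
      · rw [abs_of_neg (not_le.1 h)] at this hxj
        simp only [PiLp.sub_apply, z, h, if_true, if_false]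
        rw [abs_le]; constructor <;> linarith
    · by_cases hi : i ∈ J
      · simp [z, h, hi, η0.le]
      · simpa [z, h, hi] using (hx i).2 hi
  -- the smaller cell inside `O`
  have hsm : cl c J (s - η) ⊆ O := fun x hx => h1 fun i =>
    ⟨fun hi => ((hx i).1 hi).trans_lt (by linarith), (hx i).2⟩
  obtain ⟨ε, ε0, hε⟩ := (isCompact_cl c J (s := s - η) (by linarith)).exists_cthickening_subset_open
    hO hsm
  set θ : ℝ := min (ε / 2) η with hθ
  have θ0 : 0 < θ := lt_min (by positivity) η0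
  have θ1 : θ ≤ ε / 2 := min_le_left _ _
  have θ2 : θ ≤ η := min_le_right _ _
  obtain ⟨φ, p1, p2, p3, p4, p5, p6, p7⟩ :=
    Glb47.exists_squash (ρ := s - 2 * η) (s := s - η) (by linarith) (by linarith)
  obtain ⟨χ, q1, q2, q3, q4, q5, -, -⟩ := Glb47.exists_squash (ρ := θ / 2) (s := θ) (by linarith) (by linarith)
  let Φ : Fin 2 → ℝ → ℝ := fun i => if i ∈ J then φ else χ
  have ΦJ : ∀ i, i ∈ J → Φ i = φ := fun i hi => if_pos hi
  have ΦN : ∀ i, i ∉ J → Φ i = χ := fun i hi => if_neg hi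
  have cases : ∀ i, Φ i = φ ∨ Φ i = χ := fun i => (em (i ∈ J)).imp (ΦJ i) (ΦN i)
  let e : E2 → E2 := fun x => WithLp.toLp 2 fun i => c i + Φ i (x i)
  have ee : ∀ y i, e y i - c i = Φ i (y i) := fun y i => by simp [e]
  refine ⟨e, ld_coord c (fun i => ?_) (fun i => ?_), fun x y hxy => ?_, fun y => ?_, ?_, ?_⟩
  · rcases cases i with h | h <;> rwa [h]
  · rcases cases i with h | h <;> rwa [h]
  · ext i
    have : Φ i (x i) = Φ i (y i) := by rw [← ee, ← ee, hxy]
    rcases cases i with h | h <;> rw [h] at this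
    exacts [p3 this, q3 this]
  · let z : E2 := WithLp.toLp 2 fun i => if i ∈ J then e y i else c i
    refine hε (mem_cthickening_of_dist_le _ z ε _ (fun i => ⟨fun hi => ?_, fun hi => ?_⟩) ?_)
    · simp only [z, hi, if_true]
      rw [ee, ΦJ i hi]
      exact (p5 _).le
    · simp [z, hi]
    · rw [dist_eq_norm]
      refine (norm_le_of_coord (r := θ) θ0.le fun i => ?_).trans (by linarith)
      by_cases hi : i ∈ J
      · simp [z, hi, θ0.le]
      · simp only [PiLp.sub_apply, z, hi, if_false]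
        rw [ee, ΦN i hi]
        exact (q5 _).le
  · rintro y ⟨j, hj, hy⟩
    refine hcol _ (fun i => ⟨fun hi => ?_, fun hi => ?_⟩) ⟨j, hj, ?_⟩
    · rw [ee, ΦJ i hi]; linarith [p5 (y i)]
    · rw [ee, ΦN i hi]; linarith [q5 (y i)]
    · rw [ee, ΦJ j hj]; exact p7 _ hy
  · intro x hx
    by_cases h : ∀ i ∈ J, |x i - c i| < s - η
    · left
      choose! t ht using fun i hi => p6 _ (h i hi)
      refine ⟨WithLp.toLp 2 fun i => if i ∈ J then t i else 0, fun i hi => by simp [hi], ?_⟩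
      ext i
      rw [← sub_left_inj (a := c i), ee]
      by_cases hi : i ∈ J
      · simp only [hi, if_true, ΦJ i hi, ht i hi]
      · simp [hi, ΦN i hi, q4, (hx i).2 hi]
    · right
      push Not at h
      obtain ⟨j, hj, hxj⟩ := h
      refine ⟨?_, hcol x (fun i => ⟨(hx i).1, fun hi => ?_⟩) ⟨j, hj, by linarith⟩⟩
      · rintro ⟨y, rfl⟩
        rw [ee, ΦJ j hj] at hxj
        exact absurd (p5 _) (not_lt.2 hxj)
      · simp [(hx i).2 hi, η0.le]

/-- compact support inside `O` -/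
def Sp {M : Type*} [TopologicalSpace M] (O : Set M) (φ : M ≃ₜ M) : Prop :=
  ∃ K, IsCompact K ∧ K ⊆ O ∧ ∀ x ∉ K, φ x = x

section
variable {M : Type*} [TopologicalSpace M] {O O' : Set M} {φ ψ : M ≃ₜ M}

theorem Sp.refl (O : Set M) : Sp O (Homeomorph.refl M) :=
  ⟨∅, isCompact_empty, empty_subset _, fun _ _ => rfl⟩

theorem Sp.mono (h : Sp O φ) (e : O ⊆ O') : Sp O' φ :=
  let ⟨K, a, b, c⟩ := h; ⟨K, a, b.trans e, c⟩

theorem Sp.trans (h : Sp O φ) (h' : Sp O ψ) : Sp O (φ.trans ψ) :=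
  let ⟨K, a, b, c⟩ := h
  let ⟨K', a', b', c'⟩ := h'
  ⟨K ∪ K', a.union a', union_subset b b', fun x hx => by
    rw [mem_union, not_or] at hx
    rw [Homeomorph.trans_apply, c x hx.1, c' x hx.2]⟩

theorem Sp.symm (h : Sp O φ) : Sp O φ.symm :=
  let ⟨K, a, b, c⟩ := h; ⟨K, a, b, Glb47.symm_of_notMem φ c⟩

theorem Sp.ev [T2Space M] (h : Sp O φ) {x : M} (hx : x ∉ O) : ∀ᶠ y in 𝓝 x, φ y = y := by
  obtain ⟨K, a, b, c⟩ := h
  filter_upwards [a.isClosed.isOpen_compl.mem_nhds fun h' => hx (b h')] with y hy using c y hy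

theorem Sp.push {X : Type*} [TopologicalSpace X] [T2Space M] {e : X → M} (he : IsOpenEmbedding e)
    {χ : X ≃ₜ X} (h : Sp (e ⁻¹' O) χ) : ∃ Ψ : M ≃ₜ M, (∀ x, Ψ (e x) = e (χ x)) ∧
      Sp (O ∩ range e) Ψ := by
  obtain ⟨K, a, b, c⟩ := h
  obtain ⟨Ψ, p1, p2⟩ := Glb47.exists_pushH he χ a c
  exact ⟨Ψ, p1, _, a.image he.continuous, by rintro _ ⟨y, hy, rfl⟩; exact ⟨b hy, y, rfl⟩, p2⟩

end

/-- **one cell** -/
theorem one_cell {c : E2} {J : Finset (Fin 2)} (H : J.Nonempty) {s : ℝ} (hs : 0 < s) {h : E2 → E2}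
    (hh : IsOpenEmbedding h) {O : Set E2} (hO : IsOpen O) (h1 : op c J s ⊆ O)
    (h2 : ∀ x ∈ cl c J s \ op c J s, LD h x) :
    ∃ ψ : E2 ≃ₜ E2, Sp O ψ ∧ ∀ x ∈ cl c J s, LD (h ∘ ψ) x := by
  obtain ⟨e, e1, e2, e3, e4, e5⟩ := exists_box hs hO (isOpen_ld h) h1 h2
  have he := ld_isOpenEmbedding e1 e2
  obtain ⟨ψ, ⟨R, hR⟩, hψ⟩ := hj H (h ∘ e) (hh.comp he) fun y hy => (e1 y).comp _ _ (e4 y hy)
  obtain ⟨Ψ, Ψ1, Ψ2⟩ := Sp.push (O := O) he (χ := ψ) ⟨_, isCompact_closedBall 0 R,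
    fun y _ => e3 y, fun x hx => hR x (le_of_lt (by simpa using hx))⟩
  refine ⟨Ψ, Ψ2.mono inter_subset_left, fun x hx => ?_⟩
  rcases e5 x hx with ⟨y, hy, rfl⟩ | ⟨hx1, hx2⟩
  · refine ld_of_comp (e1 y) ?_
    have : (h ∘ Ψ) ∘ e = (h ∘ e) ∘ ψ := funext fun z => congrArg h (Ψ1 z)
    rw [this]
    exact hψ y hy
  · refine ld_congr hx2 ?_
    filter_upwards [Ψ2.ev fun h' => hx1 h'.2] with z hz using congrArg h hz

/-- centre of a grid cell -/
def ctr (δ : ℝ) (c : Fin 2 → ℤ) : E2 := WithLp.toLp 2 fun i => δ * c i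

/-- directions of a grid cell -/
def dirs (c : Fin 2 → ℤ) : Finset (Fin 2) := Finset.univ.filter fun i => Odd (c i)

/-- closed grid cell -/
def gcl (δ : ℝ) (c : Fin 2 → ℤ) : Set E2 := cl (ctr δ c) (dirs c) δ

/-- open grid cell -/
def gop (δ : ℝ) (c : Fin 2 → ℤ) : Set E2 := op (ctr δ c) (dirs c) δ

/-- the finite complex -/
def cx (n : ℕ) : Finset (Fin 2 → ℤ) := Fintype.piFinset fun _ => Finset.Icc (-(2 * n : ℤ)) (2 * n)

theorem mem_dirs {c : Fin 2 → ℤ} {i : Fin 2} : i ∈ dirs c ↔ Odd (c i) := by simp [dirs]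

theorem mem_cx {n : ℕ} {c : Fin 2 → ℤ} : c ∈ cx n ↔ ∀ i, -(2 * n : ℤ) ≤ c i ∧ c i ≤ 2 * n := by
  simp [cx]

theorem int_close {δ : ℝ} (h : 0 < δ) {m m' : ℤ} {k : ℤ} (H : |δ * m - δ * m'| < k * δ) :
    |m - m'| < k := by
  rw [← mul_sub, abs_mul, abs_of_pos h, mul_comm, mul_lt_mul_iff_left₀ h] at H
  exact_mod_cast H

theorem gcl_sub {δ : ℝ} (h : 0 < δ) {c c' : Fin 2 → ℤ} {x : E2} (h1 : x ∈ gop δ c)
    (h2 : x ∈ gcl δ c') : gcl δ c ⊆ gcl δ c' := by
  intro u hu i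
  have a := h1 i
  have b := h2 i
  have d := hu i
  simp only [mem_dirs, ctr] at a b d ⊢
  by_cases o : Odd (c i)
  · have e : c i = c' i := by
      by_cases o' : Odd (c' i)
      · have : |c i - c' i| < 2 := int_close h (by
          have := abs_lt.1 (a.1 o)
          have := abs_le.1 (b.1 o')
          rw [abs_lt]; push_cast; constructor <;> linarith)
        obtain ⟨p, hp⟩ := o
        obtain ⟨q, hq⟩ := o'
        rw [abs_lt] at this
        omega
      · have : |c i - c' i| < 1 := int_close h (by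
          have := a.1 o
          rw [b.2 o', abs_sub_comm] at this
          simpa using this)
        rw [abs_lt] at this
        omega
    rwa [← e]
  · rw [d.2 o, ← a.2 o]
    exact b

theorem exists_face {δ : ℝ} {n : ℕ} {c : Fin 2 → ℤ} (hc : c ∈ cx n) {x : E2}
    (hx : x ∈ gcl δ c \ gop δ c) :
    ∃ c' ∈ cx n, (dirs c').card < (dirs c).card ∧ x ∈ gcl δ c' := by
  obtain ⟨h1, h2⟩ := hx
  obtain ⟨j, hj, hxj⟩ : ∃ j, Odd (c j) ∧ |x j - δ * c j| = δ := by
    by_contra hn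
    push Not at hn
    exact h2 fun i => ⟨fun hi => lt_of_le_of_ne ((h1 i).1 hi) (hn i (mem_dirs.1 hi)), (h1 i).2⟩
  obtain ⟨m, hm, hxm⟩ : ∃ m : ℤ, (m = c j + 1 ∨ m = c j - 1) ∧ x j = δ * m := by
    rcases abs_eq_abs.1 (hxj.trans (abs_of_nonneg (hxj ▸ abs_nonneg _)).symm) with h | h
    · exact ⟨_, Or.inl rfl, by push_cast; linarith⟩
    · exact ⟨_, Or.inr rfl, by push_cast; linarith⟩
  have no : ¬ Odd m := by
    obtain ⟨p, hp⟩ := hj
    rintro ⟨q, hq⟩
    omega
  refine ⟨update c j m, mem_cx.2 fun i => ?_, Finset.card_lt_card ⟨fun i hi => ?_, fun h => ?_⟩,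
    fun i => ?_⟩
  · by_cases h : i = j
    · subst h
      have := mem_cx.1 hc i
      obtain ⟨p, hp⟩ := hj
      rw [update_self]
      omega
    · rw [update_of_ne h]
      exact mem_cx.1 hc i
  · by_cases h : i = j
    · exact h ▸ mem_dirs.2 hj
    · rwa [mem_dirs, update_of_ne h, ← mem_dirs] at hi
  · have := mem_dirs.1 (h (mem_dirs.2 hj))
    rw [update_self] at this
    exact no this
  · by_cases h : i = j
    · subst h
      simp only [mem_dirs, ctr, update_self]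
      exact ⟨fun h => absurd h no, fun _ => hxm⟩
    · have := h1 i
      simp only [mem_dirs, ctr, update_of_ne h] at this ⊢
      exact this

theorem exists_cell {δ : ℝ} (h : 0 < δ) {n : ℕ} {x : E2} (hx : ∀ i, |x i| < 2 * n * δ) :
    ∃ c ∈ cx n, x ∈ gcl δ c := by
  have h2 : 0 < 2 * δ := by positivity
  refine ⟨fun i => 2 * ⌊x i / (2 * δ)⌋ + 1, mem_cx.2 fun i => ?_, fun i => ?_⟩
  · have := abs_lt.1 (hx i)
    have a : -(n : ℤ) ≤ ⌊x i / (2 * δ)⌋ := Int.le_floor.2 (by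
      rw [le_div_iff₀ h2]; push_cast; linarith)
    have b : ⌊x i / (2 * δ)⌋ < n := Int.floor_lt.2 (by
      rw [div_lt_iff₀ h2]; push_cast; linarith)
    omega
  · have a := Int.floor_le (x i / (2 * δ))
    have b := Int.lt_floor_add_one (x i / (2 * δ))
    rw [le_div_iff₀ h2] at a
    rw [div_lt_iff₀ h2] at b
    simp only [mem_dirs, ctr]
    refine ⟨fun _ => ?_, fun hn => absurd ⟨_, rfl⟩ hn⟩
    rw [abs_le]; push_cast; constructor <;> linarith

end Crest.Agent.X212.Sm25
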