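import Crest.Agent.X212.Sm25.Imm

/-!
Row 212, layer H, package FILL (helper25), part 2: the corner `{p = c, m = c}` is a smooth circle
with a collar in `{p = c}`.
-/

set_option autoImplicit false
set_option linter.style.longLine false
set_option linter.unusedSectionVars false

open Set Filter Topology Function Metric
open scoped ContDiff Manifold
open Crest.Agent.X212.Glue52

noncomputable section

namespace Crest.Agent.X212.Sm25

section Gen
variable {E F G : Type*} [NormedAddCommGroup E] [NormedSpace ℝ E] [NormedAddCommGroup F]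
  [NormedSpace ℝ F] [NormedAddCommGroup G] [NormedSpace ℝ G]

theorem Imm.of_ld {f : E → F} {g : F → G} {z : E}
    (hf : IsLocalDiffeomorphAt 𝓘(ℝ, E) 𝓘(ℝ, F) ∞ f z) (h : Imm (g ∘ f) z) : Imm g (f z) := by
  have h1 : Imm (g ∘ f) (hf.localInverse (f z)) := by
    rwa [hf.localInverse_left_inv hf.localInverse_mem_target]
  refine (h1.comp (imm_of_ld hf.localInverse_isLocalDiffeomorphAt)).congr ?_
  filter_upwards [hf.localInverse_eventuallyEq_right] with y hy using (congrArg g hy).symm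

theorem imm_graph {τ : E → ℝ} {z : E} (h : ∀ᶠ y in 𝓝 z, ContDiffAt ℝ ∞ τ y) :
    Imm (fun y => (y, τ y)) z :=
  .of_comp (g := Prod.fst) (h.mono fun _ hy => contDiffAt_id.prodMk hy) differentiableAt_fst
    (by rw [show (Prod.fst ∘ fun y => (y, τ y)) = id from rfl, fderiv_id]; exact injective_id)

theorem Fw.ev_add' {X : F → F} {φ : ℝ → F → F} (h : Fw X φ) {f : E → F} {z : E} {l : F → ℝ} {κ : ℝ}
    (hf : ContinuousAt f z) (hl : ∀ᶠ y in 𝓝 (f z), DifferentiableAt ℝ l y ∧ fderiv ℝ l y (X y) = κ)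
    {T : Type*} [TopologicalSpace T] {a : T → E} {τ : T → ℝ} {x : T} (ha : ContinuousAt a x)
    (hτ : ContinuousAt τ x) (e1 : a x = z) (e2 : τ x = 0) :
    ∀ᶠ y in 𝓝 x, l (φ (τ y) (f (a y))) = l (f (a y)) + τ y * κ :=
  (ha.prodMk hτ).tendsto.eventually (by simpa only [e1, e2] using h.ev_add hf hl)

/-- a compact connected set which is locally one orbit is a periodic orbit -/
theorem Fw.circle {W : F → F} {φ : ℝ → F → F} (h : Fw W φ) {Γ : Set F} (hc : IsCompact Γ)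
    (hp : IsPreconnected Γ) {x : F} (hx : x ∈ Γ) (inv : ∀ t, φ t x ∈ Γ) (ne : W x ≠ 0)
    (loc : ∀ y ∈ Γ, ∀ V ∈ 𝓝 (0 : ℝ), ∀ᶠ y' in 𝓝 y, y' ∈ Γ → ∃ t ∈ V, φ t y = y') :
    ∃ T : ℝ, T ≠ 0 ∧ (∀ s t, φ (s * T) x = φ (t * T) x ↔ ∃ n : ℤ, t = s + n) ∧
      ∀ y ∈ Γ, ∃ t, φ (t * T) x = y := by
  have orb : ∀ y ∈ Γ, ∃ t, φ t x = y := fun y hy =>
    hp.induction₂' (fun a b => ∃ t, φ t a = b) (fun a ha => by
      filter_upwards [nhdsWithin_le_nhds (loc a ha univ univ_mem), self_mem_nhdsWithin] with b h1 h2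
      obtain ⟨t, -, rfl⟩ := h1 h2
      exact ⟨⟨t, rfl⟩, -t, h.neg t a⟩)
      (by rintro a _ _ - - - ⟨s, rfl⟩ ⟨t, rfl⟩; exact ⟨t + s, h.add _ _ _⟩) hx hy
  have per : ∃ T, T ≠ 0 ∧ φ T x = x := by
    obtain ⟨n, hn⟩ := hc.elim_directed_cover
      (fun n : ℕ => interior {y | y ∈ Γ → ∃ t ∈ Ioo (-(n : ℝ)) n, φ t x = y})
      (fun _ => isOpen_interior) (fun y hy => by
        obtain ⟨t, rfl⟩ := orb y hy
        obtain ⟨n, hn⟩ := exists_nat_gt |t|
        refine mem_iUnion.2 ⟨n, mem_interior_iff_mem_nhds.2 ?_⟩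
        have h1 : (fun s => s + t) ⁻¹' Ioo (-(n : ℝ)) n ∈ 𝓝 (0 : ℝ) :=
          (isOpen_Ioo.preimage (by fun_prop)).mem_nhds (by simpa using abs_lt.1 hn)
        filter_upwards [loc _ hy _ h1] with y hy e
        obtain ⟨s, h2, h3⟩ := hy e
        exact ⟨s + t, h2, by rw [h.add, h3]⟩)
      (Monotone.directed_le fun n m h => interior_mono fun y hy e => by
        obtain ⟨t, h1, h2⟩ := hy e
        have : (n : ℝ) ≤ m := by exact_mod_cast h
        exact ⟨t, ⟨by linarith [h1.1], by linarith [h1.2]⟩, h2⟩)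
    obtain ⟨t, h1, h2⟩ := interior_subset (hn (inv n)) (inv n)
    exact ⟨-t + n, by linarith [h1.2], by rw [h.add, ← h2, h.neg]⟩
  let S : AddSubgroup ℝ :=
    { carrier := {t | φ t x = x}
      zero_mem' := h.zero x
      add_mem' := fun {a b} ha hb => by
        show φ (a + b) x = x
        rw [h.add, hb, ha]
      neg_mem' := fun {a} ha => by
        show φ (-a) x = x
        conv_lhs => rw [← show φ a x = x from ha]
        exact h.neg a x }
  obtain ⟨a, ha⟩ := S.dense_or_cyclic.resolve_left fun hd => by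
    obtain ⟨V, h1, h2, h3⟩ := mem_nhdsWithin.1 ((h.der x 0).eventually_ne (c := x) (by rwa [h.zero]))
    obtain ⟨t, h4, h5⟩ := hd.exists_mem_open (h1.inter isOpen_compl_singleton)
      (dense_compl_singleton (0 : ℝ) |>.inter_open_nonempty _ h1 ⟨0, h2⟩)
    exact h3 h5 h4
  have hS : ∀ t, φ t x = x ↔ ∃ n : ℤ, n • a = t := fun t =>
    (show t ∈ S ↔ _ by rw [ha, AddSubgroup.mem_closure_singleton])
  have a0 : a ≠ 0 := fun h0 => by
    obtain ⟨T, h1, h2⟩ := per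
    obtain ⟨n, hn⟩ := (hS T).1 h2
    exact h1 (by rw [← hn, h0, smul_zero])
  refine ⟨a, a0, fun s t => ?_, fun y hy => ?_⟩
  · have h1 : φ (s * a) x = φ (t * a) x ↔ φ (-(s * a) + t * a) x = x := by
      rw [h.add]
      exact ⟨fun e => by rw [← e, h.neg], fun e => by
        conv_lhs => rw [← e]
        rw [← h.add, add_neg_cancel, h.zero]⟩
    rw [h1, hS]
    exact exists_congr fun n => ⟨fun e => mul_right_cancel₀ a0 (by
      rw [zsmul_eq_mul] at e; linarith), fun e => by rw [e, zsmul_eq_mul]; ring⟩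
  · obtain ⟨t, rfl⟩ := orb y hy
    exact ⟨t / a, by rw [div_mul_cancel₀ _ a0]⟩

variable {U : Set E} {p m : E → ℝ}

theorem cd_app (hU : IsOpen U) (hp : ContDiffOn ℝ ∞ p U) {g : E → E} (hg : ContDiffOn ℝ ∞ g U) :
    ContDiffOn ℝ ∞ (fun y => fderiv ℝ p y (g y)) U :=
  (hp.fderiv_of_isOpen hU (by simp)).clm_apply hg

/-- local fields with prescribed derivatives of two independent functions -/
theorem loc2 (hU : IsOpen U) (hp : ContDiffOn ℝ ∞ p U) (hm : ContDiffOn ℝ ∞ m U) {x : E} (hx : x ∈ U)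
    {v w : E} (h : fderiv ℝ p x v * fderiv ℝ m x w - fderiv ℝ p x w * fderiv ℝ m x v ≠ 0) (α β : ℝ) :
    ∃ V ∈ 𝓝 x, ∃ g : E → E, ContDiffOn ℝ ∞ g V ∧
      ∀ y ∈ V, fderiv ℝ p y (g y) = α ∧ fderiv ℝ m y (g y) = β := by
  have c1 := fun u : E => cd_app hU hp (g := fun _ => u) contDiffOn_const
  have c2 := fun u : E => cd_app hU hm (g := fun _ => u) contDiffOn_const
  let d : E → ℝ := fun y => fderiv ℝ p y v * fderiv ℝ m y w - fderiv ℝ p y w * fderiv ℝ m y v
  have c3 : ContDiffOn ℝ ∞ d U := ((c1 v).mul (c2 w)).sub ((c1 w).mul (c2 v))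
  refine ⟨U ∩ {y | d y ≠ 0}, inter_mem (hU.mem_nhds hx)
    ((c3.continuousOn.continuousAt (hU.mem_nhds hx)).eventually_ne h), fun y => (d y)⁻¹ •
      ((α * fderiv ℝ m y w - β * fderiv ℝ p y w) • v + (β * fderiv ℝ p y v - α * fderiv ℝ m y v) • w),
    ((c3.mono inter_subset_left).inv fun y hy => hy.2).smul (ContDiffOn.mono (by fun_prop)
      inter_subset_left), fun y hy => ⟨?_, ?_⟩⟩ <;>
  · have := hy.2
    simp only [map_smul, map_add, smul_eq_mul]
    rw [inv_mul_eq_iff_eq_mul₀ this]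
    simp only [d]; ring

theorem exists_An {P : ℂ → Prop} (h : ∀ z ∈ sphere (0 : ℂ) 1, ∀ᶠ w in 𝓝 z, P w) :
    ∃ ε > 0, ε < 1 ∧ ∀ z ∈ An (1 - ε) (1 + ε), P z := by
  obtain ⟨δ, d0, d1⟩ := (isCompact_sphere (0 : ℂ) 1).exists_thickening_subset_open isOpen_interior
    fun z hz => mem_interior_iff_mem_nhds.2 (h z hz)
  refine ⟨min δ (1 / 2), by positivity, (min_le_right _ _).trans_lt (by norm_num), fun z hz =>
    interior_subset (d1 (mem_thickening_iff.2 ⟨(‖z‖⁻¹ : ℝ) • z, ?_, ?_⟩))⟩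
  all_goals have z0 : 0 < ‖z‖ := by linarith [hz.1, min_le_right δ (1 / 2)]
  · rw [mem_sphere_zero_iff_norm, norm_smul, norm_inv, norm_norm, inv_mul_cancel₀ z0.ne']
  · rw [dist_eq_norm, show z - (‖z‖⁻¹ : ℝ) • z = (1 - ‖z‖⁻¹ : ℝ) • z by rw [sub_smul, one_smul],
      norm_smul, ← abs_norm z, Real.norm_eq_abs, ← abs_mul, abs_norm, sub_mul,
      inv_mul_cancel₀ z0.ne', one_mul, abs_lt]
    constructor <;> linarith [hz.1, hz.2, min_le_left δ (1 / 2)]

end Gen

open Crest.Agent.X212.Glb47 (E3)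
open scoped Real

variable {U : Set E3} {p m : E3 → ℝ} {c : ℝ}

theorem lin_E3 (l : E3 →L[ℝ] ℝ) (w : E3) : l w = w 0 * l (EuclideanSpace.single 0 1) +
    w 1 * l (EuclideanSpace.single 1 1) + w 2 * l (EuclideanSpace.single 2 1) := by
  conv_lhs => rw [show w = w 0 • EuclideanSpace.single 0 1 + w 1 • EuclideanSpace.single 1 1 +
    w 2 • EuclideanSpace.single 2 1 by ext i; fin_cases i <;> simp]
  simp only [map_add, map_smul, smul_eq_mul]

/-- the cross product of two forms -/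
def crs (a b : E3 →L[ℝ] ℝ) : E3 :=
  (a (.single 1 1) * b (.single 2 1) - a (.single 2 1) * b (.single 1 1)) • EuclideanSpace.single 0 1 +
  (a (.single 2 1) * b (.single 0 1) - a (.single 0 1) * b (.single 2 1)) • EuclideanSpace.single 1 1 +
  (a (.single 0 1) * b (.single 1 1) - a (.single 1 1) * b (.single 0 1)) • EuclideanSpace.single 2 1

theorem crs_l (a b : E3 →L[ℝ] ℝ) : a (crs a b) = 0 ∧ b (crs a b) = 0 := by
  simp only [crs, map_add, map_smul, smul_eq_mul]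
  constructor <;> ring

theorem crs_ne {a b : E3 →L[ℝ] ℝ} {v w : E3} (h : a v * b w - a w * b v ≠ 0) : crs a b ≠ 0 := by
  intro h0
  have h1 := congrArg (fun u : E3 => u 0) h0
  have h2 := congrArg (fun u : E3 => u 1) h0
  have h3 := congrArg (fun u : E3 => u 2) h0
  simp [crs] at h1 h2 h3
  refine h ?_
  rw [lin_E3 a v, lin_E3 a w, lin_E3 b v, lin_E3 b w]
  linear_combination (v 1 * w 2 - v 2 * w 1) * h1 + (v 2 * w 0 - v 0 * w 2) * h2 +
    (v 0 * w 1 - v 1 * w 0) * h3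

/-- **the corner is a smooth circle with a collar** -/
theorem corner (hU : IsOpen U) (hp : ContDiffOn ℝ ∞ p U) (hm : ContDiffOn ℝ ∞ m U)
    (hc : IsCompact {y | y ∈ U ∧ p y = c ∧ m y = c})
    (hn : IsConnected {y | y ∈ U ∧ p y = c ∧ m y = c})
    (hi : ∀ y ∈ U, p y = c → m y = c →
      ∃ v w, fderiv ℝ p y v * fderiv ℝ m y w - fderiv ℝ p y w * fderiv ℝ m y v ≠ 0) :
    ∃ ε > 0, ∃ a : ℂ → E3, (∀ z ∈ An (1 - ε) (1 + ε),
      Imm a z ∧ a z ∈ U ∧ p (a z) = c ∧ m (a z) = c + 2 * (‖z‖ ^ 2 - 1)) ∧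
      InjOn a (An (1 - ε) (1 + ε)) ∧ a '' sphere 0 1 = {y | y ∈ U ∧ p y = c ∧ m y = c} := by
  set Γ := {y | y ∈ U ∧ p y = c ∧ m y = c} with hΓ
  have dp : ∀ y ∈ Γ, ∀ᶠ u in 𝓝 y, DifferentiableAt ℝ p u := fun y hy => by
    filter_upwards [hU.mem_nhds hy.1] with u hu
      using (hp.contDiffAt (hU.mem_nhds hu)).differentiableAt (by simp)
  have dm : ∀ y ∈ Γ, ∀ᶠ u in 𝓝 y, DifferentiableAt ℝ m u := fun y hy => by
    filter_upwards [hU.mem_nhds hy.1] with u hu
      using (hm.contDiffAt (hU.mem_nhds hu)).differentiableAt (by simp)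
  have fw : ∀ (α β : ℝ) (t : E3 → Set E3), (∀ y, Convex ℝ (t y)) → (∀ y, ∀ w ∈ t y, y ∈ U →
      fderiv ℝ p y w = α ∧ fderiv ℝ m y w = β) → (∀ x ∈ Γ, ∃ V ∈ 𝓝 x, ∃ g : E3 → E3,
      ContDiffOn ℝ ∞ g V ∧ ∀ y ∈ V, g y ∈ t y) → ∃ X φ, Fw X φ ∧ ∀ y ∈ Γ, X y ∈ t y ∧
      (∀ᶠ u in 𝓝 y, DifferentiableAt ℝ p u ∧ fderiv ℝ p u (X u) = α) ∧
      (∀ᶠ u in 𝓝 y, DifferentiableAt ℝ m u ∧ fderiv ℝ m u (X u) = β) := fun α β t h1 h2 h3 => by
    obtain ⟨X, K, a1, a2, a3, a4⟩ := exists_field hc h1 h3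
    obtain ⟨φ, hφ⟩ := exists_fw a1 a2 a3
    refine ⟨X, φ, hφ, fun y hy => ?_⟩
    have a5 : ∀ᶠ u in 𝓝 y, X u ∈ t u := nhds_le_nhdsSet hy a4
    refine ⟨a5.self_of_nhds, ?_, ?_⟩
    · filter_upwards [a5, dp y hy, hU.mem_nhds hy.1] with u b1 b2 b3 using ⟨b2, (h2 u _ b1 b3).1⟩
    · filter_upwards [a5, dm y hy, hU.mem_nhds hy.1] with u b1 b2 b3 using ⟨b2, (h2 u _ b1 b3).2⟩
  have fw2 := fun α β : ℝ => fw α β (fun y => {w | fderiv ℝ p y w = α ∧ fderiv ℝ m y w = β})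
    (fun y => ((convex_singleton α).linear_preimage (fderiv ℝ p y).toLinearMap).inter
      ((convex_singleton β).linear_preimage (fderiv ℝ m y).toLinearMap)) (fun _ _ h _ => h)
    fun x hx => let ⟨_, _, h⟩ := hi x hx.1 hx.2.1 hx.2.2; loc2 hU hp hm hx.1 h α β
  obtain ⟨X, φX, fX, hX⟩ := fw2 1 0
  obtain ⟨Y, φY, fY, hY⟩ := fw2 0 1
  obtain ⟨W, φ, fW, hW⟩ := fw 0 0 (fun y => {crs (fderiv ℝ p y) (fderiv ℝ m y)})
    (fun _ => convex_singleton _) (fun y w hw _ => by rw [hw]; exact crs_l _ _) fun x hx =>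
      ⟨U, hU.mem_nhds hx.1, _, by
        have c1 := fun u : E3 => cd_app hU hp (g := fun _ => u) contDiffOn_const
        have c2 := fun u : E3 => cd_app hU hm (g := fun _ => u) contDiffOn_const
        unfold crs
        fun_prop, fun y _ => rfl⟩
  have W0 : ∀ y ∈ Γ, W y ≠ 0 := fun y hy => by
    obtain ⟨v, w, h⟩ := hi y hy.1 hy.2.1 hy.2.2
    rw [(hW y hy).1]; exact crs_ne h
  have cW : ∀ x, Continuous fun t => φ t x := fun x =>
    fW.sm.continuous.comp (f := fun t => (t, x)) (by fun_prop)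
  have inv : ∀ x ∈ Γ, ∀ t, φ t x ∈ Γ := fun x hx t => by
    refine eq_univ_iff_forall.1 (IsClopen.eq_univ ⟨hc.isClosed.preimage (cW x),
      isOpen_iff_mem_nhds.2 fun s hs => ?_⟩ ⟨0, by rwa [mem_preimage, fW.zero]⟩) t
    have b := fun {l : E3 → ℝ} hl => fW.ev_add' (f := id) (l := l) (κ := 0) (z := φ s x)
      continuousAt_id hl (a := fun _ => φ s x) (τ := fun u => u - s) (x := s) continuousAt_const
      (by fun_prop) rfl (sub_self s)
    filter_upwards [b (hW _ hs).2.1, b (hW _ hs).2.2, (cW x).continuousAt.eventually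
      (hU.mem_nhds hs.1)] with u b1 b2 b3
    simp only [id, ← fW.add, sub_add_cancel, mul_zero, add_zero] at b1 b2
    exact ⟨b3, b1.trans hs.2.1, b2.trans hs.2.2⟩
  -- the collar along a curve in the corner
  have i1 : ∀ x ∈ Γ, ∀ (T : ℝ), T ≠ 0 → ∀ t b, Imm (fun q : ℝ × ℝ => φY q.2 (φ (q.1 * T) x)) (t, b) :=
    fun x hx T hT t b => by
      have d : HasDerivAt (fun s => φ (s * T) x) (T • W (φ (t * T) x)) t :=
        (fW.der x (t * T)).scomp (h := fun s => s * T) t (hasDerivAt_mul_const T)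
      have i : Imm (fun s => φ (s * T) x) t := ⟨Eventually.of_forall fun s =>
        fW.cdAt (contDiffAt_id.mul contDiffAt_const) contDiffAt_const, by
          rw [d.hasFDerivAt.fderiv]
          refine (injective_iff_map_eq_zero _).2 fun w hw => ?_
          simpa [hT, W0 _ (inv x hx _)] using hw⟩
      refine fY.thick i (l := fderiv ℝ m (φ (t * T) x)) (fderiv_zero_of_const
        (f := fun s => φ (s * T) x) (dm _ (inv x hx _)).self_of_nhds i.df (Eventually.of_forall fun s => (inv x hx _).2.2)) ?_ b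
      rw [(hY _ (inv x hx _)).1.2]; exact one_ne_zero
  have e1 : ∀ {T : Type} [TopologicalSpace T] {a : T → E3} {τ : T → ℝ} {x : T}, ContinuousAt a x →
      ContinuousAt τ x → τ x = 0 → (∀ y, a y ∈ Γ) →
      ∀ᶠ y in 𝓝 x, φY (τ y) (a y) ∈ U ∧ p (φY (τ y) (a y)) = c ∧ m (φY (τ y) (a y)) = c + τ y :=
    fun {T} _ {a τ x} h1 h2 h3 h4 => by
      have c1 : ContinuousAt (fun y => φY (τ y) (a y)) x :=
        fY.sm.continuous.continuousAt.comp (f := fun y => (τ y, a y)) (h2.prodMk h1)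
      filter_upwards [fY.ev_add' (f := id) continuousAt_id (hY _ (h4 x)).2.1 h1 h2 rfl h3,
        fY.ev_add' (f := id) continuousAt_id (hY _ (h4 x)).2.2 h1 h2 rfl h3,
        c1.eventually (hU.mem_nhds (by simpa only [h3, fY.zero] using (h4 x).1))] with y b1 b2 b3
      simp only [id, (h4 y).2.1, (h4 y).2.2, mul_zero, add_zero, mul_one] at b1 b2
      exact ⟨b3, b1, b2⟩
  have loc : ∀ y ∈ Γ, ∀ V ∈ 𝓝 (0 : ℝ), ∀ᶠ y' in 𝓝 y, y' ∈ Γ → ∃ t ∈ V, φ t y = y' :=
    fun y hy V hV => by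
      have i := i1 y hy 1 one_ne_zero 0 0
      simp only [mul_one] at i
      have b1 := e1 (a := fun q : ℝ × ℝ => φ q.1 y) (τ := Prod.snd) (x := (0, 0))
        ((cW y).comp continuous_fst).continuousAt continuousAt_snd rfl fun q => inv y hy _
      have e0 : φY 0 (φ 0 y) = y := by rw [fY.zero, fW.zero]
      have i2 := fX.thick i (l := fderiv ℝ p (φY 0 (φ 0 y))) (fderiv_zero_of_const
        (by rw [e0]; exact (dp y hy).self_of_nhds) i.df (b1.mono fun q hq => hq.2.1))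
        (by simp only [e0]; rw [(hX y hy).1.1]; exact one_ne_zero) 0
      have b2 := (ld_inj (i2.ld (by simp))).2
      simp only [fX.zero, e0] at b2
      rw [← b2, eventually_map]
      filter_upwards [fX.ev_add i.cd.continuousAt (by simp only [e0]; exact (hX y hy).2.1),
        fX.ev_add i.cd.continuousAt (by simp only [e0]; exact (hX y hy).2.2),
        (continuousAt_fst (p := ((0, 0), (0 : ℝ)))).eventually b1,
        (continuousAt_fst.comp (f := Prod.fst) (continuousAt_fst (p := ((0, 0), (0 : ℝ))))).eventually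
          hV] with q c1 c2 c3 c4 c5
      have c6 : q.2 = 0 := by linarith [c5.2.1, c3.2.1]
      have c7 : q.1.2 = 0 := by linarith [c5.2.2, c3.2.2]
      exact ⟨_, c4, by rw [c6, c7, fX.zero, fY.zero]; rfl⟩
  obtain ⟨x, hx⟩ := hn.nonempty
  obtain ⟨T, T0, hT, hs⟩ := fW.circle hc hn.isPreconnected hx (inv x hx) (W0 x hx) loc
  have p2 : (2 * π) ≠ 0 := by positivity
  let γ : ℂ → E3 := fun z => φ (z.arg / (2 * π) * T) x
  have γe : ∀ w : ℂ, γ (Complex.exp w) = φ (w.im / (2 * π) * T) x := fun w =>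
    (hT _ _).2 ⟨toIocDiv Real.two_pi_pos (-π) w.im, by
      rw [Complex.arg_exp, ← self_sub_toIocDiv_zsmul, zsmul_eq_mul]; field_simp; ring⟩
  have le : ∀ w : ℂ, IsLocalDiffeomorphAt 𝓘(ℝ, ℂ) 𝓘(ℝ, ℂ) ∞ Complex.exp w := fun w =>
    Imm.ld ⟨Eventually.of_forall fun _ => Complex.contDiff_exp.contDiffAt, by
      rw [((Complex.hasDerivAt_exp w).hasFDerivAt.restrictScalars ℝ).fderiv]
      exact (injective_iff_map_eq_zero _).2 fun u hu => by simpa using hu⟩ rfl
  let a : ℂ → E3 := fun z => φY (2 * (‖z‖ ^ 2 - 1)) (γ z)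
  have ia : ∀ z ≠ 0, Imm a z := fun z hz => by
    rw [← Complex.exp_log hz]
    set w := Complex.log z
    have d : HasFDerivAt (fun u : ℂ => (u.im / (2 * π), 2 * (Real.exp (2 * u.re) - 1))) _ w :=
      (Complex.imCLM.hasFDerivAt.mul_const (2 * π)⁻¹).prodMk
        ((((Complex.reCLM.hasFDerivAt.const_mul 2).exp).sub_const 1).const_mul 2)
    refine .of_ld (le w) (((i1 x hx T T0 _ _).comp (f := fun u : ℂ =>
      (u.im / (2 * π), 2 * (Real.exp (2 * u.re) - 1))) ⟨Eventually.of_forall fun u => ?_, ?_⟩).congr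
        (Eventually.of_forall fun u => ?_))
    · exact ((Complex.imCLM.contDiff.div_const _).prodMk (contDiff_const.mul ((contDiff_const.mul
        Complex.reCLM.contDiff).exp.sub contDiff_const))).contDiffAt
    · rw [d.fderiv]
      refine (injective_iff_map_eq_zero _).2 fun u hu => ?_
      simpa [Complex.ext_iff, and_comm] using hu
    · simp only [comp, a, γe, Complex.norm_exp, ← Real.exp_nat_mul, Nat.cast_ofNat]
  have cγ : ∀ z ≠ 0, ContinuousAt γ z := fun z hz => by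
    have : γ = fun z => φY (-(2 * (‖z‖ ^ 2 - 1))) (a z) := funext fun z => (fY.neg _ _).symm
    rw [this]
    exact fY.sm.continuous.continuousAt.comp (f := fun z => (-(2 * (‖z‖ ^ 2 - 1)), a z))
      (ContinuousAt.prodMk (by fun_prop) (ia z hz).cd.continuousAt)
  obtain ⟨ε, ε0, ε1, hε⟩ := exists_An (P := fun z => a z ∈ U ∧ p (a z) = c ∧
    m (a z) = c + 2 * (‖z‖ ^ 2 - 1)) fun z hz => e1 (cγ z (ne_zero_of_mem_unit_sphere ⟨z, hz⟩))
      (by fun_prop) (by rw [mem_sphere_zero_iff_norm.1 hz]; norm_num) fun y => inv x hx _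
  have n0 : ∀ z ∈ An (1 - ε) (1 + ε), z ≠ 0 := fun z hz => norm_pos_iff.1 (by linarith [hz.1])
  refine ⟨ε, ε0, a, fun z hz => ⟨ia z (n0 z hz), hε z hz⟩, fun z hz w hw h => ?_, ?_⟩
  · have h1 : ‖z‖ ^ 2 = ‖w‖ ^ 2 := by linarith [(hε z hz).2.2, (hε w hw).2.2, congrArg m h]
    have h2 : γ z = γ w := by
      rw [← fY.neg (2 * (‖z‖ ^ 2 - 1)) (γ z), ← fY.neg (2 * (‖z‖ ^ 2 - 1)) (γ w)]
      exact congrArg _ (h.trans (by simp only [a, h1]))
    obtain ⟨n, h3⟩ := (hT _ _).1 h2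
    refine Complex.ext_norm_arg ((pow_left_inj₀ (norm_nonneg _) (norm_nonneg _) two_ne_zero).1 h1)
      (Complex.arg_coe_angle_eq_iff.1 (Real.Angle.angle_eq_iff_two_pi_dvd_sub.2 ⟨-n, ?_⟩))
    field_simp at h3
    push_cast; linarith
  · have ea : ∀ z ∈ sphere (0 : ℂ) 1, a z = γ z := fun z hz => by
      simp [a, mem_sphere_zero_iff_norm.1 hz, fY.zero]
    refine Subset.antisymm ?_ fun y hy => ?_
    · rintro _ ⟨z, hz, rfl⟩
      rw [ea z hz]; exact inv x hx _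
    · obtain ⟨t, rfl⟩ := hs y hy
      have h1 : Complex.exp ((t * (2 * π) : ℝ) * Complex.I) ∈ sphere (0 : ℂ) 1 :=
        mem_sphere_zero_iff_norm.2 (Complex.norm_exp_ofReal_mul_I _)
      exact ⟨_, h1, by rw [ea _ h1, γe]; simp [p2]⟩

end Crest.Agent.X212.Sm25
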