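import Crest.Agent.X212.Sm25.Pert
import Crest.Agent.R096.Ed13_276

/-!
Row 212, layer H, package SM2 (helper25), part 2: rounding off a vertex of a PL homeomorphism of
the plane (from the edge theorem of row 96 in the product with a line).
-/

set_option autoImplicit false
set_option linter.style.longLine false
set_option linter.unusedSectionVars false

open Set Metric Filter Topology MeasureTheory
open scoped NNReal ContDiff

namespace Crest.Agent.X212.Sm25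

open Crest.Agent.R096.P5Spec_205 (HomeoOn MollAt EdgeGerm tubeMap Conic)

theorem det_block {E : Type*} [AddCommGroup E] [Module ℝ E] [Module.Finite ℝ E]
    (N : E × ℝ →ₗ[ℝ] E × ℝ) (hN : N (0, 1) = (0, 1)) :
    LinearMap.det N = LinearMap.det (LinearMap.fst ℝ E ℝ ∘ₗ N ∘ₗ LinearMap.inl ℝ E ℝ) := by
  classical
  let b := Module.Free.chooseBasis ℝ E
  let c := Module.Basis.singleton Unit ℝ
  have : LinearMap.toMatrix (b.prod c) (b.prod c) N = Matrix.fromBlocks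
      (LinearMap.toMatrix b b (LinearMap.fst ℝ E ℝ ∘ₗ N ∘ₗ LinearMap.inl ℝ E ℝ)) 0
      (Matrix.of fun _ j => (N (b j, 0)).2) 1 := by
    ext (i | i) (j | j) <;>
      simp [LinearMap.toMatrix_apply, Module.Basis.prod_apply, c, hN]
  rw [← LinearMap.det_toMatrix (b.prod c), this, Matrix.det_fromBlocks_zero₁₂,
    LinearMap.det_toMatrix, Matrix.det_one, mul_one]

theorem det0 {E : Type*} [NormedAddCommGroup E] [NormedSpace ℝ E] [FiniteDimensional ℝ E]
    [Nontrivial E] : (0 : E →L[ℝ] E).det = 0 :=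
  LinearMap.det_zero.trans (zero_pow Module.finrank_pos.ne')

variable {E : Type*} [NormedAddCommGroup E] [InnerProductSpace ℝ E] [MeasureSpace E]
  [BorelSpace E] [FiniteDimensional ℝ E] [(volume : Measure E).IsAddHaarMeasure]
  {F : Type*} [NormedAddCommGroup F] [InnerProductSpace ℝ F] [MeasureSpace F]
  [BorelSpace F] [FiniteDimensional ℝ F] [(volume : Measure F).IsAddHaarMeasure]

/-- projection to the first factor -/
noncomputable def pr (Λ : F ≃L[ℝ] E × ℝ) : F →L[ℝ] E :=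
  (ContinuousLinearMap.fst ℝ E ℝ).comp (Λ : F →L[ℝ] E × ℝ)
/-- height -/
noncomputable def ht (Λ : F ≃L[ℝ] E × ℝ) : F →L[ℝ] ℝ :=
  (ContinuousLinearMap.snd ℝ E ℝ).comp (Λ : F →L[ℝ] E × ℝ)
/-- inclusion of the first factor -/
noncomputable def inc (Λ : F ≃L[ℝ] E × ℝ) : E →L[ℝ] F :=
  (Λ.symm : E × ℝ →L[ℝ] F).comp (ContinuousLinearMap.inl ℝ E ℝ)
/-- the vertical vector -/
noncomputable def ee (Λ : F ≃L[ℝ] E × ℝ) : F := Λ.symm (0, 1)

variable (Λ : F ≃L[ℝ] E × ℝ)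

@[simp] theorem pr_inc (x : E) : pr Λ (inc Λ x) = x := by simp [pr, inc]
@[simp] theorem pr_ee : pr Λ (ee Λ) = 0 := by simp [pr, ee]
@[simp] theorem ht_inc (x : E) : ht Λ (inc Λ x) = 0 := by simp [ht, inc]
@[simp] theorem ht_ee : ht Λ (ee Λ) = 1 := by simp [ht, ee]

theorem symm_eq (x : E) (s : ℝ) : Λ.symm (x, s) = inc Λ x + s • ee Λ := by
  simp [inc, ee, ← map_smul, ← map_add]

theorem split (y : F) : inc Λ (pr Λ y) + ht Λ y • ee Λ = y := by
  rw [← symm_eq]; exact Λ.symm_apply_apply y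

theorem det_down {A : F →L[ℝ] F} (hA : A (ee Λ) = ee Λ) :
    A.det = ((pr Λ).comp (A.comp (inc Λ))).det := by
  have h1 := LinearMap.det_conj (A : F →ₗ[ℝ] F) Λ.toLinearEquiv
  rw [det_block _ (by
    have : Λ (A (Λ.symm (0, 1))) = (0, 1) := by
      rw [show Λ.symm (0, 1) = ee Λ from rfl, hA]; exact Λ.apply_symm_apply _
    exact this)] at h1
  exact h1.symm

theorem pr_surj : Function.Surjective ((pr Λ : F →L[ℝ] E) : F →ₗ[ℝ] E) := fun x =>
  ⟨inc Λ x, pr_inc Λ x⟩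

theorem meas_aux (Q : E → E) (x : E) (r : ℝ) {K : Set (E →L[ℝ] E)} (hK : IsCompact K) :
    MeasurableSet {z | z ∈ ball x r → fderiv ℝ Q z ∈ K} := by
  borelize (E →L[ℝ] E)
  have : {z | z ∈ ball x r → fderiv ℝ Q z ∈ K} = (ball x r)ᶜ ∪ fderiv ℝ Q ⁻¹' K := by
    ext z; simp only [mem_ofPred_eq, mem_union, mem_compl_iff, mem_preimage]; tauto
  rw [this]
  exact measurableSet_ball.compl.union (measurable_fderiv ℝ Q hK.isClosed.measurableSet)

theorem moll_down {T : F → F} (hT : ∀ y (s : ℝ), T (y + s • ee Λ) = T y + s • ee Λ) {x₀ : E}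
    (hm : MollAt T (inc Λ x₀)) : MollAt (fun x => pr Λ (T (inc Λ x))) x₀ := by
  obtain ⟨r, hr, K, k1, k2, k3, ⟨L, hL⟩, hae⟩ := hm
  have hne : Nontrivial F := ⟨ee Λ, 0, fun h => by simpa using congrArg (ht Λ) h⟩
  obtain ⟨c, hc, hb⟩ : ∃ c > 0, ∀ x ∈ ball x₀ c, ∀ s : ℝ, |s| < c →
      inc Λ x + s • ee Λ ∈ ball (inc Λ x₀) r := by
    have h1 : ContinuousAt (fun p : E × ℝ => inc Λ p.1 + p.2 • ee Λ) (x₀, 0) := by fun_prop
    obtain ⟨c, hc, h2⟩ := Metric.mem_nhds_iff.1 (h1 (show ball (inc Λ x₀) r ∈ 𝓝 _ by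
      simpa using ball_mem_nhds _ hr))
    refine ⟨c, hc, fun x hx s hs => h2 (a := (x, s)) ?_⟩
    rw [← ball_prod_same]
    exact ⟨hx, by simpa using hs⟩
  let D : (F →L[ℝ] F) →L[ℝ] (E →L[ℝ] E) :=
    ((ContinuousLinearMap.compL ℝ E F E) (pr Λ)).comp
      ((ContinuousLinearMap.compL ℝ E F F).flip (inc Λ))
  have hD : ∀ A, D A = (pr Λ).comp (A.comp (inc Λ)) := fun _ => rfl
  have c1 : IsCompact (D '' (K ∩ {A | A (ee Λ) = ee Λ})) :=
    (k2.inter_right (isClosed_eq (by fun_prop) continuous_const)).image D.continuous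
  refine ⟨c, hc, D '' (K ∩ {A | A (ee Λ) = ee Λ}), (k1.inter ?_).linear_image D.toLinearMap, c1,
    ?_, ⟨_, (pr Λ).lipschitz.comp_lipschitzOnWith (hL.comp (inc Λ).lipschitz.lipschitzOnWith
      fun x hx => by simpa using hb x hx 0 (by simpa using hc))⟩, ?_⟩
  · intro A hA B hB a b _ _ hab
    simp only [mem_ofPred_eq] at hA hB ⊢
    rw [add_apply, smul_apply, smul_apply, hA, hB, ← add_smul, hab, one_smul]
  · rintro _ ⟨A, hA, rfl⟩
    rw [hD, ← det_down Λ hA.2]; exact k3 A hA.1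
  refine (ae_comp_linearMap_mem_iff ((pr Λ : F →L[ℝ] E) : F →ₗ[ℝ] E) volume volume (pr_surj Λ)
    (meas_aux _ x₀ c c1)).1 ?_
  have h1 : ∀ᵐ y ∂(volume : Measure F), ∀ n : ℤ, y + (-(n * c)) • ee Λ ∈ ball (inc Λ x₀) r →
      fderiv ℝ T (y + (-(n * c)) • ee Λ) ∈ K := ae_all_iff.2 fun n =>
    (measurePreserving_add_right (volume : Measure F) _).quasiMeasurePreserving.ae hae
  filter_upwards [h1] with y hy hx
  have hx' : pr Λ y ∈ ball x₀ c := hx
  have h2 := hy ⌊ht Λ y / c⌋ (by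
    have a := Int.floor_le (ht Λ y / c)
    have b := Int.lt_floor_add_one (ht Λ y / c)
    rw [le_div_iff₀ hc] at a
    rw [div_lt_iff₀ hc] at b
    have := hb _ hx' (ht Λ y - ⌊ht Λ y / c⌋ * c) (by rw [abs_lt]; constructor <;> linarith)
    rwa [sub_eq_add_neg, add_smul, ← add_assoc, split] at this)
  rw [← fderiv_comp_add_right] at h2
  simp only [hT, fderiv_add_const] at h2
  have hd : DifferentiableAt ℝ T y := by
    by_contra hn
    have := k3 _ h2
    rw [fderiv_zero_of_not_differentiableAt hn] at this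
    exact this.ne' det0
  refine ⟨_, ⟨h2, ?_⟩, ?_⟩
  · have a1 : HasDerivAt (fun s : ℝ => y + s • ee Λ) (ee Λ) 0 := by
      simpa using ((hasDerivAt_id (0 : ℝ)).smul_const (ee Λ)).const_add y
    have a2 : HasFDerivAt T (fderiv ℝ T y) (y + (0 : ℝ) • ee Λ) := by simpa using hd.hasFDerivAt
    have a3 := a2.comp_hasDerivAt (0 : ℝ) a1
    have a4 : HasDerivAt (fun s : ℝ => T y + s • ee Λ) (ee Λ) 0 := by
      simpa using ((hasDerivAt_id (0 : ℝ)).smul_const (ee Λ)).const_add (T y)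
    exact a3.unique (by simpa only [Function.comp_def, hT] using a4)
  · have a2 : HasFDerivAt T (fderiv ℝ T y) (inc Λ (pr Λ y) + ht Λ y • ee Λ) := by
      rw [split]; exact hd.hasFDerivAt
    have a3 := (pr Λ).hasFDerivAt.comp _
      (a2.comp (pr Λ y) ((inc Λ).hasFDerivAt.add_const (ht Λ y • ee Λ)))
    have a4 : HasFDerivAt (fun x => pr Λ (T (inc Λ x))) (D (fderiv ℝ T y)) (pr Λ y) := by
      simpa [Function.comp_def, hT, hD] using a3
    exact a4.fderiv.symm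

theorem moll_up {Q : E → E} {y : F} (hm : MollAt Q (pr Λ y)) :
    MollAt (fun z => inc Λ (Q (pr Λ z)) + ht Λ z • ee Λ) y := by
  obtain ⟨r, hr, K, k1, k2, k3, ⟨L, hL⟩, hae⟩ := hm
  obtain ⟨c, hc, hb⟩ := Metric.mem_nhds_iff.1 ((pr Λ).continuous.continuousAt (x := y)
    (ball_mem_nhds _ hr))
  let D : (E →L[ℝ] E) →L[ℝ] (F →L[ℝ] F) :=
    ((ContinuousLinearMap.compL ℝ F E F) (inc Λ)).comp
      ((ContinuousLinearMap.compL ℝ F E E).flip (pr Λ))
  have hD : ∀ A, D A = (inc Λ).comp (A.comp (pr Λ)) := fun _ => rfl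
  let V : F →L[ℝ] F := (ht Λ).smulRight (ee Λ)
  have hdet : ∀ B, (V + D B).det = B.det := fun B => by
    rw [det_down Λ (by simp [V, hD])]
    congr 1
    ext x
    simp [V, hD]
  refine ⟨c, hc, (fun A => V + A) '' (D '' K), (k1.linear_image D.toLinearMap).translate V,
    (k2.image D.continuous).image (by fun_prop), ?_,
    ⟨_, ((inc Λ).lipschitz.comp_lipschitzOnWith (hL.comp (pr Λ).lipschitz.lipschitzOnWith
      hb)).add V.lipschitz.lipschitzOnWith⟩, ?_⟩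
  · rintro _ ⟨_, ⟨B, hB, rfl⟩, rfl⟩
    rw [hdet]; exact k3 B hB
  have h1 := (ae_comp_linearMap_mem_iff ((pr Λ : F →L[ℝ] E) : F →ₗ[ℝ] E) volume volume (pr_surj Λ)
    (meas_aux Q _ r k2)).2 hae
  filter_upwards [h1] with z hz hzb
  have h2 : fderiv ℝ Q (pr Λ z) ∈ K := hz (hb hzb)
  refine ⟨_, ⟨_, h2, rfl⟩, ?_⟩
  have hd : DifferentiableAt ℝ Q (pr Λ z) := by
    rcases subsingleton_or_nontrivial E with h | h
    · exact (differentiableAt_const (Q (pr Λ z))).congr_of_eventuallyEq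
        (Eventually.of_forall fun w => Subsingleton.elim _ _)
    by_contra hn
    have := k3 _ h2
    rw [fderiv_zero_of_not_differentiableAt hn] at this
    exact this.ne' det0
  have a3 := ((inc Λ).hasFDerivAt.comp _ (hd.hasFDerivAt.comp z (pr Λ).hasFDerivAt)).add
    V.hasFDerivAt
  exact (add_comm _ _).trans a3.fderiv.symm

theorem core_aux (h3 : Module.finrank ℝ F = 3) (hi : ∀ y, inner ℝ (ee Λ) y = ht Λ y)
    (hn : ∀ x, ‖inc Λ x‖ = ‖x‖) {K : E → E} (hK : IsHomeomorph K) (hc : Conic K)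
    (hpl : ∃ S : Finset (E →L[ℝ] E), ∀ x, ∃ A ∈ S, K x = A x) (hm : ∀ x, x ≠ 0 → MollAt K x) :
    ∃ Φ : E → E, IsHomeomorph Φ ∧ (∀ x, 1 ≤ ‖x‖ → Φ x = K x) ∧ ∀ x, MollAt Φ x := by
  classical
  let H : F → F := fun z => inc Λ (K (pr Λ z)) + ht Λ z • ee Λ
  have K0 : K 0 = 0 := by simpa using hc 0 le_rfl 0
  have He : H (ee Λ) = ee Λ := by simp [H, K0]
  have g : EdgeGerm H (ee Λ) := by
    refine ⟨?_, ?_, fun c c0 z => ?_, fun z s => ?_, ?_, fun z hz => moll_up Λ (hm _ fun h => ?_)⟩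
    · have := hi (ee Λ)
      rw [real_inner_self_eq_norm_sq, ht_ee] at this
      exact (pow_eq_one_iff_of_nonneg (norm_nonneg _) two_ne_zero).1 this
    · have : H = Λ.symm ∘ Prod.map K id ∘ Λ := funext fun z => (symm_eq Λ _ _).symm
      rw [this]
      exact Λ.symm.toHomeomorph.isHomeomorph.comp
        ((hK.prodMap IsHomeomorph.id).comp Λ.toHomeomorph.isHomeomorph)
    · simp only [H, map_smul, hc c c0, smul_add, smul_smul, smul_eq_mul]
    · rw [He]; simp [H, add_smul, add_assoc]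
    · obtain ⟨S, hS⟩ := hpl
      refine ⟨S.image fun B => (inc Λ).comp (B.comp (pr Λ)) + (ht Λ).smulRight (ee Λ), fun z => ?_⟩
      obtain ⟨A, hA, e⟩ := hS (pr Λ z)
      exact ⟨_, Finset.mem_image_of_mem _ hA, by simp [H, e]⟩
    · exact hz (ht Λ z) (by rw [← split Λ z, h]; simp)
  obtain ⟨ε, ε0, C, Q, q1, q2⟩ := R096.Ed_276.edge_germ g h3
  obtain ⟨t1, -, t3⟩ := q2 (fun _ => 1) (fun _ => zero_le_one) fun s t => by
    simpa using mul_nonneg ε0.le (abs_nonneg _)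
  set T := tubeMap H Q (ee Λ) fun _ => 1 with hT
  have e1 : ∀ y, T y = ht Λ y • ee Λ + Q (inc Λ (pr Λ y)) := fun y => by
    have : y - ht Λ y • ee Λ = inc Λ (pr Λ y) := by rw [sub_eq_iff_eq_add, split]
    simp [hT, tubeMap, hi, He, this]
  have e2 : ∀ y (s : ℝ), T (y + s • ee Λ) = T y + s • ee Λ := fun y s => by
    simp only [e1, map_add, map_smul, pr_ee, ht_ee, smul_zero, add_zero, smul_eq_mul, mul_one,
      add_smul]
    abel
  have e3 : ∀ y, pr Λ (T (inc Λ (pr Λ y))) = pr Λ (T y) := fun y => by simp [e1]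
  let Θ := t1.homeomorph T
  have e4 : ∀ y, Θ y = T y := fun _ => rfl
  refine ⟨fun x => pr Λ (T (inc Λ x)), ?_, fun x hx => ?_, fun x => moll_down Λ e2 (t3 _ one_pos)⟩
  · refine isHomeomorph_iff_exists_inverse.2 ⟨by have := t1.continuous; fun_prop,
      fun x => pr Λ (Θ.symm (inc Λ x)), fun x => ?_, fun x => ?_, by fun_prop⟩
    · have : Θ (inc Λ x + (-ht Λ (T (inc Λ x))) • ee Λ) = inc Λ (pr Λ (T (inc Λ x))) := by
        rw [e4, e2, neg_smul, ← sub_eq_add_neg, sub_eq_iff_eq_add, split]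
      show pr Λ (Θ.symm (inc Λ (pr Λ (T (inc Λ x))))) = x
      rw [← this, Θ.symm_apply_apply]; simp
    · show pr Λ (T (inc Λ (pr Λ (Θ.symm (inc Λ x))))) = x
      rw [e3, ← e4, Θ.apply_symm_apply, pr_inc]
  · show pr Λ (T (inc Λ x)) = K x
    rw [e1, pr_inc, q1 _ (by rw [hi, ht_inc]) (by rwa [hn])]
    simp [H]

/-- **rounding off a vertex in the plane** -/
theorem core2 (h2 : Module.finrank ℝ E = 2) {K : E → E} (hK : IsHomeomorph K) (hc : Conic K)
    (hpl : ∃ S : Finset (E →L[ℝ] E), ∀ x, ∃ A ∈ S, K x = A x) (hm : ∀ x, x ≠ 0 → MollAt K x) :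
    ∃ Φ : E → E, IsHomeomorph Φ ∧ (∀ x, 1 ≤ ‖x‖ → Φ x = K x) ∧ ∀ x, MollAt Φ x := by
  let Λ : WithLp 2 (E × ℝ) ≃L[ℝ] E × ℝ := WithLp.prodContinuousLinearEquiv 2 ℝ E ℝ
  refine core_aux Λ ?_ (fun y => ?_) (fun x => ?_) hK hc hpl hm
  · rw [Λ.toLinearEquiv.finrank_eq, Module.finrank_prod, h2, Module.finrank_self]
  · simp [ee, ht, Λ, WithLp.prod_inner_apply]
  · simp [inc, Λ]

end Crest.Agent.X212.Sm25
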