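import Crest.Agent.X212.Num57.Hod
import Crest.Agent.X212.Num57.Lt
import Crest.Agent.X212.Met55.Vol
import Crest.Agent.X212.Cyl58.Cap
import Crest.Agent.X212.Orx52.Pos

/-!
# X212 / Sm25 / Dbl (helper25): Poincaré duality for manifolds with ends, through the double

* `pos_flip`, `dbl X` (the double), `me_lat` : ends without `H²` give a basis with compact supports.
-/

set_option autoImplicit false
set_option linter.unusedSectionVars false

open Set Filter Topology Function Module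
open scoped ContDiff Manifold
open Crest.Agent.R208 Crest.Agent.R208.F Crest.Agent.X212.Dr59 Crest.Agent.X212.Int54
open Crest.Agent.X212.Cyl58 Crest.Agent.X212.Orx52
open Crest.Agent.X212.Glue52 (Pc)

noncomputable section

namespace Crest.Agent.X212.Sm25

section flip

variable {E : Type} [NormedAddCommGroup E] [NormedSpace ℝ E] [FiniteDimensional ℝ E]
  {H : Type} [TopologicalSpace H] {I : ModelWithCorners ℝ E H} [I.Boundaryless]
  {Y : Type} [TopologicalSpace Y] [ChartedSpace H Y] [IsManifold I ∞ Y]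

theorem jac_flip (z : Y × ℝ) :
    jac (mf (I.prod 𝓘(ℝ, ℝ)) (I.prod 𝓘(ℝ, ℝ)) (fun p : Y × ℝ => (p.1, -p.2)) z) = -1 := by
  have e := tp_ld ((isOE_flip (Diffeomorph.refl I Y ∞)).loc z) (pr (fun _ => vol0 E) oR)
  have n : pm 𝓘(ℝ, ℝ) 𝓘(ℝ, ℝ) (fun t : ℝ => -t) oR = -oR := funext fun t => by
    rw [pm_oR (isOE_neg.contMDiff.mdifferentiableAt ne0), Pi.neg_apply, oR_eq, df, mf_eq_fderiv, fderiv_fun_neg,
      fderiv_fun_id, ← map_neg]
    rfl
  have k := pm_prodMap (K := I) (I := I) (f := id) (z := z) mdifferentiableAt_id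
    (isOE_neg.contMDiff.mdifferentiableAt ne0) (fun _ => vol0 E) oR
  rw [pm_id, n, pr_neg_right] at k
  have k0 : tp (E × ℝ) (pr (fun _ : Y => vol0 E) oR z) ≠ 0 :=
    tp_pr_ne (by rw [tp_vol0]; exact one_ne_zero) (ori_oR.ne _)
  have e' := (congrArg (tp (E × ℝ)) k).symm.trans e
  refine (mul_right_cancel₀ k0 ?_).symm
  rw [neg_one_mul, ← map_neg]
  exact e'.trans (by simp only [pr, oR_eq]; rfl)

/-- the reflection of a cylinder reverses every orientation -/
theorem pos_flip {w : Y × ℝ → Ext (E × ℝ)} (h : Ori (I.prod 𝓘(ℝ, ℝ)) w) :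
    Pos (I.prod 𝓘(ℝ, ℝ)) (I.prod 𝓘(ℝ, ℝ)) (fun p => (p.1, -p.2)) univ w (-w) := fun z _ => by
  have l := (isOE_flip (Diffeomorph.refl I Y ∞)).loc
  refine pos_of_pt (s := {z.1} ×ˢ univ) (isPreconnected_singleton.prod isPreconnected_univ) (oriOn h _)
    (oriOn (ori_neg h) univ) (fun y _ => l y) (mapsTo_univ _ _) (y := (z.1, 0)) ⟨rfl, trivial⟩ ?_ z ⟨rfl, trivial⟩
  rintro _ rfl
  refine lt_of_lt_of_eq (mul_self_pos.2 (h.ne (z.1, 0))) (congrArg (· * _) ((tp_ld (l _) (-w)).trans ?_).symm)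
  refine (congrArg (· * _) (jac_flip _)).trans ?_
  simp

end flip

section closed

variable {E : Type} [NormedAddCommGroup E] [NormedSpace ℝ E] [FiniteDimensional ℝ E]
  [MeasurableSpace E] [BorelSpace E]
  {H : Type} [TopologicalSpace H] {I : ModelWithCorners ℝ E H} [I.Boundaryless]
  {M : Type} [TopologicalSpace M] [ChartedSpace H M] [IsManifold I ∞ M]
  [MeasurableSpace M] [BorelSpace M] [SecondCountableTopology M] [T2Space M] [CompactSpace M]

open Num57 in
theorem lat_closed {v : M → Ext E} (h4 : finrank ℝ E = 4) (hv : Ori I v) :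
    ∃ (n : ℕ) (e : Fin n → M → Ext E) (d : Fin n → ℝ), Lat I v univ univ e (Matrix.diagonal d) := by
  obtain ⟨n, F, hF⟩ := Met55.exists_fr (I := I) (M := M)
  have k : OK F (oc F.e (volF v F.e)) :=
    ⟨h4, hF, fun a b c d => oc_sm a b c d F.toPre (hv.vol F.toPre).sm, fun x =>
      ⟨fr_pr F x, by rw [fr_rk, h4]; rfl, fun a b c d => oc_12 a b c d x, fun a b c d => oc_23 a b c d x,
        fun a b c d => oc_34 a b c d x, fun a b c d => oc_P a b c d x, (hv.unit_vol F.toPre).oc_nm x h4⟩⟩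
  have s := (sameOn_vol_oc F h4 (hv.unit_vol F.toPre)).trans (hv.sameOn_volF (pre_sp F.toPre) _).symm
  have := k.fin2
  choose f hf hf' using fun i => exists_cls (finBasis ℝ (HR I 2 (univ : Set M)) i)
  refine ⟨_, lat_diag (lat_of_basis hv isOpen_univ Subset.rfl (finBasis ℝ _)
    (fun i => (cs_indicator isOpen_univ (hf i) isCompact_univ Subset.rfl fun x hx h' => (h' hx).elim))
    (fun i => (cls_congr fun x hx => indicator_of_mem hx _).trans (hf' i)) fun a ha h0 =>
      cls_eq_zero.1 (k.Q_nondeg (y := (ha.on univ).cls) fun z => ?_))⟩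
  obtain ⟨c, hc, rfl⟩ := exists_cls z
  rw [Q_ori k.ori hv s, Q_symm, ← h0 c hc]
  rfl

end closed

variable {V W : Type} [NormedAddCommGroup V] [NormedSpace ℝ V] [FiniteDimensional ℝ V]
  [NormedAddCommGroup W] [NormedSpace ℝ W] [FiniteDimensional ℝ W] (X : ME V W)

/-- the double -/
def dbl : JG V W Bool X.α where
  M _ := X
  s a := ⟨false, a⟩
  t a := ⟨true, a⟩
  s_inj _ _ h := eq_of_heq (Sigma.mk.inj h).2
  t_inj _ _ h := eq_of_heq (Sigma.mk.inj h).2
  s_ne_t _ _ h := Bool.false_ne_true (congrArg Sigma.fst h)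
  f _ := Diffeomorph.refl _ _ _

/-- the two copies -/
def di (b : Bool) : X.P.M → (dbl X).X := (dbl X).inc b

/-- the necks -/
def dn (a : X.α) : (X.Y a).M × ℝ → (dbl X).X := (dbl X).neck a

theorem dn_oe (a : X.α) : IsOE ((X.Y a).I.prod 𝓘(ℝ, ℝ)) 𝓘(ℝ, V) (dn X a) := (dbl X).isOE_neck a

theorem dbl_oe (b : Bool) : IsOE X.P.I 𝓘(ℝ, V) (di X b) :=
  (dbl X).isOE_inc fun _ h h' => Bool.false_ne_true (h.trans h'.symm)

theorem dbl_eq {p q : X.P.M} (h : di X false p = di X true q) :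
    ∃ a z, X.j a z = p ∧ X.j a (z.1, -z.2) = q := by
  rcases (dbl X).gr.inc_eq_inc.1 h with h | ⟨a, z, h1, h2⟩ | ⟨a, z, h1, -⟩
  · exact (Bool.false_ne_true (congrArg Sigma.fst h)).elim
  · exact ⟨a, z, (eq_of_heq (Sigma.mk.inj h1).2).symm, (eq_of_heq (Sigma.mk.inj h2).2).symm⟩
  · exact (Bool.false_ne_true (congrArg Sigma.fst h1).symm).elim

instance : CompactSpace (dbl X).X := (dbl X).compactSpace fun
  | ⟨false, a⟩, h => h.1 a rfl
  | ⟨true, a⟩, h => h.2 a rfl

theorem dbl_ori {o : X.P.M → Ext X.P.E} (ho : Ori X.P.I o) :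
    ∃ O, Ori 𝓘(ℝ, V) O ∧ SameOn (pm X.P.I 𝓘(ℝ, V) (di X false) O) o univ := by
  have := Orx52.sigmaCompact 𝓘(ℝ, V) (dbl X).X
  obtain ⟨O, h1, -, h2, -⟩ := exists_ori_two (dbl_oe X false).loc (dbl_oe X true).loc (dbl_oe X false).inj
    (dbl_oe X true).inj (fun x => by
      obtain ⟨_ | _, p, rfl⟩ := (dbl X).surj x
      exacts [.inl ⟨p, rfl⟩, .inr ⟨p, rfl⟩]) ho (ori_neg ho) fun p q h => by
    obtain ⟨a, z, rfl, rfl⟩ := dbl_eq X h
    have l := (X.oe a).loc
    have k := sign_of_trans (q := di X false ∘ X.j a) (q' := di X true ∘ X.j a)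
      (ld_comp ((dbl_oe X true).loc _) (l _)) ((isOE_flip (Diffeomorph.refl _ _ ∞)).loc z)
      (.of_forall fun y => ((dbl X).inc_t a y).symm) (pos_flip (ori_pm ho l) z trivial)
    rw [mf_comp (((dbl_oe X false).loc _).mdifferentiableAt ne0) ((l _).mdifferentiableAt ne0),
      mf_comp (((dbl_oe X true).loc _).mdifferentiableAt ne0) ((l _).mdifferentiableAt ne0),
      jac_comp (rk_ld (l z)) (rk_ld ((dbl_oe X false).loc (X.j a z))),
      jac_comp (rk_ld (l z)) (rk_ld ((dbl_oe X false).loc (X.j a z))), ← pm_neg, tp_ld (l _), tp_ld (l _)] at k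
    have r : ∀ a b c d e f : ℝ, 0 < a * b * (a * c) * (d * e * (d * f)) → 0 < b * c * (e * f) :=
      fun a b c d e f h => pos_of_mul_pos_left (b := a * d * (a * d)) (by linarith) (mul_self_nonneg _)
    exact r _ _ _ _ _ _ k
  exact ⟨O, h1, h2⟩

/-- **a manifold whose ends have no `H²` has a basis with compact supports** -/
theorem me_lat [MeasurableSpace X.P.E] [BorelSpace X.P.E] [MeasurableSpace X.P.M] [BorelSpace X.P.M]
    (h4 : finrank ℝ V = 4) {o : X.P.M → Ext X.P.E} (ho : Ori X.P.I o)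
    (hz : ∀ a, HZ (X.Y a).I 2 (univ : Set (X.Y a).M)) :
    ∃ (n : ℕ) (e : Fin n → X.P.M → Ext X.P.E) (d : Fin n → ℝ), Lat X.P.I o univ univ e (Matrix.diagonal d) := by
  borelize V (dbl X).X
  obtain ⟨O, h1, h2⟩ := dbl_ori X ho
  have u : range (di X false) ∪ range (di X true) = univ := eq_univ_of_forall fun x => by
    obtain ⟨_ | _, p, rfl⟩ := (dbl X).surj x
    exacts [.inl ⟨p, rfl⟩, .inr ⟨p, rfl⟩]
  have v : range (di X false) ∩ range (di X true) = ⋃ a ∈ univ, range (dn X a) := by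
    refine Subset.antisymm ?_ (iUnion₂_subset fun a _ => range_subset_iff.2 fun z =>
      ⟨⟨_, (dbl X).inc_s a z⟩, _, (dbl X).inc_t a z⟩)
    rintro _ ⟨⟨p, rfl⟩, q, h⟩
    obtain ⟨a, z, rfl, -⟩ := dbl_eq X h.symm
    exact mem_biUnion (mem_univ a) ⟨z, rfl⟩
  obtain ⟨_, _, _, L⟩ := lat_closed h4 h1
  rw [← u] at L
  have w : ∀ a, HZ 𝓘(ℝ, V) 2 (range (dn X a)) := fun a => by
    rw [← image_univ, hz_oe (dn_oe X a).loc (dn_oe X a).inj isOpen_univ, ← univ_prod_univ]
    exact (hz a).prod_convex isOpen_univ isOpen_univ convex_univ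
  obtain ⟨n, e, d, L⟩ := Num57.lat_split L (dbl_oe X false).isOpen_range (dbl_oe X true).isOpen_range
    (u ▸ isCompact_univ) (v ▸ Num57.hz_biUnion (toFinite _) (fun a _ => (dn_oe X a).isOpen_range)
      (fun _ _ _ _ h => (dbl X).disjoint_neck h) fun a _ => w a)
  exact ⟨n, _, d, ((Num57.lat_pull X.P.L.toLinearEquiv.finrank_eq.symm (dbl_oe X false) L).mono
    (subset_univ _) Subset.rfl).of_same ho h2.symm⟩

end Crest.Agent.X212.Sm25
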