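import Crest.Agent.X212.Sm25.Cor
import Crest.Agent.X212.Sph1.Main

/-!
Row 212, layer H, package FILL (helper25), part 3: a ball with one corner circle carries a gradient
like field without zeros which agrees with the given one near the boundary.
-/

set_option autoImplicit false
set_option linter.style.longLine false
set_option linter.unusedSectionVars false

open Set Filter Topology Function Metric
open scoped ContDiff Manifold
open Crest.Agent.X212.Glue52 Crest.Agent.X212.Glb47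

noncomputable section

namespace Crest.Agent.X212.Sm25

/-- the filling theorem with an arbitrary model, as an inverse chart -/
theorem ball3 {F : Type*} [NormedAddCommGroup F] [NormedSpace ℝ F] [FiniteDimensional ℝ F]
    (hd : Module.finrank ℝ E3 = Module.finrank ℝ F) {B S : Set F} {e : F → E3} {N : Set E3}
    (hB : IsCompact B) (hc : Convex ℝ B) (hne : (interior B).Nonempty) (hS : IsCompact S)
    (hBS : frontier B ⊆ S) (hSB : ∀ x ∈ S, x ∉ interior B) (hi : ∀ x ∈ S, Imm e x) (inj : InjOn e S)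
    (hN : IsCompact N) (hf : frontier N ⊆ e '' S)
    (side : ∀ x ∈ S, ∀ᶠ x' in 𝓝 x, e x' ∈ N ↔ x' ∈ B) :
    ∃ H : E3 → F, (∀ y ∈ N, Imm H y) ∧ ∀ x ∈ S, ∀ᶠ x' in 𝓝 x, H (e x') = x' := by
  let J : E3 ≃L[ℝ] F := .ofFinrankEq hd
  have iJ : ∀ x, Imm J x := fun x => ⟨Eventually.of_forall fun _ => J.contDiff.contDiffAt, by
    rw [J.fderiv]; exact J.injective⟩
  obtain ⟨V, V1, V2, V3⟩ := inj.exists_isOpen_superset hS (fun x hx => (hi x hx).cd.continuousAt)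
    fun x hx => (ld_inj ((hi x hx).ld hd.symm)).1
  let Sh := V ∩ interior {x | Imm e x ∧ (e x ∈ N ↔ x ∈ B)}
  have s1 : S ⊆ Sh := fun x hx =>
    ⟨V2 hx, mem_interior_iff_mem_nhds.2 ((hi x hx).ev.and (side x hx))⟩
  have s2 : IsOpen (J ⁻¹' Sh) := (V1.inter isOpen_interior).preimage J.continuous
  have s3 : ∀ x ∈ J ⁻¹' Sh, Sm (e ∘ J) x := fun x hx =>
    sm_iff_ld.2 (((interior_subset hx.2).1.comp (iJ x)).ld rfl)
  have s4 : interior (J ⁻¹' B) = J ⁻¹' interior B := (J.toHomeomorph.preimage_interior B).symm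
  have s5 : frontier (J ⁻¹' B) ⊆ J ⁻¹' Sh := fun x hx =>
    s1 (hBS ((J.toHomeomorph.preimage_frontier B).symm.subset hx))
  obtain ⟨g, K, a1, a2, a3, a4, a5, a6⟩ := Sph1.sph3 (B := J ⁻¹' B) (e := e ∘ J)
    (J.toHomeomorph.isCompact_preimage.2 hB) (hc.linear_preimage (J : E3 →ₗ[ℝ] F))
    (by rw [s4]; exact hne.preimage J.surjective) s2 s5
    ⟨fun x hx => (s3 x hx).1.self_of_nhds.contDiffWithinAt, fun x hx => (s3 x hx).2⟩
    (fun x hx y hy h => J.injective (V3 hx.1 hy.1 h)) hN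
    (fun y hy => by
      obtain ⟨x, hx, rfl⟩ := hf hy
      exact ⟨J.symm x, by simpa using s1 hx, by simp⟩)
    fun x hx => (interior_subset hx.2).2
  have o : ∀ x ∈ J ⁻¹' B ∪ J ⁻¹' Sh, J ⁻¹' B ∪ J ⁻¹' Sh ∈ 𝓝 x := fun x hx => by
    by_cases h : x ∈ J ⁻¹' Sh
    · exact mem_of_superset (s2.mem_nhds h) subset_union_right
    · refine mem_of_superset (mem_interior_iff_mem_nhds.1 ?_) subset_union_left
      by_contra h'
      exact h (s5 ⟨subset_closure (hx.resolve_right h), h'⟩)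
  refine ⟨J ∘ invFunOn g (J ⁻¹' B ∪ J ⁻¹' Sh), fun y hy => ?_, fun x hx => ?_⟩
  · obtain ⟨x, hx, rfl⟩ := a6.symm.subset hy
    refine .of_ld (sm_iff_ld.1 ⟨?_, a3.2 x (.inl hx)⟩) ((iJ x).congr ?_)
    · filter_upwards [eventually_mem_nhds_iff.2 (o x (.inl hx))] with u hu using a3.1.contDiffAt hu
    · filter_upwards [o x (.inl hx)] with u hu using congrArg J (a4.leftInvOn_invFunOn hu)
  · have h1 : J.symm x ∈ Kᶜ := fun h => hSB x hx (by simpa [s4] using a2 h)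
    filter_upwards [J.symm.continuous.continuousAt.eventually (a1.isClosed.isOpen_compl.mem_nhds h1),
      (V1.inter isOpen_interior).mem_nhds (s1 hx)] with u h2 h3
    have h4 : e u = g (J.symm u) := by rw [a5 _ h2]; simp
    rw [h4, comp_apply, a4.leftInvOn_invFunOn (.inr (by rwa [mem_preimage, J.apply_symm_apply])), J.apply_symm_apply]

theorem sig_der (x : ℝ) : HasDerivAt expNegInvGlue (x⁻¹ ^ 2 * expNegInvGlue x) x := by
  simpa using expNegInvGlue.hasDerivAt_polynomial_eval_inv_mul 1 x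

theorem sig_mul {x a : ℝ} (h : 0 < x → 0 < a) : 0 ≤ x⁻¹ ^ 2 * expNegInvGlue x * a ∧
    (0 < x → 0 < x⁻¹ ^ 2 * expNegInvGlue x * a) := by
  have h1 : 0 < x → 0 < x⁻¹ ^ 2 * expNegInvGlue x * a := fun hx => by
    have := expNegInvGlue.pos_of_pos hx
    have := h hx
    positivity
  refine ⟨?_, h1⟩
  rcases le_or_gt x 0 with hx | hx
  · simp [expNegInvGlue.zero_of_nonpos hx]
  · exact (h1 hx).le

/-- the data of the last stage -/
structure Dat (U : Set E3) (v : E3 → E3) (p m : E3 → ℝ) (c₀ c : ℝ) : Prop where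
  op : IsOpen U
  sv : ContDiffOn ℝ ∞ v U
  sp : ContDiffOn ℝ ∞ p U
  sm : ContDiffOn ℝ ∞ m U
  lt : c₀ < c
  cpt : IsCompact {y | y ∈ U ∧ p y ≤ c ∧ m y ≤ c}
  vp : ∀ y ∈ U, c₀ < p y → 0 < fderiv ℝ p y (v y)
  vm : ∀ y ∈ U, c₀ < m y → fderiv ℝ m y (v y) < 0
  tr : ∀ y ∈ U, p y = c → m y = c → ∃ w, 0 < fderiv ℝ p y w ∧ 0 < fderiv ℝ m y w

/-- the filling -/
def Fil (U : Set E3) (v : E3 → E3) (p m : E3 → ℝ) (c : ℝ) : Prop :=
  ∃ (v' : E3 → E3) (t : E3 → ℝ) (K : Set E3), IsCompact K ∧ (∀ y ∈ K, y ∈ U ∧ p y < c ∧ m y < c) ∧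
    ContDiffOn ℝ ∞ v' U ∧ (∀ y ∉ K, v' y = v y) ∧ ContDiffOn ℝ ∞ t U ∧
    ∀ y ∈ U, 0 < fderiv ℝ t y (v' y)

variable {U : Set E3} {v : E3 → E3} {p m : E3 → ℝ} {c₀ c : ℝ}

theorem cpt_sub {N : Set E3} (hN : IsCompact N) {f : E3 → ℝ} (hf : ContinuousOn f N) {s : Set ℝ}
    (hs : IsClosed s) : IsCompact (N ∩ f ⁻¹' s) :=
  hN.of_isClosed_subset (hf.preimage_isClosed_of_isClosed hN.isClosed hs) inter_subset_left

theorem conv_pos (l : E3 →L[ℝ] ℝ) (q : Prop) : Convex ℝ {w | q → 0 < l w} := by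
  by_cases h : q
  · simp only [h, true_imp_iff]
    exact (convex_Ioi (0 : ℝ)).linear_preimage l.toLinearMap
  · simpa [h] using convex_univ

theorem conv_eq (l : E3 →L[ℝ] ℝ) (q : Prop) (a : ℝ) : Convex ℝ {w | q → l w = a} := by
  by_cases h : q
  · simp only [h, true_imp_iff]
    exact (convex_singleton a).linear_preimage l.toLinearMap
  · simpa [h] using convex_univ

theorem Dat.finish (D : Dat U v p m c₀ c) {τ : E3 → ℝ}
    (hτ : ∀ y ∈ U, p y ≤ c → m y ≤ c → (∀ᶠ u in 𝓝 y, ContDiffAt ℝ ∞ τ u) ∧ ∃ w, 0 < fderiv ℝ τ y w ∧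
      (p y = c → 0 < fderiv ℝ p y w) ∧ (m y = c → fderiv ℝ m y w < 0)) : Fil U v p m c := by
  set N := {y | y ∈ U ∧ p y ≤ c ∧ m y ≤ c} with hN
  have NU : N ⊆ U := fun y hy => hy.1
  have ev : ∀ {f : E3 → ℝ} {x w : E3}, x ∈ U → ContDiffOn ℝ ∞ f U → f x ≤ c → ∀ s : ℝ,
      (f x = c → 0 < s * fderiv ℝ f x w) → ∀ᶠ y in 𝓝 x, c ≤ f y → 0 < s * fderiv ℝ f y w :=
    fun {f x w} hx hf h1 s h2 => by
      rcases h1.eq_or_lt with h | h
      · filter_upwards [(continuousAt_const.mul ((cd_app D.op hf (g := fun _ => w) contDiffOn_const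
          ).continuousOn.continuousAt (D.op.mem_nhds hx))).eventually (lt_mem_nhds (h2 h))]
          with y hy _ using hy
      · filter_upwards [(hf.continuousOn.continuousAt (D.op.mem_nhds hx)).eventually (gt_mem_nhds h)]
          with y hy h' using absurd hy h'.not_gt
  obtain ⟨u, -, u1, -, -, u2⟩ := exists_field D.cpt (t := fun y => {w | True → 0 < fderiv ℝ τ y w} ∩
    ({w | c ≤ p y → 0 < fderiv ℝ p y w} ∩ {w | c ≤ m y → 0 < (-fderiv ℝ m y) w}))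
    (fun y => (conv_pos _ _).inter ((conv_pos _ _).inter (conv_pos _ _))) fun x hx => by
      obtain ⟨h1, w, h2, h3, h4⟩ := hτ x hx.1 hx.2.1 hx.2.2
      have h5 : ContinuousAt (fun y => fderiv ℝ τ y w) x :=
        (h1.self_of_nhds.fderiv_right (m := 0) (by simp)).continuousAt.clm_apply continuousAt_const
      exact ⟨_, (h5.eventually (lt_mem_nhds h2)).and ((ev (w := w) hx.1 D.sp hx.2.1 1 (by simpa using h3)).and
        (ev (w := w) hx.1 D.sm hx.2.2 (-1) (by simpa using h4))), fun _ => w, contDiffOn_const,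
        fun y hy => ⟨fun _ => hy.1, by simpa using hy.2.1, by simpa using hy.2.2⟩⟩
  have u3 := fun y (hy : y ∈ N) => (show ∀ᶠ z in 𝓝 y, _ from nhds_le_nhdsSet hy u2).self_of_nhds
  have lev : ∀ {f : E3 → ℝ}, ContDiffOn ℝ ∞ f U → (∀ y ∈ N, f y ≤ c) → ∀ s : ℝ,
      (∀ y ∈ N, c ≤ f y → 0 < s * fderiv ℝ f y (u y)) →
      ∃ c' < c, ∀ y ∈ N, c' < f y → 0 < s * fderiv ℝ f y (u y) := fun {f} hf h1 s h2 => by
    obtain ⟨a, a1, a2⟩ := (cpt_sub D.cpt ((continuousOn_const (c := s)).mul ((cd_app D.op hf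
      u1.contDiffOn).continuousOn.mono NU)) isClosed_Iic).exists_forall_le' (f := fun y => -f y)
      (a := -c) ((hf.continuousOn.mono fun y hy => hy.1.1).neg) fun y hy =>
        neg_lt_neg ((h1 y hy.1).lt_of_ne fun h => (h2 y hy.1 h.ge).not_ge hy.2)
    exact ⟨-a, by linarith, fun y hy h => not_le.1 fun h' => by linarith [a2 y ⟨hy, h'⟩]⟩
  obtain ⟨c1, c1l, h1⟩ := lev D.sp (fun y hy => hy.2.1) 1 fun y hy => by simpa using (u3 y hy).2.1
  obtain ⟨c2, c2l, h2⟩ := lev D.sm (fun y hy => hy.2.2) (-1) fun y hy => by simpa using (u3 y hy).2.2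
  set c' := max c₀ (max c1 c2) with hc'
  have l0 : c₀ ≤ c' := le_max_left _ _
  have l1 : c1 ≤ c' := (le_max_left _ _).trans (le_max_right _ _)
  have l2 : c2 ≤ c' := (le_max_right _ _).trans (le_max_right _ _)
  have l3 : c' < c := max_lt D.lt (max_lt c1l c2l)
  obtain ⟨χ, K, k1, k2, k3, k4, k5, k6⟩ := exists_bump
    (cpt_sub (cpt_sub D.cpt (D.sp.continuousOn.mono NU) (isClosed_Iic (a := c')))
      (D.sm.continuousOn.mono fun y hy => hy.1.1) (isClosed_Iic (a := c')))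
    ((D.sp.continuousOn.isOpen_inter_preimage D.op (isOpen_Iio (a := c))).inter
      (D.sm.continuousOn.isOpen_inter_preimage D.op (isOpen_Iio (a := c))))
    fun y hy => ⟨⟨hy.1.1.1, l3.trans_le' hy.1.2⟩, hy.1.1.1, l3.trans_le' hy.2⟩
  have KN : K ⊆ N := fun y hy => ⟨(k3 hy).1.1, le_of_lt (k3 hy).1.2, le_of_lt (k3 hy).2.2⟩
  let v' : E3 → E3 := fun y => (1 - χ y) • v y + χ y • u y
  have s1 : ContDiffOn ℝ ∞ v' U :=
    ((contDiffOn_const.sub k1.contDiffOn).smul D.sv).add (k1.smul u1).contDiffOn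
  have s2 : ∀ y ∉ K, v' y = v y := fun y hy => by simp [v', k5 y hy]
  have s3 : ∀ (l : E3 →L[ℝ] ℝ) y, 0 < l (v y) → (y ∈ N → 0 < l (u y)) → 0 < l (v' y) :=
    fun l y a1 a2 => by
      by_cases hy : y ∈ K
      · exact conv_pos l True (fun _ => a1) (fun _ => a2 (KN hy)) (sub_nonneg.2 (k4 y).2) (k4 y).1
          (sub_add_cancel _ _) trivial
      · rwa [s2 y hy]
  let f : E3 → ℝ := fun y => expNegInvGlue (p y - c') - expNegInvGlue (m y - c')
  have f1 : ContDiffOn ℝ ∞ f U :=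
    (expNegInvGlue.contDiff.comp_contDiffOn (D.sp.sub contDiffOn_const)).sub
      (expNegInvGlue.contDiff.comp_contDiffOn (D.sm.sub contDiffOn_const))
  have f2 : ∀ y ∈ U, 0 ≤ fderiv ℝ f y (v' y) ∧ (c' < p y ∨ c' < m y → 0 < fderiv ℝ f y (v' y)) :=
    fun y hy => by
      have d := fun {g : E3 → ℝ} (hg : ContDiffOn ℝ ∞ g U) => (sig_der (g y - c')).comp_hasFDerivAt y
        (((hg.contDiffAt (D.op.mem_nhds hy)).differentiableAt (by simp)).hasFDerivAt.sub_const c')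
      have b1 := sig_mul (x := p y - c') fun h => s3 _ y (D.vp y hy (by linarith))
        fun h' => by simpa using h1 y h' (by linarith)
      have b2 := sig_mul (x := m y - c') fun h => s3 (-fderiv ℝ m y) y
        (by simpa using D.vm y hy (by linarith)) fun h' => by simpa using h2 y h' (by linarith)
      rw [show fderiv ℝ f y = _ from ((d D.sp).sub (d D.sm)).fderiv]
      simp only [ContinuousLinearMap.sub_apply, ContinuousLinearMap.smul_apply, smul_eq_mul,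
        ContinuousLinearMap.neg_apply] at b1 b2 ⊢
      exact ⟨by linarith [b1.1, b2.1], fun h => h.elim
        (fun h => by linarith [b1.2 (by linarith), b2.1]) fun h => by linarith [b1.1, b2.2 (by linarith)]⟩
  have z1 : ∀ y ∉ K, (fun y => χ y * τ y) =ᶠ[𝓝 y] fun _ => 0 := fun y hy => by
    filter_upwards [k2.isClosed.isOpen_compl.mem_nhds hy] with z hz using by simp [k5 z hz]
  have g1 : ContDiff ℝ ∞ fun y => χ y * τ y := contDiff_iff_contDiffAt.2 fun y => by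
    by_cases hy : y ∈ K
    · exact k1.contDiffAt.mul (hτ y (KN hy).1 (KN hy).2.1 (KN hy).2.2).1.self_of_nhds
    · exact contDiffAt_const.congr_of_eventuallyEq (z1 y hy)
  have f3 : ∀ y ∈ U, y ∉ interior {y | χ y = 1} → 0 < fderiv ℝ f y (v' y) := fun y hy h =>
    (f2 y hy).2 (by
      by_contra! h'
      exact h (mem_interior_iff_mem_nhds.2 (nhds_le_nhdsSet (by exact ⟨⟨⟨hy, by linarith [h'.1],
        by linarith [h'.2]⟩, h'.1⟩, h'.2⟩) k6)))
  obtain ⟨A, hA⟩ := (k2.diff (isOpen_interior (s := {y | χ y = 1}))).bddAbove_image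
    (f := fun y => -fderiv ℝ (fun y => χ y * τ y) y (v' y) / fderiv ℝ f y (v' y))
    (((cd_app D.op g1.contDiffOn s1).continuousOn.mono fun y hy => (KN hy.1).1).neg.div
      ((cd_app D.op f1 s1).continuousOn.mono fun y hy => (KN hy.1).1)
      fun y hy => (f3 y (KN hy.1).1 hy.2).ne')
  refine ⟨v', fun y => (|A| + 1) * f y + χ y * τ y, K, k2, fun y hy => ⟨(k3 hy).1.1, (k3 hy).1.2,
    (k3 hy).2.2⟩, s1, s2, (contDiffOn_const.mul f1).add g1.contDiffOn, fun y hy => ?_⟩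
  rw [((((f1.contDiffAt (D.op.mem_nhds hy)).differentiableAt (by simp)).hasFDerivAt.const_mul
    (|A| + 1)).fun_add (g1.differentiable (by simp) y).hasFDerivAt).fderiv]
  simp only [ContinuousLinearMap.add_apply, ContinuousLinearMap.smul_apply, smul_eq_mul]
  have A0 := abs_nonneg A
  by_cases h : y ∈ interior {y | χ y = 1}
  · have e1 : χ y = 1 := interior_subset (s := {y | χ y = 1}) h
    have e2 : (fun y => χ y * τ y) =ᶠ[𝓝 y] τ := by
      filter_upwards [mem_interior_iff_mem_nhds.1 h] with z hz using by rw [hz, one_mul]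
    have e3 := (u3 y (KN (by_contra fun h' => by simpa [e1] using k5 y h'))).1 trivial
    have e4 : v' y = u y := by simp [v', e1]
    rw [e2.fderiv_eq]
    nlinarith [(f2 y hy).1, e4 ▸ e3]
  · have e1 := f3 y hy h
    by_cases hK : y ∈ K
    · have e2 := (div_le_iff₀ e1).1 (hA ⟨y, ⟨hK, h⟩, rfl⟩)
      nlinarith [le_abs_self A]
    · rw [(z1 y hK).fderiv_eq]
      simpa using mul_pos (by linarith) e1

theorem Fw.lens {X : E3 → E3} {φ : ℝ → E3 → E3} (h : Fw X φ) {g : ℂ → E3} {l : E3 → ℝ} {κ : ℝ}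
    {x : ℂ × ℝ} (hg : Imm g x.1) (h1 : ∀ᶠ z in 𝓝 x.1, l (g z) = c) (hκ : κ ≠ 0)
    (h2 : ∀ᶠ y in 𝓝 (g x.1), DifferentiableAt ℝ l y ∧ fderiv ℝ l y (X y) = κ) {τ : ℂ → ℝ}
    (hτ : ContDiff ℝ ∞ τ) (h0 : x.2 + τ x.1 = 0) :
    Imm (fun q : ℂ × ℝ => φ (q.2 + τ q.1) (g q.1)) x ∧
      ∀ᶠ q : ℂ × ℝ in 𝓝 x, l (φ (q.2 + τ q.1) (g q.1)) = c + (q.2 + τ q.1) * κ := by
  have c1 : ContDiff ℝ ∞ fun q : ℂ × ℝ => q.2 + τ q.1 := by fun_prop
  constructor
  · refine (h.thick hg (fderiv_zero_of_const h2.self_of_nhds.1 hg.df h1)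
      (by rwa [h2.self_of_nhds.2]) _).comp (f := fun q : ℂ × ℝ => (q.1, q.2 + τ q.1))
      (.of_comp (g := fun q : ℂ × ℝ => (q.1, q.2 - τ q.1))
        (Eventually.of_forall fun _ => (contDiff_fst.prodMk c1).contDiffAt)
        (((by fun_prop : ContDiff ℝ ∞ fun q : ℂ × ℝ => (q.1, q.2 - τ q.1))).differentiable (by simp) _) ?_)
    rw [show ((fun q : ℂ × ℝ => (q.1, q.2 - τ q.1)) ∘ fun q : ℂ × ℝ => (q.1, q.2 + τ q.1)) = id from
      funext fun q => by simp, fderiv_id]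
    exact injective_id
  · filter_upwards [h.ev_add' hg.cd.continuousAt h2 continuousAt_fst c1.continuous.continuousAt rfl h0,
      continuousAt_fst.eventually h1] with q a1 a2 using by rw [a1, a2]

theorem der_vert {e : ℂ × ℝ → E3} {f : E3 → ℝ} {x : ℂ × ℝ} (hf : DifferentiableAt ℝ f (e x))
    (he : DifferentiableAt ℝ e x) {g : ℂ → ℝ} {κ : ℝ}
    (h : ∀ᶠ q : ℂ × ℝ in 𝓝 x, f (e q) = g q.1 + q.2 * κ) :
    fderiv ℝ f (e x) (fderiv ℝ e x (0, 1)) = κ := by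
  have d0 : HasDerivAt (fun s : ℝ => (x.1, s)) (0, 1) x.2 :=
    (hasDerivAt_const _ _).prodMk (hasDerivAt_id _)
  have d1 := (hf.hasFDerivAt.comp x he.hasFDerivAt).comp_hasDerivAt (f := fun s : ℝ => (x.1, s)) x.2 d0
  exact d1.unique (((hasDerivAt_mul_const κ).const_add (g x.1)).congr_of_eventuallyEq
    (d0.continuousAt.eventually h))

/-- **FILL** -/
theorem Dat.fill (D : Dat U v p m c₀ c) {kp km : ℂ → E3}
    (pc : ContinuousOn kp (closedBall 0 1)) (pi : InjOn kp (closedBall 0 1))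
    (pb : kp '' closedBall 0 1 = {y | y ∈ U ∧ p y = c ∧ m y ≤ c})
    (ps : kp '' sphere 0 1 = {y | y ∈ U ∧ p y = c ∧ m y = c})
    (mc : ContinuousOn km (closedBall 0 1)) (mi : InjOn km (closedBall 0 1))
    (mb : km '' closedBall 0 1 = {y | y ∈ U ∧ m y = c ∧ p y ≤ c})
    (ms : km '' sphere 0 1 = {y | y ∈ U ∧ p y = c ∧ m y = c}) : Fil U v p m c := by
  classical
  have lt := D.lt
  have hi : ∀ y ∈ U, p y = c → m y = c → ∃ w,
      fderiv ℝ p y (v y) * fderiv ℝ m y w - fderiv ℝ p y w * fderiv ℝ m y (v y) ≠ 0 :=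
    fun y hy h1 h2 => by
      obtain ⟨w, h3, h4⟩ := D.tr y hy h1 h2
      have h5 := mul_pos (D.vp y hy (by linarith)) h4
      have h6 := mul_pos h3 (neg_pos.2 (D.vm y hy (by linarith)))
      exact ⟨w, ne_of_gt (by linarith)⟩
  have cp := (isCompact_closedBall _ _).image_of_continuousOn pc
  have cm := (isCompact_closedBall _ _).image_of_continuousOn mc
  rw [pb] at cp
  rw [mb] at cm
  -- the field `X`
  let G := {x | ∃ V ∈ 𝓝 x, ∃ g : E3 → E3, ContDiffOn ℝ ∞ g V ∧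
    ∀ y ∈ V, fderiv ℝ p y (g y) = 1 ∧ fderiv ℝ m y (g y) = -1}
  have G1 : IsOpen G := isOpen_iff_mem_nhds.2 fun x ⟨V, hV, r⟩ => by
    filter_upwards [eventually_mem_nhds_iff.2 hV] with y hy using ⟨V, hy, r⟩
  have G2 : ∀ y ∈ U, p y = c → m y = c → y ∈ G := fun y hy h1 h2 =>
    let ⟨_, h⟩ := hi y hy h1 h2; loc2 D.op D.sp D.sm hy h 1 (-1)
  obtain ⟨Vp, p1, p2, p3⟩ := exists_compact_between cp (cm.diff G1).isClosed.isOpen_compl
    fun y hy h => h.2 (G2 y hy.1 hy.2.1 h.1.2.1)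
  obtain ⟨Vm, m1, m2, m3⟩ := exists_compact_between cm (cp.diff G1).isClosed.isOpen_compl
    fun y hy h => h.2 (G2 y hy.1 h.1.2.1 hy.2.1)
  have one : ∀ {f : E3 → ℝ} {x : E3} {V : Set E3} (κ : ℝ), ContDiffOn ℝ ∞ f U → x ∈ U → IsCompact V →
      x ∉ V → fderiv ℝ f x (v x) ≠ 0 → ∃ W ∈ 𝓝 x, ∃ g : E3 → E3, ContDiffOn ℝ ∞ g W ∧
        ∀ y ∈ W, fderiv ℝ f y (g y) = κ ∧ y ∉ V := fun {f x V} κ hf hx hV h1 h2 => by
    have c1 := cd_app D.op hf D.sv
    refine ⟨(U ∩ {y | fderiv ℝ f y (v y) ≠ 0}) ∩ Vᶜ, inter_mem (inter_mem (D.op.mem_nhds hx)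
      ((c1.continuousOn.continuousAt (D.op.mem_nhds hx)).eventually_ne h2))
      (hV.isClosed.isOpen_compl.mem_nhds h1), fun y => (κ * (fderiv ℝ f y (v y))⁻¹) • v y,
      (contDiffOn_const.mul ((c1.mono fun y hy => hy.1.1).inv fun y hy => hy.1.2)).smul
        (D.sv.mono fun y hy => hy.1.1), fun y hy => ⟨?_, hy.2⟩⟩
    rw [map_smul, smul_eq_mul, mul_assoc, inv_mul_cancel₀ hy.1.2, mul_one]
  obtain ⟨X, K, X1, X2, X3, X4⟩ := exists_field (cp.union cm)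
    (t := fun y => {w | y ∈ Vp → fderiv ℝ p y w = 1} ∩ {w | y ∈ Vm → fderiv ℝ m y w = -1})
    (fun y => (conv_eq _ _ _).inter (conv_eq _ _ _)) fun x hx => by
      by_cases h : x ∈ G
      · obtain ⟨V, a1, g, a2, a3⟩ := h
        exact ⟨V, a1, g, a2, fun y hy => ⟨fun _ => (a3 y hy).1, fun _ => (a3 y hy).2⟩⟩
      rcases hx with hx | hx
      · obtain ⟨V, a1, g, a2, a3⟩ := one 1 D.sp hx.1 m1 (fun h' => m3 h' ⟨hx, h⟩)
          (D.vp x hx.1 (by linarith [hx.2.1])).ne'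
        exact ⟨V, a1, g, a2, fun y hy => ⟨fun _ => (a3 y hy).1, fun h => absurd h (a3 y hy).2⟩⟩
      · obtain ⟨V, a1, g, a2, a3⟩ := one (-1) D.sm hx.1 p1 (fun h' => p3 h' ⟨hx, h⟩)
          (D.vm x hx.1 (by linarith [hx.2.1])).ne
        exact ⟨V, a1, g, a2, fun y hy => ⟨fun h => absurd h (a3 y hy).2, fun _ => (a3 y hy).1⟩⟩
  obtain ⟨φ, fX⟩ := exists_fw X1 X2 X3
  have df : ∀ {f : E3 → ℝ}, ContDiffOn ℝ ∞ f U → ∀ y ∈ U, DifferentiableAt ℝ f y := fun hf y hy =>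
    (hf.contDiffAt (D.op.mem_nhds hy)).differentiableAt (by simp)
  have Xp : ∀ y ∈ U, p y = c → m y ≤ c →
      ∀ᶠ u in 𝓝 y, DifferentiableAt ℝ p u ∧ fderiv ℝ p u (X u) = 1 := fun y h1 h2 h3 => by
    filter_upwards [nhds_le_nhdsSet (by exact .inl ⟨h1, h2, h3⟩) X4, D.op.mem_nhds h1,
      mem_interior_iff_mem_nhds.1 (p2 ⟨h1, h2, h3⟩)] with u a1 a2 a3 using ⟨df D.sp u a2, a1.1 a3⟩
  have Xm : ∀ y ∈ U, m y = c → p y ≤ c →
      ∀ᶠ u in 𝓝 y, DifferentiableAt ℝ m u ∧ fderiv ℝ m u (X u) = -1 := fun y h1 h2 h3 => by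
    filter_upwards [nhds_le_nhdsSet (by exact .inr ⟨h1, h2, h3⟩) X4, D.op.mem_nhds h1,
      mem_interior_iff_mem_nhds.1 (m2 ⟨h1, h2, h3⟩)] with u a1 a2 a3 using ⟨df D.sm u a2, a1.2 a3⟩
  -- the two collars
  obtain ⟨ε, ε0, a, a1, a2, a3⟩ := corner D.op D.sp D.sm
    (ps ▸ (isCompact_sphere _ _).image_of_continuousOn (pc.mono sphere_subset_closedBall))
    (ps ▸ (isConnected_sphere (by simp) _ zero_le_one).image _ (pc.mono sphere_subset_closedBall))
    fun y hy h1 h2 => ⟨_, hi y hy h1 h2⟩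
  have n2 : ContDiff ℝ ∞ fun z : ℂ => ‖z‖ ^ 2 := contDiff_norm_sq ℝ
  have sA : ∀ {δ : ℝ}, 0 < δ → ∀ z : ℂ, ‖z‖ = 1 → z ∈ An (1 - δ) (1 + δ) := fun h z hz =>
    ⟨by linarith, by linarith⟩
  let b : ℂ → E3 := fun z => φ (2 * (‖z‖ ^ 2 - 1)) (a z)
  obtain ⟨η, η0, -, b1⟩ := exists_An (P := fun z => z ∈ An (1 - ε) (1 + ε) ∧ Imm b z ∧ b z ∈ U ∧
      p (b z) = c + 2 * (‖z‖ ^ 2 - 1) ∧ m (b z) = c) fun z hz => by
    have z1 := mem_sphere_zero_iff_norm.1 hz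
    have z2 := (isOpen_An _ _).mem_nhds (sA ε0 z z1)
    obtain ⟨c1, c2, c3, c4⟩ := a1 z (sA ε0 z z1)
    have z3 : 2 * (‖z‖ ^ 2 - 1) = 0 := by rw [z1]; norm_num
    rw [z3, add_zero] at c4
    have c5 : ContDiff ℝ ∞ fun z : ℂ => 2 * (‖z‖ ^ 2 - 1) := by fun_prop
    have c6 : Imm b z := (fX.thick c1 (fderiv_zero_of_const (c := c) (df D.sp _ c2) c1.df
      (by filter_upwards [z2] with w hw using (a1 w hw).2.2.1))
      (by rw [(Xp _ c2 c3 c4.le).self_of_nhds.2]; exact one_ne_zero) _).comp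
      (f := fun y : ℂ => (y, 2 * (‖y‖ ^ 2 - 1))) (imm_graph (Eventually.of_forall fun _ => c5.contDiffAt))
    filter_upwards [z2, c6.ev, c6.cd.continuousAt.eventually (D.op.mem_nhds
      (by simpa only [b, z3, fX.zero] using c2)),
      fX.ev_add' c1.cd.continuousAt (Xp _ c2 c3 c4.le) continuousAt_id c5.continuous.continuousAt rfl z3,
      fX.ev_add' c1.cd.continuousAt (Xm _ c2 c4 c3.le) continuousAt_id c5.continuous.continuousAt rfl z3]
      with w d1 d2 d3 d4 d5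
    exact ⟨d1, d2, d3, by simpa [(a1 w d1).2.2.1] using d4, by simpa [(a1 w d1).2.2.2] using d5⟩
  have ab : ∀ z ∈ sphere (0 : ℂ) 1, b z = a z := fun z hz => by
    simp [b, mem_sphere_zero_iff_norm.1 hz, fX.zero]
  have q1 : ∀ z : ℂ, 1 < ‖z‖ → 0 < 2 * (‖z‖ ^ 2 - 1) := fun z hz => by nlinarith
  -- the two discs
  obtain ⟨δ, δ0, gp, gp1, gp2, gp3, gp4⟩ := disc3 (f := p) (c := c) (O := U ∩ p ⁻¹' Ioi c₀) (k := kp)
    (D.sp.continuousOn.isOpen_inter_preimage D.op isOpen_Ioi) (D.sp.mono inter_subset_left)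
    (fun y hy h => by simpa [h] using D.vp y hy.1 hy.2) ε0
    (fun z hz => ⟨(a1 z hz).1, ⟨(a1 z hz).2.1, lt.trans_eq (a1 z hz).2.2.1.symm⟩, (a1 z hz).2.2.1⟩) a2 pc pi
    (fun z hz => have h := pb.subset (mem_image_of_mem _ hz); ⟨⟨h.1, lt.trans_eq h.2.1.symm⟩, h.2.1⟩)
    (ps.trans a3.symm) fun z hz h => by
      linarith [(pb.subset h).2.2, (a1 z ⟨by linarith [hz.1], hz.2⟩).2.2.2, q1 z hz.1]
  obtain ⟨δ', δ0', gm, gm1, gm2, gm3, gm4⟩ := disc3 (f := m) (c := c) (O := U ∩ m ⁻¹' Ioi c₀) (k := km)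
    (a := b) (D.sm.continuousOn.isOpen_inter_preimage D.op isOpen_Ioi) (D.sm.mono inter_subset_left)
    (fun y hy h => by simpa [h] using D.vm y hy.1 hy.2) η0
    (fun z hz => ⟨(b1 z hz).2.1, ⟨(b1 z hz).2.2.1, lt.trans_eq (b1 z hz).2.2.2.2.symm⟩, (b1 z hz).2.2.2.2⟩)
    (fun z hz w hw h => a2 (b1 z hz).1 (b1 w hw).1 (by
      have h1 : ‖z‖ ^ 2 = ‖w‖ ^ 2 := by
        linarith [(b1 z hz).2.2.2.1, (b1 w hw).2.2.2.1, congrArg p h]
      rw [← fX.neg (2 * (‖z‖ ^ 2 - 1)) (a z), ← fX.neg (2 * (‖z‖ ^ 2 - 1)) (a w)]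
      exact congrArg _ (h.trans (by simp only [b, h1])))) mc mi
    (fun z hz => have h := mb.subset (mem_image_of_mem _ hz); ⟨⟨h.1, lt.trans_eq h.2.1.symm⟩, h.2.1⟩)
    (ms.trans (a3.symm.trans (image_congr ab).symm)) fun z hz h => by
      linarith [(mb.subset h).2.2, (b1 z ⟨by linarith [hz.1], hz.2⟩).2.2.2.1, q1 z hz.1]
  rw [pb] at gp4
  rw [mb] at gm4
  have bl : ∀ {δ : ℝ}, 0 < δ → ∀ z : ℂ, ‖z‖ ≤ 1 → z ∈ ball (0 : ℂ) (1 + δ) := fun h z hz =>
    mem_ball_zero_iff.2 (by linarith)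
  have gp5 : ∀ z : ℂ, ‖z‖ ≤ 1 → gp z ∈ U ∧ p (gp z) = c ∧ m (gp z) ≤ c := fun z hz =>
    gp4.subset (mem_image_of_mem _ (mem_closedBall_zero_iff.2 hz))
  have gm5 : ∀ z : ℂ, ‖z‖ ≤ 1 → gm z ∈ U ∧ m (gm z) = c ∧ p (gm z) ≤ c := fun z hz =>
    gm4.subset (mem_image_of_mem _ (mem_closedBall_zero_iff.2 hz))
  have gp6 : ∀ z : ℂ, ‖z‖ < 1 → m (gp z) < c := fun z hz => (gp5 z hz.le).2.2.lt_of_ne fun h => by
    obtain ⟨w, h1, h2⟩ := a3.symm.subset ⟨(gp5 z hz.le).1, (gp5 z hz.le).2.1, h⟩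
    have h3 := mem_sphere_zero_iff_norm.1 h1
    rw [← gp2 (bl δ0 w h3.le) (bl δ0 z hz.le) ((gp3 w (sA δ0 w h3)).trans h2)] at hz
    exact hz.ne h3
  have gm6 : ∀ z : ℂ, ‖z‖ < 1 → p (gm z) < c := fun z hz => (gm5 z hz.le).2.2.lt_of_ne fun h => by
    obtain ⟨w, h1, h2⟩ := a3.symm.subset ⟨(gm5 z hz.le).1, h, (gm5 z hz.le).2.1⟩
    have h3 := mem_sphere_zero_iff_norm.1 h1
    rw [← gm2 (bl δ0' w h3.le) (bl δ0' z hz.le) (((gm3 w (sA δ0' w h3)).trans (ab w h1)).trans h2)] at hz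
    exact hz.ne h3
  -- the lens
  let P : ℂ × ℝ → ℝ := fun q => q.2 + (‖q.1‖ ^ 2 - 1)
  let M : ℂ × ℝ → ℝ := fun q => (q.2 + (1 - ‖q.1‖ ^ 2)) * -1
  have cP : Continuous P := by fun_prop
  have cM : Continuous M := by fun_prop
  let ep : ℂ × ℝ → E3 := fun q => φ (q.2 + (‖q.1‖ ^ 2 - 1)) (gp q.1)
  let em : ℂ × ℝ → E3 := fun q => φ (q.2 + (1 - ‖q.1‖ ^ 2)) (gm q.1)
  let e : ℂ × ℝ → E3 := fun q => if 0 ≤ q.2 then ep q else em q
  let B := {q | P q ≤ 0 ∧ M q ≤ 0}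
  let S := {q | q ∈ B ∧ (P q = 0 ∨ M q = 0)}
  have n1 : ∀ q ∈ B, ‖q.1‖ ≤ 1 := fun q hq => by
    have := hq.1; have := hq.2; simp only [P, M] at *; nlinarith [norm_nonneg q.1]
  have n3 : ∀ q ∈ B, q.2 ≠ 0 → ‖q.1‖ < 1 := fun q hq h => (n1 q hq).lt_of_ne fun h' => h (by
    have := hq.1; have := hq.2; simp only [P, M, h'] at *; linarith)
  have top : ∀ x ∈ B, P x = 0 → e =ᶠ[𝓝 x] ep → Imm e x ∧ e x = gp x.1 ∧
      ∀ᶠ q in 𝓝 x, p (e q) = c + P q := fun x hx h0 h => by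
    obtain ⟨c1, c2, c3⟩ := gp5 _ (n1 x hx)
    obtain ⟨d1, d2⟩ := fX.lens (c := c) (gp1 _ (bl δ0 _ (n1 x hx))).1 (by
      filter_upwards [isOpen_ball.mem_nhds (bl δ0 _ (n1 x hx))] with z hz using (gp1 z hz).2)
      one_ne_zero (Xp _ c1 c2 c3) (n2.sub contDiff_const) h0
    refine ⟨d1.congr h, h.self_of_nhds.trans ((congrArg (φ · _) h0).trans (fX.zero _)), ?_⟩
    filter_upwards [h, d2] with q e1 e2 using by rw [e1, e2, mul_one]
  have bot : ∀ x ∈ B, M x = 0 → e =ᶠ[𝓝 x] em → Imm e x ∧ e x = gm x.1 ∧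
      ∀ᶠ q in 𝓝 x, m (e q) = c + M q := fun x hx h0 h => by
    obtain ⟨c1, c2, c3⟩ := gm5 _ (n1 x hx)
    have h1 : x.2 + (1 - ‖x.1‖ ^ 2) = 0 := by simp only [M] at h0; linarith
    obtain ⟨d1, d2⟩ := fX.lens (c := c) (gm1 _ (bl δ0' _ (n1 x hx))).1 (by
      filter_upwards [isOpen_ball.mem_nhds (bl δ0' _ (n1 x hx))] with z hz using (gm1 z hz).2)
      (by norm_num) (Xm _ c1 c2 c3) (contDiff_const.sub n2) h1
    refine ⟨d1.congr h, h.self_of_nhds.trans ((congrArg (φ · _) h1).trans (fX.zero _)), ?_⟩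
    filter_upwards [h, d2] with q e1 e2 using by rw [e1, e2]
  have key : ∀ x ∈ S, Imm e x ∧ (P x = 0 → e x = gp x.1) ∧ (M x = 0 → e x = gm x.1) ∧
      ((P x = 0 ∧ ∀ᶠ q in 𝓝 x, p (e q) = c + P q) ∨ (p (e x) < c ∧ P x < 0)) ∧
      ((M x = 0 ∧ ∀ᶠ q in 𝓝 x, m (e q) = c + M q) ∨ (m (e x) < c ∧ M x < 0)) := fun x hx => by
    have h1 := hx.1.1
    have h2 := hx.1.2
    rcases lt_trichotomy x.2 0 with h | h | h
    · have h3 : P x < 0 := by simp only [P, M] at *; linarith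
      have h4 := hx.2.resolve_left h3.ne
      obtain ⟨c1, c2, c3⟩ := bot x hx.1 h4 (by
        filter_upwards [continuousAt_snd.eventually (gt_mem_nhds h)] with q hq using if_neg hq.not_ge)
      exact ⟨c1, fun h => absurd h h3.ne, fun _ => c2, .inr ⟨c2 ▸ gm6 _ (n3 x hx.1 h.ne), h3⟩,
        .inl ⟨h4, c3⟩⟩
    · have h3 : P x = 0 ∧ M x = 0 := by
        have := hx.2
        simp only [P, M, h] at *
        constructor <;> rcases this with h | h <;> linarith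
      have h4 : ‖x.1‖ = 1 := by
        have := h3.1
        simp only [P, h] at this
        nlinarith [norm_nonneg x.1]
      have h5 : em =ᶠ[𝓝 x] ep := by
        filter_upwards [continuousAt_fst.eventually ((isOpen_An _ _).mem_nhds (sA δ0 _ h4)),
          continuousAt_fst.eventually ((isOpen_An _ _).mem_nhds (sA δ0' _ h4))] with q e1 e2
        simp only [em, ep, gp3 _ e1, gm3 _ e2, b, ← fX.add]
        congr 1; ring
      have h6 : e =ᶠ[𝓝 x] ep := by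
        filter_upwards [h5] with q hq using by simp only [e, hq, ite_self]
      obtain ⟨c1, c2, c3⟩ := top x hx.1 h3.1 h6
      obtain ⟨-, d2, d3⟩ := bot x hx.1 h3.2 (h6.trans h5.symm)
      exact ⟨c1, fun _ => c2, fun _ => d2, .inl ⟨h3.1, c3⟩, .inl ⟨h3.2, d3⟩⟩
    · have h3 : M x < 0 := by simp only [P, M] at *; linarith
      have h4 := hx.2.resolve_right h3.ne
      obtain ⟨c1, c2, c3⟩ := top x hx.1 h4 (by
        filter_upwards [continuousAt_snd.eventually (lt_mem_nhds h)] with q hq using if_pos hq.le)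
      exact ⟨c1, fun _ => c2, fun h => absurd h h3.ne, .inl ⟨h4, c3⟩,
        .inr ⟨c2 ▸ gp6 _ (n3 x hx.1 h.ne'), h3⟩⟩
  have eU : ∀ x ∈ S, e x ∈ U := fun x hx => hx.2.elim
    (fun h => (key x hx).2.1 h ▸ (gp5 _ (n1 x hx.1)).1) fun h => (key x hx).2.2.1 h ▸ (gm5 _ (n1 x hx.1)).1
  have sur : ∀ y ∈ U, p y ≤ c → m y ≤ c → ¬(p y < c ∧ m y < c) → y ∈ e '' S := fun y h1 h2 h3 h4 => by
    by_cases h : p y = c
    · obtain ⟨z, z1, rfl⟩ := gp4.symm.subset ⟨h1, h, h3⟩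
      have z2 := mem_closedBall_zero_iff.1 z1
      have z3 : (z, 1 - ‖z‖ ^ 2) ∈ S := ⟨⟨by simp [P], by
        simp only [M]; nlinarith [norm_nonneg z]⟩, .inl (by simp [P])⟩
      exact ⟨_, z3, (key _ z3).2.1 (by simp [P])⟩
    · obtain ⟨z, z1, rfl⟩ := gm4.symm.subset ⟨h1, h3.eq_of_not_lt fun h' => h4 ⟨h2.lt_of_ne h, h'⟩, h2⟩
      have z2 := mem_closedBall_zero_iff.1 z1
      have z3 : (z, ‖z‖ ^ 2 - 1) ∈ S := ⟨⟨by
        simp only [P]; nlinarith [norm_nonneg z], by simp [M]⟩, .inr (by simp [M])⟩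
      exact ⟨_, z3, (key _ z3).2.2.1 (by simp [M])⟩
  have cB : IsClosed B := (isClosed_le cP continuous_const).inter (isClosed_le cM continuous_const)
  have kB : IsCompact B := (isCompact_closedBall 0 1).of_isClosed_subset cB fun q hq => by
    have := hq.1; have := hq.2
    simp only [P, M] at *
    exact mem_closedBall_zero_iff.2 (norm_prod_le_iff.2 ⟨n1 q hq, abs_le.2
      ⟨by nlinarith, by nlinarith⟩⟩)
  have iB : {q | P q < 0 ∧ M q < 0} ⊆ interior B := interior_maximal (fun q hq => ⟨hq.1.le, hq.2.le⟩)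
    ((isOpen_lt cP continuous_const).inter (isOpen_lt cM continuous_const))
  have sd : ∀ {f : E3 → ℝ} {Q : ℂ × ℝ → ℝ} {x}, x ∈ S → ContDiffOn ℝ ∞ f U → Continuous Q →
      ((Q x = 0 ∧ ∀ᶠ q in 𝓝 x, f (e q) = c + Q q) ∨ (f (e x) < c ∧ Q x < 0)) →
      ∀ᶠ q in 𝓝 x, f (e q) ≤ c ↔ Q q ≤ 0 := fun {f Q x} hx hf hQ h => by
    rcases h with h | h
    · filter_upwards [h.2] with q hq using by rw [hq, add_le_iff_nonpos_right]
    · filter_upwards [((df hf _ (eU x hx)).continuousAt.comp (key x hx).1.cd.continuousAt).eventually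
        (gt_mem_nhds h.1), hQ.continuousAt.eventually (gt_mem_nhds h.2)] with q e1 e2
        using iff_of_true e1.le e2.le
  obtain ⟨H, H1, H2⟩ := ball3 (B := B) (S := S) (e := e) (by simp) kB
    (fun x hx y hy s t hs ht hst => by
      have h1 := hx.1; have h2 := hx.2; have h3 := hy.1; have h4 := hy.2
      have h5 := (convexOn_univ_norm.pow (fun (z : ℂ) _ => norm_nonneg z) 2).2 (mem_univ x.1)
        (mem_univ y.1) hs ht hst
      simp only [P, M, B, mem_setOf_eq, Prod.fst_add, Prod.smul_fst, Prod.snd_add, Prod.smul_snd,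
        smul_eq_mul, Pi.pow_apply] at *
      constructor <;> nlinarith)
    ⟨0, iB (by simp [P, M])⟩
    (kB.of_isClosed_subset (cB.inter ((isClosed_eq cP continuous_const).union
      (isClosed_eq cM continuous_const))) fun _ h => h.1)
    (fun x hx => ⟨cB.frontier_subset hx, by
      by_contra! h
      exact hx.2 (iB ⟨(cB.frontier_subset hx).1.lt_of_ne h.1, (cB.frontier_subset hx).2.lt_of_ne h.2⟩)⟩)
    (fun x hx h => by
      have h1 : ContinuousAt (fun t : ℝ => (x.1, x.2 + t)) 0 := by fun_prop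
      obtain ⟨r, r0, h2⟩ := Metric.eventually_nhds_iff_ball.1
        (h1.eventually (p := (· ∈ B)) (by
          simp only [add_zero]; exact mem_interior_iff_mem_nhds.1 h))
      have h3 := (h2 (r / 2) (by simp [abs_of_pos r0, r0])).1
      have h4 := (h2 (-(r / 2)) (by simp [abs_of_pos r0, r0])).2
      have := hx.2
      simp only [P, M] at *
      rcases this with h | h <;> linarith)
    (fun x hx => (key x hx).1)
    (fun x hx y hy h => by
      have z : ∀ x ∈ S, ∀ y ∈ S, e x = e y → P x = 0 → P y = 0 := fun x hx y hy h h0 =>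
        ((key y hy).2.2.2.1.resolve_right fun h' => h'.1.ne (by
          rw [← h, (key x hx).2.1 h0]; exact (gp5 _ (n1 x hx.1)).2.1)).1
      by_cases h0 : P x = 0
      · have h1 := z x hx y hy h h0
        have h2 := gp2 (bl δ0 _ (n1 x hx.1)) (bl δ0 _ (n1 y hy.1))
          (by rw [← (key x hx).2.1 h0, h, (key y hy).2.1 h1])
        exact Prod.ext h2 (by simp only [P, h2] at h0 h1; linarith)
      · have h1 := hx.2.resolve_left h0
        have h2 := hy.2.resolve_left fun h' => h0 (z y hy x hx h.symm h')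
        have h3 := gm2 (bl δ0' _ (n1 x hx.1)) (bl δ0' _ (n1 y hy.1))
          (by rw [← (key x hx).2.2.1 h1, h, (key y hy).2.2.1 h2])
        exact Prod.ext h3 (by simp only [M, h3] at h1 h2; linarith))
    D.cpt
    (fun y hy => by
      obtain ⟨h1, h2, h3⟩ := D.cpt.isClosed.frontier_subset hy
      refine sur y h1 h2 h3 fun h => hy.2 (mem_interior_iff_mem_nhds.2 ?_)
      filter_upwards [D.op.mem_nhds h1, (df D.sp y h1).continuousAt.eventually (gt_mem_nhds h.1),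
        (df D.sm y h1).continuousAt.eventually (gt_mem_nhds h.2)] with u e1 e2 e3
        using ⟨e1, e2.le, e3.le⟩)
    fun x hx => by
      filter_upwards [(key x hx).1.cd.continuousAt.eventually (D.op.mem_nhds (eU x hx)),
        sd hx D.sp cP (key x hx).2.2.2.1, sd hx D.sm cM (key x hx).2.2.2.2] with q e1 e2 e3
      exact ⟨fun h => ⟨e2.1 h.2.1, e3.1 h.2.2⟩, fun h => ⟨e1, e2.2 h.1, e3.2 h.2⟩⟩
  refine D.finish (τ := fun y => (H y).2) fun y h1 h2 h3 => ?_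
  have i := H1 y ⟨h1, h2, h3⟩
  refine ⟨i.1.mono fun u hu => hu.snd, ?_⟩
  by_cases h : p y < c ∧ m y < c
  · obtain ⟨w, hw⟩ := (LinearMap.injective_iff_surjective_of_finrank_eq_finrank
      (f := (fderiv ℝ H y).toLinearMap) (by simp)).1 i.2 (0, 1)
    refine ⟨w, ?_, fun h' => absurd h' h.1.ne, fun h' => absurd h' h.2.ne⟩
    rw [i.df.hasFDerivAt.snd.fderiv]
    simp [show fderiv ℝ H y w = (0, 1) from hw]
  · obtain ⟨x, hx, rfl⟩ := sur y h1 h2 h3 h
    have d := (key x hx).1.df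
    refine ⟨fderiv ℝ e x (0, 1), ?_, fun h' => ?_, fun h' => ?_⟩
    · rw [der_vert i.df.snd d (g := fun _ => 0) (κ := 1) ((H2 x hx).mono fun q hq => by simp [hq])]
      exact one_pos
    · rw [der_vert (df D.sp _ h1) d (g := fun z => c + (‖z‖ ^ 2 - 1)) (κ := 1)
        (((key x hx).2.2.2.1.resolve_right fun h => h.1.ne h').2.mono fun q hq => by
          rw [hq]; simp only [P]; ring)]
      exact one_pos
    · rw [der_vert (df D.sm _ h1) d (g := fun z => c + (‖z‖ ^ 2 - 1)) (κ := -1)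
        (((key x hx).2.2.2.2.resolve_right fun h => h.1.ne h').2.mono fun q hq => by
          rw [hq]; simp only [M]; ring)]
      norm_num

/-- finitely many components -/
theorem fills {ι : Type*} [Finite ι] {V : ι → Set E3} (hd : Pairwise (Disjoint on V))
    (ho : ∀ i, IsOpen (V i)) (h : ∀ i, Fil (V i) v p m c) : Fil (⋃ i, V i) v p m c := by
  classical
  choose v' t K h1 h2 h3 h4 h5 h6 using h
  have gl : ∀ {F : Type} (f : ι → E3 → F) (d : E3 → F), ∃ g : E3 → F,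
      (∀ i, ∀ y ∈ V i, g =ᶠ[𝓝 y] f i) ∧ ∀ y ∉ ⋃ i, V i, g y = d y := fun f d =>
    ⟨fun y => if h : ∃ i, y ∈ V i then f h.choose y else d y, fun i y hy => by
      filter_upwards [(ho i).mem_nhds hy] with z hz
      have e : ∃ i, z ∈ V i := ⟨i, hz⟩
      rw [dif_pos e, by_contra fun h' : e.choose ≠ i => disjoint_left.1 (hd h') e.choose_spec hz],
      fun y hy => dif_neg (by simpa using hy)⟩
  obtain ⟨w, w1, w2⟩ := gl v' v
  obtain ⟨s, s1, -⟩ := gl t 0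
  refine ⟨w, s, ⋃ i, K i, isCompact_iUnion h1, fun y hy => ?_, fun y hy => ?_, fun y hy => ?_,
    fun y hy => ?_, fun y hy => ?_⟩
  · obtain ⟨i, hi⟩ := mem_iUnion.1 hy
    exact ⟨mem_iUnion.2 ⟨i, (h2 i y hi).1⟩, (h2 i y hi).2⟩
  · obtain ⟨i, hi⟩ := mem_iUnion.1 hy
    exact (((h3 i).contDiffAt ((ho i).mem_nhds hi)).congr_of_eventuallyEq (w1 i y hi)).contDiffWithinAt
  · by_cases h : y ∈ ⋃ i, V i
    · obtain ⟨i, hi⟩ := mem_iUnion.1 h
      exact (w1 i y hi).self_of_nhds.trans (h4 i y fun h' => hy (mem_iUnion.2 ⟨i, h'⟩))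
    · exact w2 y h
  · obtain ⟨i, hi⟩ := mem_iUnion.1 hy
    exact (((h5 i).contDiffAt ((ho i).mem_nhds hi)).congr_of_eventuallyEq (s1 i y hi)).contDiffWithinAt
  · obtain ⟨i, hi⟩ := mem_iUnion.1 hy
    rw [(s1 i y hi).fderiv_eq, (w1 i y hi).self_of_nhds]
    exact h6 i y hi

end Crest.Agent.X212.Sm25
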