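import Crest.Agent.X212.Sm25.Dsc
import Crest.Agent.X212.Sm25.Dbl
import Crest.Agent.X212.Geo28.Lv

/-!
# X212 / Sm25 / Fin (helper25): FIN-CLS, GEO-FIN

* `me_dfm`, `me_fin` : manifolds with ends; `ncME` : the manifold with ends of a family of charts.
* `Pm.me`, `pm_fin`, `pm_lat` : pieces; `cob_lat`, `cp_lat`, `cp_fin`, `fin : FinStmt`.
-/

set_option autoImplicit false
set_option linter.unusedSectionVars false

open Set Filter Topology Function Module
open scoped ContDiff Manifold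
open Crest.Agent.R208 Crest.Agent.R208.F Crest.Agent.X212.Dr59 Crest.Agent.X212.Int54
open Crest.Agent.X212.Cyl58 Crest.Agent.X212.Bor5.T Crest.Agent.X212.Geo28
open Crest.Agent.X212.Lab56 (Dfm Cls)
open Crest.Agent.X212.Rod53 (E4)

noncomputable section

namespace Crest.Agent.X212.Sm25

section me

variable {V W : Type} [NormedAddCommGroup V] [NormedSpace ℝ V] [FiniteDimensional ℝ V]
  [NormedAddCommGroup W] [NormedSpace ℝ W] [FiniteDimensional ℝ W] (X : ME V W)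

theorem me_dfm : Dfm univ (X.core 0) := by
  let J : (Σ a, (X.Y a).M × ℝ) → X.P.M := fun p => X.j p.1 p.2
  have hJ : Injective J := by
    rintro ⟨a, p⟩ ⟨b, q⟩ h
    obtain rfl := X.disj _ _ _ _ h
    exact congrArg _ ((X.oe a).inj h)
  let g : ℝ → (Σ a, (X.Y a).M × ℝ) → X.P.M := fun t p => X.j p.1 (p.2.1, min p.2.2 (t * p.2.2))
  have e : ∀ t a p, extend J (g t) id (X.j a p) = g t ⟨a, p⟩ := fun t a p => hJ.extend_apply _ _ ⟨a, p⟩
  have f : ∀ t ≤ (1 : ℝ), ∀ x, x ∉ ⋃ a, X.j a '' (univ ×ˢ Ici 0) → extend J (g t) id x = x := fun t ht x hx => by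
    by_cases h : ∃ p, J p = x
    · obtain ⟨⟨a, p⟩, rfl⟩ := h
      have : p.2 < 0 := not_le.1 fun k => hx (mem_iUnion.2 ⟨a, p, ⟨trivial, k⟩, rfl⟩)
      exact (e t a p).trans (congrArg (X.j a) (Prod.ext rfl (min_eq_left (by nlinarith))))
    · exact extend_apply' _ _ _ h
  refine ⟨fun z => extend J (g z.1) id z.2, fun z hz => ?_, fun _ _ _ _ => trivial, fun x _ => ?_, fun x _ => ?_⟩
  · by_cases h : z.2 ∈ ⋃ a, X.j a '' (univ ×ˢ Ici 0)
    · obtain ⟨a, p, -, k⟩ := mem_iUnion.1 h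
      have o := IsOpenEmbedding.id.prodMap (X := ℝ) (X.oe a).isOpenEmbedding
      rw [show z = Prod.map id (X.j a) (z.1, p) from Prod.ext rfl k.symm]
      refine (o.continuousAt_iff.1 ?_).continuousWithinAt
      refine (((X.oe a).continuous.comp (f := fun w : ℝ × (X.Y a).M × ℝ => (w.2.1, min w.2.2 (w.1 * w.2.2)))
        (by fun_prop)).congr fun w => (e w.1 a w.2).symm).continuousAt
    · refine continuousWithinAt_snd.congr_of_eventuallyEq ?_ (f _ hz.1.2 _ h)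
      filter_upwards [self_mem_nhdsWithin, mem_nhdsWithin_of_mem_nhds (continuous_snd.continuousAt
        ((isClosed_iUnion_of_finite fun a => (X.isEnd a).cl).isOpen_compl.mem_nhds h))] with w h1 h2
      exact f _ h1.1.2 _ h2
  · by_cases h : ∃ p, J p = x
    · obtain ⟨⟨a, p⟩, rfl⟩ := h
      exact mem_of_eq_of_mem (e 0 a p) (X.j_mem_core.2 ((min_le_right _ _).trans_eq (zero_mul _)))
    · exact mem_of_eq_of_mem (extend_apply' (g 0) id x h) (X.mem_core.2 fun a p k => (h ⟨⟨a, p⟩, k⟩).elim)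
  · by_cases h : ∃ p, J p = x
    · obtain ⟨⟨a, p⟩, rfl⟩ := h
      exact (e 1 a p).trans (congrArg (X.j a) (Prod.ext rfl (by simp)))
    · exact extend_apply' _ _ _ h

theorem me_fin [MeasurableSpace X.P.E] [BorelSpace X.P.E] [MeasurableSpace X.P.M] [BorelSpace X.P.M]
    {ι : Type} [Fintype ι] {o : X.P.M → Ext X.P.E} {e : ι → X.P.M → Ext X.P.E} (ho : Ori X.P.I o)
    (he : ∀ i, Cs X.P.I 2 univ (e i))
    (hn : ∀ c, Cl X.P.I 2 univ c → (∀ i, ip X.P.I o c (e i) = 0) → Ex X.P.I univ c) (R : ℝ) :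
    {d : Cls X.P.I (univ : Set X.P.M) | ∃ c, Cur d c ∧ ∀ i, |ip X.P.I o c (e i)| ≤ R}.Finite := by
  have := Orx52.sigmaCompact X.P.I X.P.M
  refine (finite_inj ho he hn (X.isCompact_core 0) isOpen_univ
    ⟨Prod.snd, continuousOn_snd, fun _ _ _ h => h, fun _ h => h, fun _ _ => rfl⟩ (me_dfm X) (subset_univ _)
    Subset.rfl R).subset ?_
  rintro d ⟨_, ⟨D, h1, a, h2, rfl⟩, h3⟩
  exact ⟨D, h1, a, h2, h3⟩

end me

theorem nc_tm {A : O3} {X : M4} {J : Set ℝ} (k : Nc A X J) (y : A.Y.M) {t : ℝ} (h : t ∈ J) :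
    k.tm (k.k (y, t)) = t := k.tmk _ (k.src.ge ⟨trivial, h⟩)

theorem nc_img {A : O3} {X : M4} {J : Set ℝ} (k : Nc A X J) {σ : ℝ → ℝ} (h : ∀ s, σ s ∈ J) (s : Set ℝ) :
    (fun p : A.Y.M × ℝ => k.k (p.1, σ p.2)) '' (univ ×ˢ s) = k.tm ⁻¹' (σ '' s) := by
  refine Subset.antisymm ?_ ?_
  · rintro _ ⟨p, hp, rfl⟩
    exact ⟨p.2, hp.2, (nc_tm k _ (h _)).symm⟩
  · rintro x ⟨t, ht, e⟩
    have m : x ∈ k.k.target := k.tgt.ge (show k.tm x ∈ J from e ▸ h t)
    have := k.tmk _ (k.k.map_target m)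
    rw [k.k.right_inv m] at this
    exact ⟨((k.k.symm x).1, t), ⟨trivial, ht⟩, (congrArg (fun u => k.k ((k.k.symm x).1, u)) (e.trans this)).trans
      (k.k.right_inv m)⟩

/-- the manifold with ends of a family of charts -/
def ncME (X : M4) {α : Type} [Finite α] {Y : α → O3} {J : α → Set ℝ} (k : ∀ a, Nc (Y a) X (J a)) (ε : α → ℝ)
    (c : α → ℝ) (hε : ∀ a, ε a = 1 ∨ ε a = -1) (hJ : ∀ a t, c a < ε a * t → t ∈ J a)
    (hd : ∀ a b p, c a < ε a * (k a).tm p → c b < ε b * (k b).tm p → a = b)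
    (hK : IsCompact {p | ∀ a, ε a * (k a).tm p ≤ c a + 1}) : ME E4 (EuclideanSpace ℝ (Fin 3)) :=
  have q : ∀ a t, ε a * (ε a * t) = t := fun a t => by rcases hε a with h | h <;> simp [h]
  have m : ∀ a t, c a < ε a * (ε a * (Real.exp t + c a)) := fun a t => by
    rw [q]; exact lt_add_of_pos_left _ (Real.exp_pos t)
  have i : ∀ a (s : Set ℝ) x, x ∈ (fun t => ε a * (Real.exp t + c a)) '' s ↔ ε a * x - c a ∈ Real.exp '' s :=
    fun a s x => exists_congr fun t => and_congr_right fun _ =>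
      ⟨fun h => by rw [← h, q, add_sub_cancel_right], fun h => by simp only [h, sub_add_cancel, q]⟩
  { P := X.X.pc
    α := α
    Y a := (Y a).Y.pc
    j a p := (k a).k (p.1, ε a * (Real.exp p.2 + c a))
    isEnd a := ⟨IsOE.of_pd (k a).k (f := Prod.map id fun t => ε a * (Real.exp t + c a)) (IsOE.id.prodMap (by
        rcases hε a with h | h <;> simp only [h, one_mul, neg_one_mul]
        exacts [(isOE_add _).comp isOE_exp, isOE_neg.comp ((isOE_add _).comp isOE_exp)]))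
        fun p => (k a).src.ge ⟨trivial, hJ a _ (m a p.2)⟩, by
      rw [nc_img (k a) fun t => hJ a _ (m a t), show (k a).tm ⁻¹' _ = _ from Set.ext fun x => i a _ _,
        Real.image_exp_Ici]
      exact isClosed_Ici.preimage ((continuous_const.mul (k a).cont).sub continuous_const)⟩
    disj a b p r h := hd a b _ ((nc_tm (k a) p.1 (hJ a _ (m a p.2))).symm ▸ m a p.2)
      (h ▸ (nc_tm (k b) r.1 (hJ b _ (m b r.2))).symm ▸ m b r.2)
    cpt := by
      convert hK using 1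
      ext x
      simp only [fun a => nc_img (k a) fun t => hJ a _ (m a t), mem_compl_iff, mem_iUnion, mem_preimage, i,
        Real.image_exp_Ioi, Real.exp_zero, mem_Ioi, not_exists, not_lt, mem_ofPred_eq, sub_le_iff_le_add'] }

theorem m4_fin (X : M4) {n : ℕ} {e : Fin n → X.Fm} (he : ∀ i, Cs X.I 2 univ (e i))
    (h : ∀ R, {d : X.L | ∃ c, Cur d c ∧ ∀ i, |X.ip c (e i)| ≤ R}.Finite) (S : Set X.L) : X.Fin S := by
  classical
  exact ⟨Finset.univ.image e, Finset.forall_mem_image.2 fun i _ => he i, fun R => (h R).subset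
    fun d ⟨_, c, h1, h2⟩ => ⟨c, h1, fun i => h2 _ (Finset.mem_image_of_mem e (Finset.mem_univ i))⟩⟩

/-- the chart of an end -/
def ecGet {X : M4} {J : Set ℝ} : ∀ {a : Option O3} (_ : Ec a X J) (h : a.isSome), Nc (a.get h) X J
  | some _, k, _ => k

theorem ecGet_le {X : M4} {J : Set ℝ} {ε : ℝ} {p : X.M} : ∀ {a : Option O3} (k : Ec a X J),
    (∀ h, ε * (ecGet k h).tm p ≤ 0 + 1) ↔ ε * k.tm p ≤ 1
  | none, _ => ⟨fun _ => (mul_zero ε).trans_le zero_le_one, fun _ h => nomatch h⟩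
  | some _, _ => ⟨fun h => (h rfl).trans_eq (zero_add 1), fun h _ => h.trans_eq (zero_add 1).symm⟩

theorem ecGet_tm {X : M4} {J : Set ℝ} : ∀ {a : Option O3} (k : Ec a X J) (h : a.isSome), (ecGet k h).tm = k.tm
  | some _, _, _ => rfl

section pm
variable {a b x : Option O3} (T : Pm a b x)

/-- the three ends -/
def pmE : ∀ i : Option Bool, Ec (i.elim a (cond · x b)) T.X (i.elim (Iio 0) fun _ => Ioi 0)
  | none => T.ki
  | some false => T.ko
  | some true => T.k3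

/-- a piece as a manifold with ends -/
def pmME : ME E4 (EuclideanSpace ℝ (Fin 3)) :=
  ncME T.X (α := {i : Option Bool // (i.elim a (cond · x b)).isSome}) (fun i => ecGet (pmE T i.1) i.2)
    (fun i => i.1.elim (-1) fun _ => 1) 0 (fun ⟨i, _⟩ => by cases i <;> simp)
    (fun ⟨i, _⟩ t h => by cases i <;> simpa using h)
    (fun ⟨i, _⟩ ⟨j, _⟩ p h h' => Subtype.ext <| by
      rw [ecGet_tm] at h h'
      have := T.io p
      have := T.i3 p
      have := T.o3 p
      rcases i with _ | _ | _ <;> rcases j with _ | _ | _ <;> simp_all [pmE] <;> linarith)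
    (by
      convert T.cpt 1 using 1
      refine Set.ext fun p => (Subtype.forall.trans (forall_congr' fun i =>
        ecGet_le (ε := i.elim (-1) fun _ => 1) (p := p) (pmE T i))).trans ?_
      simp only [Option.forall, Bool.forall_bool, Option.elim, one_mul, neg_one_mul, neg_le]
      rfl)

/-- pieces whose ends have no `H²` have an orthogonal basis -/
theorem pm_lat (h : ∀ A, some A = a ∨ some A = b ∨ some A = x → HZ A.Y.I 2 (univ : Set A.Y.M)) :
    ∃ (n : ℕ) (e : Fin n → T.Fm) (d : Fin n → ℝ), Lat T.X.I T.X.o univ univ e (Matrix.diagonal d) :=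
  @me_lat _ _ _ _ _ _ _ _ (pmME T) T.X.X.mE T.X.X.bE T.X.X.ms T.X.X.bs (by simp) _ T.X.ori fun ⟨i, k⟩ => h _ <| by
    rcases i with _ | _ | _
    exacts [.inl (Option.some_get k), .inr (.inl (Option.some_get k)), .inr (.inr (Option.some_get k))]

theorem pm_fin {ι : Type} [Fintype ι] {e : ι → T.Fm} (he : ∀ i, Cs T.X.I 2 univ (e i))
    (hn : ∀ c, Cl T.X.I 2 univ c → (∀ i, T.X.ip c (e i) = 0) → Ex T.X.I univ c) (R : ℝ) :
    {d : T.L | ∃ c, Cur d c ∧ ∀ i, |T.X.ip c (e i)| ≤ R}.Finite :=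
  @me_fin _ _ _ _ _ _ _ _ (pmME T) T.X.X.mE T.X.X.bE T.X.X.ms T.X.X.bs _ _ _ _ T.X.ori he hn R

end pm

/-- the chart of a timed end -/
def tNc {W : W4} {A : O3} {J : Set ℝ} (k : TIso A.cyl W.X J) (h : Orx52.TPos k (Orx52.pr A.o Orx52.oR) W.o) :
    Nc A (m4 W) J :=
  ⟨k.φ, W.X.τ, W.X.cont, k.src.trans (Set.ext fun _ => ⟨fun h => ⟨trivial, h⟩, And.right⟩), k.tgt,
    fun x hx => k.tm x (k.src.le hx), k.src ▸ h⟩

/-- a cobordism as a manifold with ends -/
def cobME {A B : Q3} (C : Cob A B) : ME E4 (EuclideanSpace ℝ (Fin 3)) :=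
  ncME (m4 C.toW4) (Y := (cond · B.toO3 A.toO3)) (J := (cond · (Ioi C.b) (Iio C.a)))
    (fun | false => tNc C.ki C.pi | true => tNc C.ko C.po) (cond · 1 (-1)) (fun _ => |C.a| + |C.b|)
    (fun i => by cases i <;> simp)
    (fun i t h => by
      have := abs_nonneg C.a
      have := abs_nonneg C.b
      have := neg_abs_le C.a
      have := le_abs_self C.b
      cases i <;> simp only [cond, mem_Iio, mem_Ioi] at h ⊢ <;> linarith)
    (fun i j p h h' => by
      have := abs_nonneg C.a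
      have := abs_nonneg C.b
      cases i <;> cases j <;> simp only [cond, tNc] at h h' ⊢ <;> linarith)
    (by
      convert C.X.prop (-(|C.a| + |C.b| + 1)) (|C.a| + |C.b| + 1) using 1
      simp only [Bool.forall_bool, cond, tNc, one_mul, neg_one_mul, neg_le]
      rfl)

/-- a cap as a manifold with ends -/
def cpME {B : Q3} (C : Cp B) : ME E4 (EuclideanSpace ℝ (Fin 3)) :=
  ncME (m4 C.toW4) (α := Unit) (fun _ => tNc C.ko C.po) 1 (fun _ => C.b) (fun _ => .inl rfl)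
    (fun _ t h => h.trans_eq (one_mul t)) (fun _ _ _ _ _ => rfl) (by
      obtain ⟨s, hs⟩ := C.lo
      convert C.X.prop s (C.b + 1) using 1
      exact Set.ext fun p => ⟨fun h => ⟨hs p, (one_mul _).symm.trans_le (h ())⟩, fun h _ => (one_mul _).trans_le h.2⟩)

theorem cob_lat {A B : Q3} (C : Cob A B) :
    ∃ (n : ℕ) (e : Fin n → C.Fm) (d : Fin n → ℝ), Lat C.X.P.I C.o univ univ e (Matrix.diagonal d) :=
  @me_lat _ _ _ _ _ _ _ _ (cobME C) C.mE C.bE C.ms C.bs (by simp) _ C.ori fun | false => A.h2 | true => B.h2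

theorem cp_lat {B : Q3} (C : Cp B) :
    ∃ (n : ℕ) (e : Fin n → C.Fm) (d : Fin n → ℝ), Lat C.X.P.I C.o univ univ e (Matrix.diagonal d) :=
  @me_lat _ _ _ _ _ _ _ _ (cpME C) C.mE C.bE C.ms C.bs (by simp) _ C.ori fun _ => B.h2

theorem cp_fin {B : Q3} (C : Cp B) (S : Set C.L) : (m4 C.toW4).Fin S :=
  let ⟨_, _, _, L⟩ := cp_lat C
  m4_fin (m4 C.toW4) L.cs (@me_fin _ _ _ _ _ _ _ _ (cpME C) C.mE C.bE C.ms C.bs _ _ _ _ C.ori L.cs fun _ => L.ex) S

theorem cob_fin {A B : Q3} (C : Cob A B) (S : Set C.L) : (m4 C.toW4).Fin S :=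
  let ⟨_, _, _, L⟩ := cob_lat C
  m4_fin (m4 C.toW4) L.cs (@me_fin _ _ _ _ _ _ _ _ (cobME C) C.mE C.bE C.ms C.bs _ _ _ _ C.ori L.cs fun _ => L.ex) S

theorem hz_vo {A : O3} : ∀ {a : Option Q3}, some A = vo a → HZ A.Y.I 2 (univ : Set A.Y.M)
  | some B, h => Option.some.inj h ▸ B.h2

/-- **GEO-FIN** -/
theorem fin : FinStmt := fun _ _ T =>
  let ⟨_, _, _, L⟩ := pm_lat T fun _ h => h.elim hz_vo fun h => h.elim hz_vo nofun
  m4_fin T.X L.cs (pm_fin T L.cs fun _ => L.ex) _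

end Crest.Agent.X212.Sm25
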