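import Crest.Agent.X212.Sm25.Core
import Crest.Agent.X212.Smo49.Wrap

/-!
Row 212, layer H, package SM2 (helper25), part 3: smooth handle straightening from piecewise affine
handle straightening in the plane.
-/

set_option autoImplicit false
set_option linter.style.longLine false
set_option linter.unusedSectionVars false

open Set Metric Filter Topology MeasureTheory
open scoped NNReal ContDiff

namespace Crest.Agent.X212.Sm25

open Crest.Agent.R096.P5Spec_205 (HomeoOn MollAt)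
open Crest.Agent.R096.Str_696 (LocPL AffAt Sg)
open Crest.Agent.R096.Germ_879 (germ Tan VSet crad LocConical)
open Crest.Agent.X212.Smo49 hiding pert plize rm stage stage_pos moll_of_pos wrap

variable {E : Type*} [NormedAddCommGroup E] [InnerProductSpace ℝ E] [MeasureSpace E]
  [BorelSpace E] [FiniteDimensional ℝ E] [(volume : Measure E).IsAddHaarMeasure]
  {ρ : E ≃L[ℝ] E}

theorem stage_pos (h2 : Module.finrank ℝ E = 2) {h : E → E} {Om La P L Q N : Set E}
    (hOm : IsOpen Om) (hLa : IsOpen La) (hh : HomeoOn h Om La) (hP : IsOpen P) (hPO : P ⊆ Om)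
    (hPL : LocPL h P) (hdet : ∀ y ∈ P, ∀ A : E →L[ℝ] E, AffAt h y A → 0 < A.det)
    (hL : IsCompact L) (hLP : L ⊆ P) (hQ : IsOpen Q) (hQL : Q ⊆ L)
    (hN : IsClosed N) (hNm : ∀ x ∈ N, x ∈ Q → MollAt h x) :
    ∃ g : E → E, HomeoOn g Om La ∧ (∀ x ∈ Q, MollAt g x) ∧ (∀ x ∉ Q, g x = h x) ∧
      ∀ x ∈ N, g x = h x := by
  have hc := R096.Germ_879.locConical_of_locPL hPL
  have hco : ContinuousOn h P := hh.cont.mono hPO
  have hmoll : ∀ p ∈ P, p ∉ VSet h P → MollAt h p := fun p hp hV =>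
    R096.Germ_879.mollAt_of_codim_le_one hP hc hco
      (fun y hy A hA => hdet y hy A ((hc.conAt hy).affAt_iff.2 hA)) hp (by
        have : Module.finrank ℝ (Tan h p) ≠ 0 := fun h0 => hV ⟨hp, h0⟩
        omega)
  obtain ⟨k, H⟩ := R096.Germ_879.exists_homeoOn hP (isOpen_image hLa hh hP hPO) (restrict hh hPO)
  set V : Set E := Q ∩ {p | ¬ MollAt h p} with hV
  have hVP : V ⊆ P := fun x hx => hLP (hQL hx.1)
  have hVV : V ⊆ VSet h P := fun x hx => by
    by_contra hn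
    exact hx.2 (hmoll x (hVP hx) hn)
  have hfin : V.Finite := by
    choose! r hr hr' using fun q (hq : q ∈ P) => R096.Germ_879.VSet_isolated hP hc hq
    obtain ⟨t, ht, ht'⟩ := hL.elim_nhds_subcover (fun q => ball q (r q))
      fun q hq => ball_mem_nhds q (hr q (hLP hq))
    refine t.finite_toSet.subset fun x hx => ?_
    obtain ⟨q, hq, hxq⟩ := mem_iUnion₂.1 (ht' (hQL hx.1))
    have : x = q := hr' q (hLP (ht q hq)) ⟨hxq, hVV hx⟩
    exact this ▸ hq
  have hΦ : ∀ v ∈ V, ∃ Φ : E → E, IsHomeomorph Φ ∧ (∀ x, 1 ≤ ‖x‖ → Φ x = germ h v x) ∧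
      ∀ x, MollAt Φ x := fun p hp => by
    have hp' := hVP hp
    refine core2 h2 (H.germHomeo hp' (hc.conAt hp')).isHomeomorph (hc.conAt hp').posHom ?_
      fun x hx => ?_
    · obtain ⟨S, hS, -⟩ := R096.Germ_879.germ_selection hP hc hco hp' one_pos
      exact ⟨S, hS⟩
    have hcr := R096.Germ_879.crad_pos hP hp' (hc.conAt hp')
    set t : ℝ := crad h P p / (2 * (1 + ‖x‖)) with ht
    have hn := norm_nonneg x
    have ht0 : 0 < t := by positivity
    have htx : t * ‖x‖ < crad h P p / 2 := by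
      rw [ht, div_mul_eq_mul_div, div_lt_div_iff₀ (by positivity) two_pos]
      nlinarith
    have htx' : ‖t • x‖ < crad h P p / 2 := by rwa [norm_smul, Real.norm_of_nonneg ht0.le]
    have hmem : p + t • x ∈ P := R096.Germ_879.add_mem_of_lt_crad (h := h) (by linarith)
    have h3 : MollAt h (p + t • x) := hmoll _ hmem fun hZ => by
      have := R096.Germ_879.vertex_isolated hc (x := p) (y := p + t • x)
        (by rw [add_sub_cancel_left]; linarith) (Submodule.finrank_eq_zero.1 hZ.2)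
      rw [add_eq_left, smul_eq_zero] at this
      exact this.elim ht0.ne' hx
    refine R096.Germ_879.MollAt.of_smul (hc.conAt hp').posHom ht0 ?_
    refine R096.Germ_879.MollAt.transport (r := crad h P p / 2) (c := -h p) (by linarith) h3 ?_
    intro v hv
    have h4 : ‖t • x + v‖ < crad h P p := by
      have := norm_add_le (t • x) v
      linarith
    rw [add_assoc, R096.Germ_879.apply_add_of_lt_crad h4]
    abel
  choose! Φ Φ1 Φ2 Φ3 using hΦ
  have hT : ∀ v ∈ V, ∃ t > 0, ball v t ⊆ Q \ N := fun v hv =>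
    Metric.isOpen_iff.1 (hQ.sdiff hN) v ⟨hv.1, fun h' => hv.2 (hNm v h' hv.1)⟩
  choose! t t0 ht using hT
  have hcr : ∀ v ∈ V, 0 < crad h P v := fun v hv =>
    R096.Germ_879.crad_pos hP (hVP hv) (hc.conAt (hVP hv))
  obtain ⟨σ, s1, s2, s3, s4⟩ := R096.StV_119.exists_rho (V := V)
    (t := fun v => min (t v) (crad h P v / 2)) hOm (fun x _ => by
      obtain ⟨r, hr, hb⟩ := Metric.isOpen_iff.1
        (hfin.subset (sdiff_subset (t := {x}))).isClosed.isOpen_compl x (by simp)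
      refine ⟨r, hr, fun y hy => ?_⟩
      by_contra hn
      exact hb hy.1 ⟨hy.2, hn⟩) fun v hv => lt_min (t0 v hv) (half_pos (hcr v hv))
  have I : R096.StV_119.Ins h Om La V (germ h) Φ (crad h P) σ :=
    { openOm := hOm, openLa := hLa, hh := hh, sub := hVP.trans hPO
      r_ball := fun v _ => (R096.Germ_879.ball_crad_subset h P v).trans hPO
      germ := fun v _ u hu => R096.Germ_879.apply_add_of_lt_crad hu
      Kh := fun v hv => (H.germHomeo (hVP hv) (hc.conAt (hVP hv))).isHomeomorph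
      conic := fun v hv => (hc.conAt (hVP hv)).posHom
      Φh := Φ1, Φout := Φ2, ρ_pos := s1, ρ_lip := s2, ρ_sub := s4
      ρ_lt := fun v hv => by
        linarith [(s3 v hv (hPO (hVP hv))).trans (min_le_right _ _), hcr v hv] }
  have key : ∀ x, x ∉ Q \ N → R096.StV_119.h3 h V Φ σ x = h x := fun x hx =>
    R096.StV_119.Ins.h3_out fun ⟨v, hv, hxv⟩ => hx (ht v hv (by
      rw [mem_ball, dist_eq_norm]
      exact hxv.trans_le ((s3 v hv (hPO (hVP hv))).trans (min_le_left _ _))))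
  refine ⟨_, I.homeoOn, fun x hx => ?_, fun x hx => key x fun h' => hx h'.1,
    fun x hx => key x fun h' => h'.2 hx⟩
  have hxO := hPO (hLP (hQL hx))
  by_cases hc : ∃ w ∈ V, ‖x - w‖ ≤ σ w
  · obtain ⟨v, hv, hxv⟩ := hc
    exact moll_congr (I.moll_model hv (Φ3 v hv) x) (I.h3_model hv hxv)
  · push Not at hc
    refine moll_congr ?_ (I.h3_far hxO hc)
    by_contra hn
    have h1 := hc x ⟨hx, hn⟩
    rw [sub_self, norm_zero] at h1
    linarith [s1 x hxO]

theorem locPL_lin (ρ : E ≃L[ℝ] E) {h : E → E} {P : Set E} (hh : LocPL h P) :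
    LocPL (fun x => ρ (h x)) P := by
  classical
  intro x hx
  obtain ⟨r, hr, S, hc, hS⟩ := hh x hx
  refine ⟨r, hr, S.image fun a => (ρ : E →ₗ[ℝ] E).toAffineMap.comp a,
    ρ.continuous.comp_continuousOn hc, fun y hy => ?_⟩
  obtain ⟨a, ha, e⟩ := hS y hy
  exact ⟨_, Finset.mem_image_of_mem _ ha, by simp [e]⟩

theorem affAt_lin (ρ : E ≃L[ℝ] E) {h : E → E} {x : E} {A : E →L[ℝ] E} (hA : AffAt h x A) :
    AffAt (fun x => ρ (h x)) x ((ρ : E →L[ℝ] E).comp A) := by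
  refine Filter.Eventually.mono hA fun y hy => ?_
  simp [hy]

theorem moll_of_pos {h : E → E} {P : Set E} (hPL : LocPL h P)
    {x : E} (hx : x ∈ P) (hs : ∀ᶠ y in 𝓝 x, ∀ A, AffAt h y A → 0 < A.det) {g : E → E}
    (hg : ∀ y, MollAt h y → MollAt g y → False) (hm : MollAt h x ∨ MollAt g x) : MollAt h x := by
  refine hm.resolve_right fun hn => ?_
  obtain ⟨y, ⟨A, hA⟩, h1, h2⟩ := ((hPL.frequently_aff hx).and_eventually (hs.and (moll_ev hn))).exists
  exact hg y (moll_of_aff hA (h1 A hA)) h2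

theorem stage (h2 : Module.finrank ℝ E = 2) (hρ : (ρ : E →L[ℝ] E).det < 0) {h : E → E}
    {Om La P L Q N : Set E} (hOm : IsOpen Om) (hLa : IsOpen La) (hh : HomeoOn h Om La)
    (hP : IsOpen P) (hPO : P ⊆ Om) (hPL : LocPL h P) (hL : IsCompact L) (hLP : L ⊆ P)
    (hQ : IsOpen Q) (hQL : Q ⊆ L) (hN : IsClosed N) (hNm : ∀ x ∈ N, x ∈ Q → SM ρ h x) :
    ∃ g : E → E, HomeoOn g Om La ∧ (∀ x ∈ Q, SM ρ g x) ∧ (∀ x ∉ Q, g x = h x) ∧
      ∀ x ∈ N, g x = h x := by
  have hi : InjOn h P := hh.bij.injOn.mono hPO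
  have s1 := R096.Str_696.isOpen_Sg (E := E) 1 h
  have s2 := R096.Str_696.isOpen_Sg (E := E) (-1) h
  have o1 : IsOpen (P ∩ Sg 1 h) := hP.inter s1
  have o2 : IsOpen (P ∩ Sg (-1) h) := hP.inter s2
  have dj : ∀ x ∈ P, x ∈ Sg 1 h → x ∉ Sg (-1) h := fun x hx a b => R096.Str_696.Sg_disj hPL hx a b
  have cv : ∀ x ∈ P, x ∈ Sg 1 h ∨ x ∈ Sg (-1) h := fun x hx => R096.Str_696.mem_Sg hP hPL hi hx
  have hQP : Q ⊆ P := hQL.trans hLP
  have d1 : ∀ y ∈ P ∩ Sg 1 h, ∀ A : E →L[ℝ] E, AffAt h y A → 0 < A.det := fun y hy A hA => by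
    have := (show ∀ᶠ z in 𝓝 y, ∀ A, AffAt h z A → 0 < 1 * A.det from hy.2).self_of_nhds A hA
    linarith
  obtain ⟨g, g1, g2, g3, g4⟩ := stage_pos h2 hOm hLa hh o1 (inter_subset_left.trans hPO)
    (fun x hx => hPL x hx.1) d1 (hL.diff s2)
    (fun x hx => ⟨hLP hx.1, (cv x (hLP hx.1)).resolve_right hx.2⟩) (hQ.inter s1)
    (fun x hx => ⟨hQL hx.1, dj x (hQP hx.1) hx.2⟩) hN fun x hxN hx => moll_of_pos hPL (hQP hx.1)
      (by filter_upwards [o1.mem_nhds ⟨hQP hx.1, hx.2⟩] with y hy using d1 y hy)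
      (fun _ => moll_not_both hρ) (hNm x hxN hx.1)
  have e2 : ∀ x ∈ P ∩ Sg (-1) h, g x = h x := fun x hx => g3 x fun h' => dj x hx.1 h'.2 hx.2
  have e2' : ∀ x ∈ P ∩ Sg (-1) h, g =ᶠ[𝓝 x] h := fun x hx => by
    filter_upwards [o2.mem_nhds hx] with y hy using e2 y hy
  have pl2 : LocPL (fun x => ρ (g x)) (P ∩ Sg (-1) h) :=
    locPL_lin ρ (locPL_congr o2 (fun x hx => hPL x hx.1) e2)
  have d2 : ∀ y ∈ P ∩ Sg (-1) h, ∀ A : E →L[ℝ] E, AffAt (fun x => ρ (g x)) y A → 0 < A.det := by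
    intro y hy A hA
    have h1 : AffAt h y ((ρ.symm : E →L[ℝ] E).comp A) := by
      refine affAt_congr (affAt_lin ρ.symm hA) ?_
      filter_upwards [e2' y hy] with z hz
      rw [ρ.symm_apply_apply, hz]
    have := (show ∀ᶠ z in 𝓝 y, ∀ A, AffAt h z A → 0 < (-1) * A.det from hy.2).self_of_nhds _ h1
    rw [det_comp] at this
    by_contra hn
    nlinarith [det_symm_neg hρ, not_lt.1 hn]
  obtain ⟨f, f1, f2, f3, f4⟩ := stage_pos h2 hOm (isOpen_lin ρ hLa) (homeo_lin ρ g1) o2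
    (inter_subset_left.trans hPO) pl2 d2 (hL.diff s1)
    (fun x hx => ⟨hLP hx.1, (cv x (hLP hx.1)).resolve_left hx.2⟩) (hQ.inter s2)
    (fun x hx => ⟨hQL hx.1, fun h' => dj x (hQP hx.1) h' hx.2⟩) hN fun x hxN hx =>
      moll_of_pos pl2 ⟨hQP hx.1, hx.2⟩
        (by filter_upwards [o2.mem_nhds ⟨hQP hx.1, hx.2⟩] with y hy using d2 y hy)
        (fun _ a b => moll_not_both hρ b a)
        ((hNm x hxN hx.1).congr (e2' x ⟨hQP hx.1, hx.2⟩)).symm
  refine ⟨fun x => ρ.symm (f x), homeo_lin' ρ f1, fun x hx => ?_, fun x hx => ?_, fun x hx => ?_⟩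
  · rcases cv x (hQP hx) with h1 | h1
    · refine Or.inl (moll_congr (g2 x ⟨hx, h1⟩) ?_)
      filter_upwards [o1.mem_nhds ⟨hQP hx, h1⟩] with y hy
      rw [f3 y fun h' => dj y hy.1 hy.2 h'.2, ρ.symm_apply_apply]
    · exact Or.inr (by simpa only [ρ.apply_symm_apply] using f2 x ⟨hx, h1⟩)
  · show ρ.symm (f x) = h x
    rw [f3 x fun h' => hx h'.1, ρ.symm_apply_apply, g3 x fun h' => hx h'.1]
  · show ρ.symm (f x) = h x
    rw [f4 x hx, ρ.symm_apply_apply, g4 x hx]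

theorem exists_refl (h2 : Module.finrank ℝ E = 2) : ∃ ρ : E ≃L[ℝ] E, (ρ : E →L[ℝ] E).det < 0 := by
  have : Nontrivial E := Module.nontrivial_of_finrank_eq_succ h2
  obtain ⟨v, hv⟩ := exists_ne (0 : E)
  refine ⟨((ℝ ∙ v)ᗮ.reflection).toContinuousLinearEquiv, ?_⟩
  have := Submodule.det_reflection (𝕜 := ℝ) (ℝ ∙ v)ᗮ
  rw [Submodule.orthogonal_orthogonal, finrank_span_singleton hv] at this
  have e : (((ℝ ∙ v)ᗮ.reflection).toContinuousLinearEquiv : E →L[ℝ] E).det = (-1) ^ 1 := this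
  rw [e]; norm_num

/-- **Smooth handle straightening from the piecewise affine one**, in the plane. -/
theorem wrap (h2 : Module.finrank ℝ E = 2) {h : E → E}
    {Om La U W C D : Set E} (hOm : IsOpen Om) (hLa : IsOpen La) (hU : IsOpen U) (hW : IsOpen W)
    (hUO : U ⊆ Om) (hC : IsCompact C) (hCU : C ⊆ U) (hD : IsCompact D) (hDW : D ⊆ W ∪ U)
    (hh : HomeoOn h Om La) (hs : SmOn h U) (H : HPL Om La W C D) :
    ∃ h' : E → E, HomeoOn h' Om La ∧
      (∃ K, IsCompact K ∧ K ⊆ W ∪ U ∧ ∀ x ∈ Om \ K, h' x = h x) ∧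
      ∃ O, IsOpen O ∧ D ∪ (U \ W) ⊆ O ∧ O ⊆ Om ∧ SmOn h' O := by
  have : Nontrivial E := Module.nontrivial_of_finrank_eq_succ h2
  obtain ⟨ρ, hρ⟩ := exists_refl h2
  obtain ⟨h1, K1, V, a1, a2, a3, a4, a5, a6, a7, a8⟩ := plize hρ hOm hLa hh hU hUO hs hC hCU
  obtain ⟨h2', b1, ⟨K, b2, b3, b4⟩, P, b5, b6, b7, b8⟩ := H h1 a1 ⟨V, a6, a7, a8⟩
  obtain ⟨L, hL, hDL, hLP⟩ := exists_compact_between hD (b5.inter (hW.union hU))
    (subset_inter b6 hDW)
  have hM : IsOpen (U \ K) := hU.sdiff b2.isClosed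
  have hM2 : ∀ x ∈ U \ K, SM ρ h2' x := fun x hx => (a5 x hx.1).congr (by
    filter_upwards [hM.mem_nhds hx] with y hy using b4 y ⟨hUO hy.1, hy.2⟩)
  have hT : IsCompact (L \ W) := hL.diff hW
  have hTM : L \ W ⊆ U \ K := fun x hx =>
    ⟨((hLP hx.1).2).resolve_left hx.2, fun h' => hx.2 (b3 h')⟩
  obtain ⟨N, hN, hTN, hNM⟩ := exists_compact_between hT hM hTM
  have hLO : L ⊆ Om := fun x hx => b7 (hLP hx).1
  obtain ⟨h3, c1, c2, c3, c4⟩ := stage h2 hρ hOm hLa b1 b5 b7 b8 hL (fun x hx => (hLP hx).1)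
    isOpen_interior interior_subset hN.isClosed fun x hx _ => hM2 x (hNM hx)
  have c3' : ∀ x ∉ L, h3 x = h2' x := fun x hx => c3 x fun h' => hx (interior_subset h')
  set O : Set E := interior L ∪ ((U \ K) \ L) ∪ interior N with hO
  have oO : IsOpen O := (isOpen_interior.union (hM.sdiff hL.isClosed)).union isOpen_interior
  have hOO : O ⊆ Om := by
    rintro x ((hx | hx) | hx)
    exacts [hLO (interior_subset hx), hUO hx.1.1, hUO (hNM (interior_subset hx)).1]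
  have hOm3 : ∀ x ∈ O, SM ρ h3 x := by
    rintro x ((hx | hx) | hx)
    · exact c2 x hx
    · refine (hM2 x hx.1).congr ?_
      filter_upwards [hL.isClosed.isOpen_compl.mem_nhds hx.2] with y hy using c3' y hy
    · refine (hM2 x (hNM (interior_subset hx))).congr ?_
      filter_upwards [isOpen_interior.mem_nhds hx] with y hy using c4 y (interior_subset hy)
  have hOQ : ∀ x ∈ O \ (K1 ∪ L), x ∈ U ∧ h3 x = h x := by
    rintro x ⟨hx, hx'⟩
    have h4 : x ∉ L := fun h' => hx' (Or.inr h')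
    have h5 : x ∈ U \ K := by
      rcases hx with (hx | hx) | hx
      exacts [(h4 (interior_subset hx)).elim, hx.1, hNM (interior_subset hx)]
    exact ⟨h5.1, by rw [c3' x h4, b4 x ⟨hUO h5.1, h5.2⟩, a4 x fun h' => hx' (Or.inl h')]⟩
  obtain ⟨g, K2, d1, d2, d3, d4, -, d6⟩ := rm hρ hLa c1 oO hOO hOm3 (a2.union hL) (hW.union hU)
    (union_subset (a3.trans subset_union_right) fun x hx => (hLP hx).2)
    ((hs.1.mono fun x hx => (hOQ x hx).1).congr fun x hx => (hOQ x hx).2)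
  refine ⟨g, d1, ⟨K1 ∪ K ∪ L ∪ K2, ((a2.union b2).union hL).union d3, ?_, fun x hx => ?_⟩, O, oO,
    ?_, hOO, d2⟩
  · exact union_subset (union_subset (union_subset (a3.trans subset_union_right)
      (b3.trans subset_union_left)) fun x hx => (hLP hx).2) d4
  · have h4 := hx.2
    simp only [mem_union, not_or] at h4
    rw [d6 x h4.2, c3' x h4.1.2, b4 x ⟨hx.1, h4.1.1.2⟩, a4 x h4.1.1.1]
  · rintro x (hx | hx)
    · exact Or.inl (Or.inl (hDL hx))
    · by_cases hxL : x ∈ L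
      · exact Or.inr (hTN ⟨hxL, hx.2⟩)
      · exact Or.inl (Or.inr ⟨⟨hx.1, fun h' => hx.2 (b3 h')⟩, hxL⟩)

end Crest.Agent.X212.Sm25
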