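import Crest.Agent.X212.Sm25.Ldr
import Crest.Agent.X212.Sm25.Stage
import Crest.Agent.X212.Glb47.Box

/-!
Row 212, layer H, package SM2 (helper25), part 6: smooth handle straightening in the plane,
indices one and two.
-/

set_option autoImplicit false
set_option linter.style.longLine false

open Set Metric Filter Topology Function
open scoped ContDiff Manifold

noncomputable section

namespace Crest.Agent.X212.Sm25

open Crest.Agent.R096.P5Spec_205 (HomeoOn)
open Crest.Agent.X212.Glue52 Crest.Agent.X212.Lad50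
open Crest.Agent.X212.Smo49 (PLAt plAt_of_univ str_iff SmOn HPL)

/-- the Euclidean plane -/
abbrev E2 : Type := EuclideanSpace ℝ (Fin 2)

/-- local diffeomorphism of the plane -/
abbrev LD (h : E2 → E2) (x : E2) : Prop := IsLocalDiffeomorphAt 𝓘(ℝ, E2) 𝓘(ℝ, E2) ∞ h x

theorem isOpen_ld {EM : Type*} [NormedAddCommGroup EM] [NormedSpace ℝ EM] {HM : Type*}
    [TopologicalSpace HM] {I : ModelWithCorners ℝ EM HM} {M : Type*} [TopologicalSpace M]
    [ChartedSpace HM M] {EN : Type*} [NormedAddCommGroup EN] [NormedSpace ℝ EN] {HN : Type*}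
    [TopologicalSpace HN] {J : ModelWithCorners ℝ EN HN} {N : Type*} [TopologicalSpace N]
    [ChartedSpace HN N] (f : M → N) : IsOpen {x | IsLocalDiffeomorphAt I J ∞ f x} := by
  refine isOpen_iff_mem_nhds.2 fun x ⟨Φ, hx, e⟩ => ?_
  filter_upwards [Φ.open_source.mem_nhds hx] with y hy using ⟨Φ, hy, e⟩

theorem ld_of_smOn {h : E2 → E2} {O : Set E2} (hO : IsOpen O) (H : SmOn h O) {x : E2}
    (hx : x ∈ O) : LD h x := by
  have hd : DifferentiableAt ℝ h x := (H.1.contDiffAt (hO.mem_nhds hx)).differentiableAt (by simp)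
  exact ld_of_fderiv hO hx H.1 ((fderiv ℝ h x).toContinuousLinearEquivOfDetNeZero (H.2 x hx))
    (by simpa using hd.hasFDerivAt)

theorem smOn_ld (h : E2 → E2) : SmOn h {x | LD h x} := by
  refine ⟨fun x hx => (contMDiffAt_iff_contDiffAt.1 hx.contMDiffAt).contDiffWithinAt, fun x H => ?_⟩
  have H : LD h x := H
  have e2 := H.mfderivToContinuousLinearEquiv_coe (by simp)
  rw [mfderiv_eq_fderiv] at e2
  rw [← e2]
  exact (H.mfderivToContinuousLinearEquiv (by simp)).toLinearEquiv.isUnit_det'.ne_zero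

theorem homeoOn_of_emb {h : E2 → E2} (hh : IsOpenEmbedding h) : HomeoOn h univ (range h) := by
  refine ⟨⟨fun x _ => mem_range_self x, hh.injective.injOn, by simp [SurjOn]⟩,
    hh.continuous.continuousOn, (hh.toOpenPartialHomeomorph h).symm, ?_,
    fun x _ => hh.toOpenPartialHomeomorph_left_inv h⟩
  have := (hh.toOpenPartialHomeomorph h).continuousOn_symm
  rwa [IsOpenEmbedding.toOpenPartialHomeomorph_target] at this

theorem emb_of_homeoOn {h : E2 → E2} {La : Set E2} (H : HomeoOn h univ La) :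
    IsOpenEmbedding h ∧ range h = La :=
  have h1 := continuousOn_univ.1 H.cont
  have h2 := injOn_univ.1 H.bij.injOn
  ⟨.of_continuous_injective_isOpenMap h1 h2 (R105.Iod1_690.isOpenMap_fd rfl h1 h2),
    by rw [← image_univ, H.bij.image_eq]⟩

theorem exists_homeo {X Y Z : Type*} [TopologicalSpace X] [TopologicalSpace Y] [TopologicalSpace Z]
    {f : Y → Z} {g : X → Z} (hf : IsEmbedding f) (hg : IsEmbedding g) (e : range g = range f) :
    ∃ ψ : X ≃ₜ Y, ∀ x, f (ψ x) = g x := by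
  refine ⟨(hg.toHomeomorph.trans (Homeomorph.setCongr e)).trans hf.toHomeomorph.symm, fun x => ?_⟩
  exact congrArg Subtype.val (hf.toHomeomorph.apply_symm_apply _)

theorem hj_of (L : E2 ≃L[ℝ] ℝ × ℝ) {C D : Set (ℝ × ℝ)} (hC : IsCompact C) (hD : IsCompact D)
    (P : PLS C D) {h : E2 → E2} (hh : IsOpenEmbedding h) (hCU : ∀ x, L x ∈ C → LD h x)
    (hDW : ∀ x, L x ∈ D → L x ∈ ball 0 2 ∨ LD h x) :
    ∃ ψ : E2 ≃ₜ E2, (∃ R : ℝ, ∀ x, R ≤ ‖x‖ → ψ x = x) ∧
      ∀ x, (L x ∈ D ∨ (LD h x ∧ L x ∉ ball 0 2)) → LD (h ∘ ψ) x := by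
  have pL : ∀ x, PLAt L x := plAt_of_univ (pl_clm (L : E2 →L[ℝ] ℝ × ℝ) univ)
  have pL' : ∀ x, PLAt L.symm x := plAt_of_univ (pl_clm (L.symm : ℝ × ℝ →L[ℝ] E2) univ)
  obtain ⟨h', a1, ⟨K, a2, -, a3⟩, O, a4, a5, -, a6⟩ := wrap (E := E2) finrank_euclideanSpace_fin
    isOpen_univ hh.isOpen_range (isOpen_ld h) (W := L ⁻¹' ball 0 2)
    (isOpen_ball.preimage L.continuous) (subset_univ _) (L.toHomeomorph.isCompact_preimage.2 hC)
    hCU (L.toHomeomorph.isCompact_preimage.2 hD) hDW (homeoOn_of_emb hh) (smOn_ld h) (by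
    rintro h1 b1 ⟨V, -, b2, b3⟩
    obtain ⟨b4, b5⟩ := emb_of_homeoOn b1
    obtain ⟨ψ, K, c1, c2, c3, c4⟩ := P (fun z => L (h1 (L.symm z)))
      (L.toHomeomorph.isOpenEmbedding.comp (b4.comp L.symm.toHomeomorph.isOpenEmbedding))
      fun z hz => (pL _).comp ((str_iff.1 b3 _ (b2 (by simpa using hz))).comp (pL' z))
    let χ : E2 ≃ₜ E2 := (L.toHomeomorph.trans ψ).trans L.symm.toHomeomorph
    refine ⟨h1 ∘ χ, ?_, ⟨L ⁻¹' K, L.toHomeomorph.isCompact_preimage.2 c1, preimage_mono c2,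
      fun x hx => ?_⟩, {x | PLAt (h1 ∘ χ) x}, isOpen_iff_mem_nhds.2 fun y hy => PLAt.ev hy,
      fun x hx => ?_, subset_univ _, str_iff.2 fun y hy => hy⟩
    · have := homeoOn_of_emb (b4.comp χ.isOpenEmbedding)
      rwa [χ.surjective.range_comp, b5] at this
    · show h1 (L.symm (ψ (L x))) = h1 x
      rw [c3 _ hx.2, L.symm_apply_apply]
    · refine ((pL' _).comp ((c4 _ hx).comp (pL x))).congr (Eventually.of_forall fun y => ?_)
      simp [χ])
  obtain ⟨b4, b5⟩ := emb_of_homeoOn a1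
  obtain ⟨ψ, hψ⟩ := exists_homeo hh.isEmbedding b4.isEmbedding b5
  obtain ⟨R, hR⟩ := a2.isBounded.subset_ball 0
  refine ⟨ψ, ⟨R, fun x hx => hh.injective ?_⟩, fun x hx => ?_⟩
  · rw [hψ, a3 x ⟨mem_univ x, fun c => absurd (mem_ball_zero_iff.1 (hR c)) (not_lt.2 hx)⟩]
  · rw [show h ∘ ψ = h' from funext hψ]
    exact ld_of_smOn a4 a6 (a5 hx)

/-- handle straightening, core coordinates `J` -/
def HJ (J : Finset (Fin 2)) : Prop :=
  ∀ h : E2 → E2, IsOpenEmbedding h → (∀ x : E2, (∃ i ∈ J, 1 / 2 ≤ |x i|) → LD h x) →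
    ∃ ψ : E2 ≃ₜ E2, (∃ R : ℝ, ∀ x, R ≤ ‖x‖ → ψ x = x) ∧
      ∀ x : E2, (∀ i, i ∉ J → x i = 0) → LD (h ∘ ψ) x

theorem hj_one (L : E2 ≃L[ℝ] ℝ × ℝ) {i j : Fin 2} (hij : j ≠ i) (hL : ∀ x, L x = (x i, x j)) :
    HJ {i} := by
  intro h hh hs
  have hs' : ∀ x : E2, 1 ≤ |x i| → LD h x := fun x hx =>
    hs x ⟨i, Finset.mem_singleton_self i, by linarith⟩
  have c1 : IsCompact {x : ℝ × ℝ | 1 ≤ |x.1| ∧ |x.1| ≤ 2 ∧ |x.2| ≤ 1} := by
    refine (isCompact_closedBall 0 2).of_isClosed_subset (IsClosed.inter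
      (s₁ := {x : ℝ × ℝ | 1 ≤ |x.1|}) (isClosed_le continuous_const (by fun_prop)) (IsClosed.inter
        (s₁ := {x : ℝ × ℝ | |x.1| ≤ 2}) (s₂ := {x : ℝ × ℝ | |x.2| ≤ 1})
        (isClosed_le (by fun_prop) continuous_const) (isClosed_le (by fun_prop) continuous_const)))
      fun x hx => ?_
    rw [mem_closedBall_zero_iff, Prod.norm_def, max_le_iff]
    exact ⟨hx.2.1, hx.2.2.trans one_le_two⟩
  have c2 : IsCompact {x : ℝ × ℝ | |x.1| ≤ 2 ∧ x.2 = 0} := by
    refine (isCompact_closedBall 0 2).of_isClosed_subset (IsClosed.inter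
      (s₁ := {x : ℝ × ℝ | |x.1| ≤ 2}) (isClosed_le (by fun_prop) continuous_const)
      (isClosed_eq continuous_snd continuous_const)) fun x hx => ?_
    rw [mem_closedBall_zero_iff, Prod.norm_def, max_le_iff]
    exact ⟨hx.1, by rw [hx.2]; simp⟩
  obtain ⟨ψ, p1, p2⟩ := hj_of L c1 c2 pls1 hh (fun x hx => hs' x (by rw [hL] at hx; exact hx.1))
    fun x hx => by
      rw [hL] at hx ⊢
      rcases le_or_gt 1 |x i| with c | c
      · exact Or.inr (hs' x c)
      · left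
        rw [mem_ball_zero_iff, Prod.norm_def, max_lt_iff]
        exact ⟨c.trans one_lt_two, by rw [hx.2]; simp⟩
  refine ⟨ψ, p1, fun x hx => p2 x ?_⟩
  rw [hL]
  rcases le_or_gt |x i| 2 with c | c
  · exact Or.inl ⟨c, hx j (by simpa using hij)⟩
  · refine Or.inr ⟨hs' x (by linarith), fun h' => ?_⟩
    rw [mem_ball_zero_iff, Prod.norm_def, max_lt_iff] at h'
    exact absurd h'.1 (not_lt.2 c.le)

/-- coordinates -/
def crd : E2 ≃L[ℝ] ℝ × ℝ :=
  (EuclideanSpace.equiv (Fin 2) ℝ).trans (ContinuousLinearEquiv.finTwoArrow ℝ ℝ)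

theorem crd_apply (x : E2) : crd x = (x 0, x 1) := rfl

theorem hj_two : HJ Finset.univ := by
  intro h hh hs
  have hs' : ∀ x : E2, crd x ∉ ball 0 1 → LD h x := fun x hx => hs x (by
    rw [mem_ball_zero_iff, crd_apply, Prod.norm_def, max_lt_iff, not_and_or, not_lt, not_lt] at hx
    rcases hx with c | c
    · exact ⟨0, Finset.mem_univ _, le_trans (by norm_num) c⟩
    · exact ⟨1, Finset.mem_univ _, le_trans (by norm_num) c⟩)
  have hs2 : ∀ x : E2, crd x ∉ ball 0 2 → LD h x := fun x hx =>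
    hs' x fun c => hx (ball_subset_ball one_le_two c)
  obtain ⟨ψ, p1, p2⟩ := hj_of crd ((isCompact_closedBall 0 2).diff isOpen_ball)
    (isCompact_closedBall 0 2) pls2 hh (fun x hx => hs' x hx.2)
    fun x _ => (em _).imp_right (hs2 x)
  refine ⟨ψ, p1, fun x _ => p2 x ?_⟩
  by_cases c : crd x ∈ ball 0 2
  exacts [Or.inl (ball_subset_closedBall c), Or.inr ⟨hs2 x c, c⟩]

/-- **handle straightening in the plane**, positive index -/
theorem hj {J : Finset (Fin 2)} (hJ : J.Nonempty) : HJ J := by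
  have : ∀ J : Finset (Fin 2), J.Nonempty → J = {0} ∨ J = {1} ∨ J = Finset.univ := by decide
  rcases this J hJ with rfl | rfl | rfl
  · exact hj_one crd (j := 1) (by decide) crd_apply
  · exact hj_one (crd.trans (ContinuousLinearEquiv.prodComm ℝ ℝ ℝ)) (j := 0) (by decide)
      fun _ => rfl
  · exact hj_two

end Crest.Agent.X212.Sm25
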