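import Crest.Agent.X212.Sm25.Disc
import Crest.Agent.X212.Flo26.More

/-!
Row 212, layer H, package FILL (helper25), part 1: immersions, global flows, and the disc theorem
in a regular level surface of `ℝ³`.
-/

set_option autoImplicit false
set_option linter.style.longLine false
set_option linter.unusedSectionVars false

open Set Filter Topology Function Metric
open scoped ContDiff Manifold
open Crest.Agent.X212.Glue52

noncomputable section

namespace Crest.Agent.X212.Sm25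

section Imm
variable {E F G : Type*} [NormedAddCommGroup E] [NormedSpace ℝ E] [NormedAddCommGroup F]
  [NormedSpace ℝ F] [NormedAddCommGroup G] [NormedSpace ℝ G]

/-- smooth near `z`, injective differential at `z` -/
def Imm (g : E → F) (z : E) : Prop :=
  (∀ᶠ y in 𝓝 z, ContDiffAt ℝ ∞ g y) ∧ Injective (fderiv ℝ g z)

variable {f : E → F} {g : F → G} {z : E}

theorem Imm.cd (h : Imm f z) : ContDiffAt ℝ ∞ f z := h.1.self_of_nhds

theorem Imm.df (h : Imm f z) : DifferentiableAt ℝ f z := h.cd.differentiableAt (by simp)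

theorem Imm.congr {f' : E → F} (h : Imm f z) (e : f' =ᶠ[𝓝 z] f) : Imm f' z := by
  refine ⟨?_, by rw [e.fderiv_eq]; exact h.2⟩
  filter_upwards [h.1, e.eventually_nhds] with y hy ey using hy.congr_of_eventuallyEq ey

theorem Imm.comp (hg : Imm g (f z)) (hf : Imm f z) : Imm (g ∘ f) z := by
  refine ⟨?_, by rw [fderiv_comp z hg.df hf.df]; exact hg.2.comp hf.2⟩
  filter_upwards [hf.1, hf.cd.continuousAt.eventually hg.1] with y a b using b.comp y a

theorem Imm.of_comp (hf : ∀ᶠ y in 𝓝 z, ContDiffAt ℝ ∞ f y) (hg : DifferentiableAt ℝ g (f z))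
    (h : Injective (fderiv ℝ (g ∘ f) z)) : Imm f z := by
  rw [fderiv_comp z hg (hf.self_of_nhds.differentiableAt (by simp))] at h
  exact ⟨hf, Injective.of_comp (f := fderiv ℝ g (f z)) h⟩

theorem imm_of_ld (h : IsLocalDiffeomorphAt 𝓘(ℝ, E) 𝓘(ℝ, F) ∞ f z) : Imm f z := by
  refine ⟨?_, ?_⟩
  · filter_upwards [(isOpen_ld f).mem_nhds h] with y hy
      using contMDiffAt_iff_contDiffAt.1 hy.contMDiffAt
  · have e2 := h.mfderivToContinuousLinearEquiv_coe (by simp)
    rw [mfderiv_eq_fderiv] at e2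
    rw [← e2]
    exact (h.mfderivToContinuousLinearEquiv (by simp)).injective

theorem Imm.ld [FiniteDimensional ℝ E] [FiniteDimensional ℝ F] (h : Imm f z)
    (hd : Module.finrank ℝ E = Module.finrank ℝ F) :
    IsLocalDiffeomorphAt 𝓘(ℝ, E) 𝓘(ℝ, F) ∞ f z := by
  obtain ⟨s, hs, so, xs⟩ := _root_.eventually_nhds_iff.1 h.1
  refine ld_of_injective_mfderiv hd so xs
    (contMDiffOn_iff_contDiffOn.2 fun y hy => (hs y hy).contDiffWithinAt) ?_
  rw [mfderiv_eq_fderiv]
  exact h.2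

theorem Imm.ev [FiniteDimensional ℝ E] (h : Imm f z) : ∀ᶠ y in 𝓝 z, Imm f y := by
  have h1 : ContinuousAt (fderiv ℝ f) z := (h.cd.fderiv_right (m := 0) (by simp)).continuousAt
  filter_upwards [h.1.eventually_nhds, h1.eventually
    (ContinuousLinearMap.isOpen_injective.mem_nhds h.2)] with y a b using ⟨a, b⟩

theorem ld_inj {H H' M N : Type*} [TopologicalSpace H] [TopologicalSpace H']
    {I : ModelWithCorners ℝ E H} {J : ModelWithCorners ℝ F H'} [TopologicalSpace M]
    [ChartedSpace H M] [TopologicalSpace N] [ChartedSpace H' N] {f : M → N} {x : M}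
    (h : IsLocalDiffeomorphAt I J ∞ f x) : (∃ u ∈ 𝓝 x, InjOn f u) ∧ map f (𝓝 x) = 𝓝 (f x) := by
  obtain ⟨Φ, hx, e⟩ := h
  have m := Φ.open_source.mem_nhds hx
  refine ⟨⟨_, m, fun a ha b hb h => Φ.injOn ha hb (by rw [← e ha, ← e hb]; exact h)⟩, ?_⟩
  rw [map_congr (e.eventuallyEq_of_mem m), e hx]
  exact Φ.toOpenPartialHomeomorph.map_nhds_eq hx

theorem fderiv_zero_of_const {l : F → ℝ} {c : ℝ} (hl : DifferentiableAt ℝ l (f z))
    (hf : DifferentiableAt ℝ f z) (h : ∀ᶠ y in 𝓝 z, l (f y) = c) (w : E) :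
    fderiv ℝ l (f z) (fderiv ℝ f z w) = 0 := by
  have h1 : fderiv ℝ (l ∘ f) z = 0 := by
    rw [EventuallyEq.fderiv_eq (f₁ := l ∘ f) (f := fun _ => c) h]; simp
  rw [fderiv_comp z hl hf] at h1
  exact congrArg (fun A : E →L[ℝ] ℝ => A w) h1

/-- a global smooth flow -/
structure Fw (X : F → F) (φ : ℝ → F → F) : Prop where
  sm : ContDiff ℝ ∞ fun q : ℝ × F => φ q.1 q.2
  zero : ∀ x, φ 0 x = x
  add : ∀ s t x, φ (s + t) x = φ s (φ t x)
  der : ∀ x t, HasDerivAt (fun s => φ s x) (X (φ t x)) t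

theorem exists_fw [CompleteSpace F] {X : F → F} (hX : ContDiff ℝ ∞ X) {K : Set F}
    (hK : IsCompact K) (h0 : ∀ x ∉ K, X x = 0) : ∃ φ, Fw X φ := by
  have hv : Flo26.SmV 𝓘(ℝ, F) X := Flo26.smV_model.2 hX
  have hc : Flo26.Cpl (I := 𝓘(ℝ, F)) X := Flo26.complete_of_compact hv hK h0
  refine ⟨Flo26.fl (I := 𝓘(ℝ, F)) X, ?_, Flo26.fl_zero hv, hc.add hv, fun x t =>
    hasMFDerivAt_iff_hasFDerivAt.1 (hc.curve hv x t)⟩
  have := hc.contMDiff hv
  rw [← modelWithCornersSelf_prod, chartedSpaceSelf_prod] at this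
  exact this.contDiff

namespace Fw
variable {X : F → F} {φ : ℝ → F → F} (h : Fw X φ)
include h

theorem neg (t : ℝ) (x : F) : φ (-t) (φ t x) = x := by rw [← h.add, neg_add_cancel, h.zero]

theorem cd (t : ℝ) : ContDiff ℝ ∞ (φ t) := h.sm.comp (f := fun x => (t, x)) (by fun_prop)

theorem imm (t : ℝ) (x : F) : Imm (φ t) x :=
  .of_comp (g := φ (-t)) (Eventually.of_forall fun _ => (h.cd t).contDiffAt)
    ((h.cd _).differentiable (by simp) _) (by
      rw [show φ (-t) ∘ φ t = id from funext (h.neg t), fderiv_id]; exact injective_id)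

theorem cdAt {τ : E → ℝ} (hτ : ContDiffAt ℝ ∞ τ z) (hf : ContDiffAt ℝ ∞ f z) :
    ContDiffAt ℝ ∞ (fun y => φ (τ y) (f y)) z :=
  h.sm.contDiffAt.comp (f := fun y => (τ y, f y)) z (hτ.prodMk hf)

/-- a function with constant derivative along the field -/
theorem ev_add {l : F → ℝ} {κ : ℝ} (hf : ContinuousAt f z)
    (hl : ∀ᶠ y in 𝓝 (f z), DifferentiableAt ℝ l y ∧ fderiv ℝ l y (X y) = κ) :
    ∀ᶠ q : E × ℝ in 𝓝 (z, 0), l (φ q.2 (f q.1)) = l (f q.1) + q.2 * κ := by
  have c : ContinuousAt (fun q : E × ℝ => φ q.2 (f q.1)) (z, 0) :=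
    h.sm.continuous.continuousAt.comp (f := fun q : E × ℝ => (q.2, f q.1))
      (continuousAt_snd.prodMk (ContinuousAt.comp (f := Prod.fst) hf continuousAt_fst))
  have h1 := c.eventually (by simpa only [h.zero] using hl)
  rw [nhds_prod_eq] at h1 ⊢
  obtain ⟨A, hA, T, hT, h2⟩ := eventually_prod_iff.1 h1
  obtain ⟨ε, hε, h3⟩ := Metric.eventually_nhds_iff_ball.1 hT
  filter_upwards [prod_mem_prod hA (ball_mem_nhds 0 hε)] with ⟨y, a⟩ ⟨h4, h5⟩
  have h6 : ∀ s ∈ ball (0 : ℝ) ε, HasDerivWithinAt (fun s => l (φ s (f y)) - s * κ) 0 (ball 0 ε) s :=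
    fun s hs => by
      obtain ⟨b1, b2⟩ := h2 h4 (h3 s hs)
      have := (b1.hasFDerivAt.comp_hasDerivAt s (h.der (f y) s)).sub ((hasDerivAt_id s).mul_const κ)
      rw [b2, one_mul, sub_self] at this
      exact this.hasDerivWithinAt
  have h7 := (convex_ball (0 : ℝ) ε).norm_image_sub_le_of_norm_hasDerivWithin_le (C := 0) h6
    (fun _ _ => by simp) (mem_ball_self hε) h5
  simp only [h.zero, zero_mul, sub_zero, norm_le_zero_iff] at h7
  linarith

/-- thickening of an immersion along a transverse field -/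
theorem thick (hf : Imm f z) {l : F →L[ℝ] ℝ} (h1 : ∀ w, l (fderiv ℝ f z w) = 0)
    (h2 : l (X (f z)) ≠ 0) (a : ℝ) : Imm (fun q : E × ℝ => φ q.2 (f q.1)) (z, a) := by
  have sm : ∀ᶠ q : E × ℝ in 𝓝 (z, 0), ContDiffAt ℝ ∞ (fun q : E × ℝ => φ q.2 (f q.1)) q := by
    filter_upwards [(continuousAt_fst (p := (z, (0 : ℝ)))).eventually hf.1] with q hq
      using h.cdAt contDiffAt_snd (hq.comp q contDiffAt_fst)
  have i0 : Imm (fun q : E × ℝ => φ q.2 (f q.1)) (z, 0) := by
    refine ⟨sm, (injective_iff_map_eq_zero _).2 fun w hw => ?_⟩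
    have d := (sm.self_of_nhds.differentiableAt (by simp)).hasFDerivAt
    set D := fderiv ℝ (fun q : E × ℝ => φ q.2 (f q.1)) (z, 0)
    have d1 : HasFDerivAt f (D.comp (ContinuousLinearMap.inl ℝ E ℝ)) z := by
      simpa only [comp_def, h.zero] using
        d.comp (f := fun e : E => (e, (0 : ℝ))) z (hasFDerivAt_prodMk_left (𝕜 := ℝ) z (0 : ℝ))
    have d2 : HasDerivAt (fun s => φ s (f z)) (D (0, 1)) 0 :=
      d.comp_hasDerivAt (f := fun s : ℝ => (z, s)) 0
        ((hasDerivAt_const _ z).prodMk (hasDerivAt_id _))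
    have e2 : D (0, 1) = X (f z) := by rw [d2.unique (h.der _ 0), h.zero]
    have e3 : D w = fderiv ℝ f z w.1 + w.2 • X (f z) := by
      rw [d1.fderiv, ← e2, ← map_smul, ContinuousLinearMap.comp_apply, ← map_add]
      simp
    rw [e3] at hw
    have e4 := congrArg l hw
    rw [map_add, h1, map_smul, zero_add, map_zero, smul_eq_zero] at e4
    have e5 := e4.resolve_right h2
    rw [e5, zero_smul, add_zero] at hw
    exact Prod.ext ((injective_iff_map_eq_zero _).1 hf.2 _ hw) e5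
  have i1 : Imm (fun q : E × ℝ => q - (0, a)) (z, a) :=
    ⟨Eventually.of_forall fun _ => by fun_prop, by
      rw [fderiv_sub_const, fderiv_fun_id]; exact injective_id⟩
  refine ((h.imm a _).comp (Imm.comp (by simpa using i0) i1)).congr
    (Eventually.of_forall fun q => ?_)
  simp [← h.add]

end Fw

/-- a compactly supported smooth solution of convex conditions near a compact set -/
theorem exists_field [FiniteDimensional ℝ E] {K : Set E} (hK : IsCompact K) {t : E → Set F}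
    (ht : ∀ y, Convex ℝ (t y))
    (h : ∀ x ∈ K, ∃ V ∈ 𝓝 x, ∃ g : E → F, ContDiffOn ℝ ∞ g V ∧ ∀ y ∈ V, g y ∈ t y) :
    ∃ (X : E → F) (K' : Set E), ContDiff ℝ ∞ X ∧ IsCompact K' ∧ (∀ y ∉ K', X y = 0) ∧
      ∀ᶠ y in 𝓝ˢ K, X y ∈ t y := by
  have hO : IsOpen {x | ∃ V ∈ 𝓝 x, ∃ g : E → F, ContDiffOn ℝ ∞ g V ∧ ∀ y ∈ V, g y ∈ t y} :=
    isOpen_iff_mem_nhds.2 fun x ⟨V, hV, r⟩ => by
      filter_upwards [eventually_mem_nhds_iff.2 hV] with y hy using ⟨V, hy, r⟩
  obtain ⟨K1, a1, a2, a3⟩ := exists_compact_between hK hO h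
  obtain ⟨K2, b1, b2, -⟩ := exists_compact_between a1 isOpen_univ (subset_univ _)
  obtain ⟨g, hg⟩ := exists_contMDiffMap_forall_mem_convex_of_local (n := (⊤ : ℕ∞)) 𝓘(ℝ, E)
    (t := fun y => {w : F | (y ∈ K1 → w ∈ t y) ∧ (y ∉ K2 → w = 0)})
    (fun y w hw w' hw' a b ha hb hab => ⟨fun m => ht y (hw.1 m) (hw'.1 m) ha hb hab,
      fun m => by rw [hw.2 m, hw'.2 m]; simp⟩) fun x => by
      by_cases hx : x ∈ K1
      · obtain ⟨V, hV, g, g1, g2⟩ := a3 hx
        exact ⟨_, inter_mem hV (mem_interior_iff_mem_nhds.1 (b2 hx)), g,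
          (g1.mono inter_subset_left).contMDiffOn, fun y hy => ⟨fun _ => g2 y hy.1,
            fun m => absurd hy.2 m⟩⟩
      · exact ⟨_, a1.isClosed.isOpen_compl.mem_nhds hx, fun _ => 0, contMDiffOn_const,
          fun y hy => ⟨fun m => absurd m hy, fun _ => rfl⟩⟩
  refine ⟨g, K2, g.contMDiff.contDiff, b1, fun y => (hg y).2, ?_⟩
  filter_upwards [isOpen_interior.mem_nhdsSet.2 a2] with y hy using (hg y).1 (interior_subset hy)

/-- cut-off functions -/
theorem exists_bump [FiniteDimensional ℝ E] {K O : Set E} (hK : IsCompact K) (hO : IsOpen O)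
    (h : K ⊆ O) : ∃ (χ : E → ℝ) (K' : Set E), ContDiff ℝ ∞ χ ∧ IsCompact K' ∧ K' ⊆ O ∧
      (∀ y, χ y ∈ Icc (0 : ℝ) 1) ∧ (∀ y ∉ K', χ y = 0) ∧ ∀ᶠ y in 𝓝ˢ K, χ y = 1 := by
  obtain ⟨K', a1, a2, a3⟩ := exists_compact_between hK hO h
  obtain ⟨f, b1, b2, b3⟩ := exists_contMDiffMap_one_nhds_of_subset_interior (n := (⊤ : ℕ∞))
    𝓘(ℝ, E) hK.isClosed a2
  exact ⟨f, K', f.contMDiff.contDiff, a1, a3, b3, b2, b1⟩

end Imm

open Crest.Agent.X212.Glb47 (E3)

section Level
variable {f : E3 → ℝ} {O : Set E3} {c : ℝ}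

theorem exists_chart (hO : IsOpen O) (hf : ContDiffOn ℝ ∞ f O) (h0 : ∀ y ∈ O, fderiv ℝ f y ≠ 0)
    (x : {y // y ∈ O ∧ f y = c}) :
    ∃ (e : OpenPartialHomeomorph {y // y ∈ O ∧ f y = c} E2) (L : E3 →L[ℝ] E2), x ∈ e.source ∧
      (∀ y, e y = L y) ∧ ContDiffOn ℝ ∞ (fun z => (e.symm z : E3)) e.target ∧
      ∀ w, L w = 0 → fderiv ℝ f x w = 0 → w = 0 := by
  classical
  set D := fderiv ℝ f x with hD
  have hk : Module.finrank ℝ (LinearMap.ker D.toLinearMap) = Module.finrank ℝ E2 := by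
    have := Module.Dual.finrank_ker_add_one_of_ne_zero (f := D.toLinearMap)
      fun h => h0 _ x.2.1 (ContinuousLinearMap.coe_injective h)
    simp only [finrank_euclideanSpace, Fintype.card_fin] at this ⊢
    omega
  let L : E3 →L[ℝ] E2 := (ContinuousLinearEquiv.ofFinrankEq hk : _ →L[ℝ] E2).comp
    (LinearMap.ker D.toLinearMap).orthogonalProjectionOnto
  have hL : ∀ w, L w = 0 → D w = 0 → w = 0 := fun w h1 h2 => by
    have h3 : (LinearMap.ker D.toLinearMap).orthogonalProjectionOnto w = 0 :=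
      (ContinuousLinearEquiv.ofFinrankEq hk).map_eq_zero_iff.1 h1
    exact congrArg Subtype.val ((Submodule.orthogonalProjectionOnto_mem_subspace_eq_self
      (K := LinearMap.ker D.toLinearMap) ⟨w, h2⟩).symm.trans h3)
  have d := ((hf.contDiffAt (hO.mem_nhds x.2.1)).differentiableAt (by simp)).hasFDerivAt
  have i : Imm (fun y => (L y, f y - c)) x := by
    refine ⟨?_, ?_⟩
    · filter_upwards [hO.mem_nhds x.2.1] with y hy using
        L.contDiff.contDiffAt.prodMk ((hf.contDiffAt (hO.mem_nhds hy)).sub contDiffAt_const)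
    · rw [(L.hasFDerivAt.prodMk (d.sub_const c)).fderiv]
      exact (injective_iff_map_eq_zero _).2 fun w hw =>
        hL w (congrArg Prod.fst hw) (congrArg Prod.snd hw)
  obtain ⟨Φ0, x0, e0⟩ := i.ld (by simp)
  let Φ := pdRestr Φ0 O hO
  have e : ∀ y ∈ Φ.source, Φ y = (L y, f y - c) := fun y hy => (e0 hy.1).symm
  have r : ∀ z, (z, (0 : ℝ)) ∈ Φ.target → (L (Φ.symm (z, 0)), f (Φ.symm (z, 0)) - c) = (z, 0) :=
    fun z hz => (e _ (Φ.map_target hz)).symm.trans (Φ.right_inv hz)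
  let k : E2 → {y // y ∈ O ∧ f y = c} := fun z => if hz : (z, (0 : ℝ)) ∈ Φ.target then
    ⟨Φ.symm (z, 0), (Φ.map_target hz).2, sub_eq_zero.1 (congrArg Prod.snd (r z hz))⟩ else x
  have kv : ∀ z, (z, (0 : ℝ)) ∈ Φ.target → (k z : E3) = Φ.symm (z, 0) := fun z hz =>
    congrArg Subtype.val (dif_pos hz)
  have e' : ∀ y : {y // y ∈ O ∧ f y = c}, (y : E3) ∈ Φ.source → Φ y = (L y, 0) := fun y hy => by
    rw [e _ hy, y.2.2, sub_self]
  have sm : ContDiffOn ℝ ∞ (fun z => (k z : E3)) {z | (z, (0 : ℝ)) ∈ Φ.target} :=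
    ((contMDiffOn_iff_contDiffOn.1 Φ.contMDiffOn_invFun).comp (f := fun z : E2 => (z, (0 : ℝ)))
      (by fun_prop) fun z hz => hz).congr kv
  refine ⟨{ toFun := fun y => L y, invFun := k, source := Subtype.val ⁻¹' Φ.source
            target := {z | (z, (0 : ℝ)) ∈ Φ.target}
            map_source' := fun y hy => by
              show _ ∈ Φ.target
              rw [← e' y hy]; exact Φ.map_source hy
            map_target' := fun z hz => by
              show _ ∈ Φ.source
              rw [kv z hz]; exact Φ.map_target hz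
            left_inv' := fun y hy => Subtype.ext (by
              rw [kv _ (by rw [← e' y hy]; exact Φ.map_source hy), ← e' y hy]; exact Φ.left_inv hy)
            right_inv' := fun z hz => by rw [kv z hz]; exact congrArg Prod.fst (r z hz)
            open_source := Φ.open_source.preimage continuous_subtype_val
            open_target := Φ.open_target.preimage (by fun_prop)
            continuousOn_toFun := (L.continuous.comp continuous_subtype_val).continuousOn
            continuousOn_invFun := IsInducing.subtypeVal.continuousOn_iff.2 sm.continuousOn },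
    L, ⟨x0, x.2.1⟩, fun _ => rfl, sm, hL⟩

/-- **DISC** in a regular level surface -/
theorem disc3 (hO : IsOpen O) (hf : ContDiffOn ℝ ∞ f O) (h0 : ∀ y ∈ O, fderiv ℝ f y ≠ 0)
    {a k : ℂ → E3} {ε : ℝ} (hε : 0 < ε)
    (ha : ∀ z ∈ An (1 - ε) (1 + ε), Imm a z ∧ a z ∈ O ∧ f (a z) = c)
    (hai : InjOn a (An (1 - ε) (1 + ε)))
    (hk : ContinuousOn k (closedBall 0 1)) (hki : InjOn k (closedBall 0 1))
    (hkm : ∀ z ∈ closedBall (0 : ℂ) 1, k z ∈ O ∧ f (k z) = c)
    (hb : k '' sphere 0 1 = a '' sphere 0 1)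
    (ho : ∀ z ∈ An 1 (1 + ε), a z ∉ k '' closedBall 0 1) :
    ∃ δ > 0, ∃ g : ℂ → E3, (∀ z ∈ ball (0 : ℂ) (1 + δ), Imm g z ∧ f (g z) = c) ∧
      InjOn g (ball 0 (1 + δ)) ∧ (∀ z ∈ An (1 - δ) (1 + δ), g z = a z) ∧
      g '' closedBall 0 1 = k '' closedBall 0 1 := by
  classical
  choose e L e1 e2 e3 e4 using exists_chart (c := c) hO hf h0
  let A : Atl E2 {y // y ∈ O ∧ f y = c} {y // y ∈ O ∧ f y = c} :=
    ⟨e, fun x => ⟨x, e1 x⟩, fun i j => (((L j).contDiff.comp_contDiffOn (e3 i)).mono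
      fun z hz => hz.1).congr fun z _ => e2 j _⟩
  let _ := A.cs
  have := A.mf
  let up : (ℂ → E3) → ℂ → {y // y ∈ O ∧ f y = c} := fun u z =>
    if h : u z ∈ O ∧ f (u z) = c then ⟨u z, h⟩ else ⟨k 0, hkm 0 (by simp)⟩
  have upv : ∀ u z, u z ∈ O ∧ f (u z) = c → (up u z : E3) = u z := fun u z h =>
    congrArg Subtype.val (dif_pos h)
  have hS : sphere (0 : ℂ) 1 ⊆ An (1 - ε) (1 + ε) := fun w hw => by
    have := mem_sphere_zero_iff_norm.1 hw
    constructor <;> linarith
  have im : ∀ (u : ℂ → E3) (s : Set ℂ), (∀ z ∈ s, u z ∈ O ∧ f (u z) = c) →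
      Subtype.val '' (up u '' s) = u '' s := fun u s h => by
    rw [image_image]; exact image_congr fun z hz => upv u z (h z hz)
  obtain ⟨δ, d0, d1, g, g1, g2, g3, g4⟩ := disc (I := 𝓘(ℝ, E2)) (.refl ℝ E2) (c := up a)
    (k := up k) hε (fun z hz => by
      have ev : ∀ᶠ w in 𝓝 z, (up a w : E3) = a w ∧ f (a w) = c := by
        filter_upwards [(isOpen_An _ _).mem_nhds hz] with w hw
          using ⟨upv a w (ha w hw).2, (ha w hw).2.2⟩
      refine A.ld_of_chart (IsInducing.subtypeVal.continuousAt_iff.2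
        ((ha z hz).1.cd.continuousAt.congr (ev.mono fun w hw => hw.1.symm))) (up a z) (e1 _)
        (Imm.ld (Imm.congr (f := L (up a z) ∘ a) ⟨?_, ?_⟩ ?_) (by simp))
      · filter_upwards [(ha z hz).1.1] with w hw using (L _).contDiff.contDiffAt.comp w hw
      · rw [fderiv_comp z (L _).differentiableAt (ha z hz).1.df, ContinuousLinearMap.fderiv]
        refine (injective_iff_map_eq_zero _).2 fun w hw =>
          (injective_iff_map_eq_zero _).1 (ha z hz).1.2 w (e4 _ _ hw ?_)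
        rw [ev.self_of_nhds.1]
        exact fderiv_zero_of_const ((hf.contDiffAt (hO.mem_nhds (ha z hz).2.1)).differentiableAt
          (by simp)) (ha z hz).1.df (ev.mono fun w hw => hw.2) w
      · filter_upwards [ev] with w hw
        show e _ (up a w) = L _ (a w)
        rw [e2, hw.1])
    (fun z hz w hw h => hai hz hw (by
      rw [← upv a z (ha z hz).2, h, upv a w (ha w hw).2]))
    (IsInducing.subtypeVal.continuousOn_iff.2 (hk.congr fun z hz => upv k z (hkm z hz)))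
    (fun z hz w hw h => hki hz hw (by rw [← upv k z (hkm z hz), h, upv k w (hkm w hw)]))
    (Subtype.val_injective.image_injective (by
      rw [im k _ fun z hz => hkm z (sphere_subset_closedBall hz), im a _ fun z hz => (ha z (hS hz)).2,
        hb])) fun z hz h => ho z hz (by
      rw [← im k _ hkm, ← upv a z (ha z ⟨by linarith [hz.1], hz.2⟩).2]
      exact mem_image_of_mem _ h)
  refine ⟨δ, d0, fun z => g z, fun z hz => ⟨?_, (g z).2.2⟩,
    fun z hz w hw h => g2 hz hw (Subtype.ext h), fun z hz => ?_, by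
      rw [← im k _ hkm, ← g4, image_image]⟩
  · have i := imm_of_ld ((g1 z hz).comp _ _ (A.ld_e (g z) (e1 _)))
    have c1 := (g1 z hz).contMDiffAt.continuousAt
    refine Imm.of_comp (g := L (g z)) ?_ (L _).differentiableAt ?_
    · filter_upwards [i.1, (c1.eventually ((e (g z)).open_source.mem_nhds (e1 _))).eventually_nhds]
        with w a1 a2
      refine (((e3 (g z)).contDiffAt ((e _).open_target.mem_nhds
        ((e _).map_source a2.self_of_nhds))).comp w a1).congr_of_eventuallyEq ?_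
      filter_upwards [a2] with u hu using congrArg Subtype.val ((e _).left_inv hu).symm
    · rw [show (L (g z) ∘ fun z => (g z : E3)) = A.e (g z) ∘ g from funext fun w => (e2 _ _).symm]
      exact i.2
  · simp only [g3 z hz.1.le]
    exact upv a z (ha z ⟨by linarith [hz.1], by linarith [hz.2]⟩).2

end Level

end Crest.Agent.X212.Sm25
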