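import Crest.Agent.X212.Sm25.PLH

/-!
Row 212, layer H, package SM2 (helper25), part 5: the ladder (PL handles of index one in the plane).
-/

set_option autoImplicit false
set_option linter.style.longLine false

open Set Metric Filter Topology Function

namespace Crest.Agent.X212.Sm25

open Crest.Agent.R096 Crest.Agent.R096.Ce_537 Crest.Agent.X212.Lad50 Crest.Agent.X212.Cor42
open Crest.Agent.X212.Smo49 (PLAt plAt_of_univ str_iff sq sqi plAt_sq plAt_sqi)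

variable {H : ℝ × ℝ → ℝ × ℝ}

/-- a ladder: `s` straightens the rungs -/
structure Ldr (H s : ℝ × ℝ → ℝ × ℝ) : Prop where
  emb : IsOpenEmbedding H
  pt : ∀ x : ℝ × ℝ, |x.1| = 1 → PLAt H x
  out : ∀ x : ℝ × ℝ, 1 ≤ |x.1| → s x = x
  pl : ∀ n : ℤ, PLOn (fun t : ℝ => H (s (t, n))) (Icc (-1) 1)
  inj : ∀ n : ℤ, InjOn (fun t : ℝ => s (t, n)) (Icc (-1) 1)
  ins : ∀ (n : ℤ) (t : ℝ), |t| < 1 → |(s (t, n)).1| < 1
  ht : ∀ (n : ℤ) (t : ℝ), |t| ≤ 1 → |(s (t, n)).2 - n| < 1 / 3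

theorem exists_ldr (hH : IsOpenEmbedding H) (hp : ∀ x : ℝ × ℝ, |x.1| = 1 → PLAt H x) :
    ∃ s, Ldr H s := by
  choose a a1 a2 a3 a4 a5 using rung hH hp
  let s : ℝ × ℝ → ℝ × ℝ := fun x => if |x.1| < 1 then a x.2 x.1 else x
  have e : ∀ t n : ℝ, |t| ≤ 1 → s (t, n) = a n t := fun t n ht => by
    rcases ht.eq_or_lt with c | c
    · rw [a3 n t c]; exact if_neg c.not_lt
    · exact if_pos c
  refine ⟨s, hH, hp, fun x hx => if_neg (not_lt.2 hx), fun n => (a1 n).congr fun t ht => ?_,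
    fun n => (a2 n).congr fun t ht => (e t n (abs_le.2 ht)).symm, fun n t ht => ?_, fun n t ht => ?_⟩
  · simp only [e t n (abs_le.2 ht)]
  · rw [e t n ht.le]; exact a4 n t ht
  · rw [e t n ht]; exact a5 n t ht

/-- the parametrisation of a block -/
noncomputable def bl (n : ℤ) (z : ℝ × ℝ) : ℝ × ℝ := (z.1, n + (z.2 + 1) / 2)
/-- its inverse -/
noncomputable def lb (n : ℤ) (x : ℝ × ℝ) : ℝ × ℝ := (x.1, 2 * (x.2 - n) - 1)

theorem bl_lb (n : ℤ) (x : ℝ × ℝ) : bl n (lb n x) = x := by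
  ext <;> simp only [bl, lb]; ring

theorem lb_bl (n : ℤ) (x : ℝ × ℝ) : lb n (bl n x) = x := by
  ext <;> simp only [bl, lb]; ring

/-- the graph of the ladder together with the outside -/
def Gam : Set (ℝ × ℝ) := {x | 1 ≤ |x.1| ∨ ∃ n : ℤ, x.2 = n}

theorem bl_mem (n : ℤ) {z : ℝ × ℝ} (hz : z ∈ sphere (0 : ℝ × ℝ) 1) : bl n z ∈ Gam := by
  rcases (mem_dsq.1 hz).2.2 with c | c
  · exact Or.inl c.ge
  · rcases (abs_eq zero_le_one).1 c with c | c
    · exact Or.inr ⟨n + 1, by simp [bl, c]⟩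
    · exact Or.inr ⟨n, by simp [bl, c]⟩

namespace Ldr

variable {s : ℝ × ℝ → ℝ × ℝ} (L : Ldr H s)
include L

theorem cases {x : ℝ × ℝ} (hx : x ∈ Gam) : (1 ≤ |x.1| ∧ s x = x) ∨
    ∃ n : ℤ, |x.1| < 1 ∧ x = (x.1, (n : ℝ)) ∧ |(s x).1| < 1 ∧ |(s x).2 - n| < 1 / 3 := by
  rcases le_or_gt 1 |x.1| with c | c
  · exact Or.inl ⟨c, L.out x c⟩
  · obtain ⟨n, hn⟩ := hx.resolve_left (not_le.2 c)
    have e : x = (x.1, (n : ℝ)) := Prod.ext rfl hn
    exact Or.inr ⟨n, c, e, by rw [e]; exact L.ins n _ c, by rw [e]; exact L.ht n _ c.le⟩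

theorem injOn : InjOn s Gam := by
  intro x hx y hy e
  rcases L.cases hx with ⟨a1, a2⟩ | ⟨n, a1, a2, a3, a4⟩ <;>
    rcases L.cases hy with ⟨b1, b2⟩ | ⟨m, b1, b2, b3, b4⟩
  · rwa [a2, b2] at e
  · rw [← e, a2] at b3; exact absurd b3 (not_lt.2 a1)
  · rw [e, b2] at a3; exact absurd a3 (not_lt.2 b1)
  · rw [e] at a4
    have h1 : |(n : ℝ) - m| < 1 := by
      rw [abs_lt] at a4 b4 ⊢; constructor <;> linarith [a4.1, a4.2, b4.1, b4.2]
    have h2 : |n - m| < 1 := by exact_mod_cast h1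
    obtain rfl : n = m := by rw [abs_lt] at h2; omega
    rw [a2, b2] at e ⊢
    rw [L.inj n (abs_le.1 a1.le) (abs_le.1 b1.le) e]

theorem pl_bd (n : ℤ) : PLOn (fun z => H (s (bl n z))) (sphere 0 1) := by
  have p1 : ∀ (m : ℤ) (c : ℝ), n + (c + 1) / 2 = m →
      PLOn (fun z => H (s (bl n z))) {z | |z.1| ≤ 1 ∧ z.2 = c} := fun m c hm =>
    ((L.pl m).comp (pl_fst (plOn_id _)) fun z hz => abs_le.1 hz.1).congr fun z hz => by
      simp only [bl, hz.2, hm]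
  have c1 : ∀ c : ℝ, IsClosed {z : ℝ × ℝ | |z.1| ≤ 1 ∧ z.2 = c} := fun c =>
    IsClosed.inter (s₁ := {z : ℝ × ℝ | |z.1| ≤ 1}) (isClosed_le (by fun_prop) continuous_const)
      (isClosed_eq continuous_snd continuous_const)
  have c2 : IsClosed {z : ℝ × ℝ | 1 ≤ |z.1|} := isClosed_le continuous_const (by fun_prop)
  have pb : PLOn (bl n) univ := pl_prod (pl_fst (plOn_id _)) (pl_add (plOn_const _ _)
    ((pl_mul (1 / 2) (pl_add (pl_snd (plOn_id _)) (plOn_const 1 _))).congr fun z _ => by ring))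
  have p2 : PLOn (fun z => H (s (bl n z))) (sphere 0 1 ∩ {z | 1 ≤ |z.1|}) := by
    refine (plOn_of_locPL (f := fun z => H (bl n z)) (fun z hz => ?_)
      ((isCompact_sphere _ _).inter_right c2) Subset.rfl).congr fun z hz => ?_
    · exact (L.pt (bl n z) (le_antisymm (mem_dsq.1 hz.1).1 hz.2)).comp (plAt_of_univ pb z)
    · simp only [L.out (bl n z) hz.2]
  refine (((p1 (n + 1) 1 (by push_cast; ring)).union (p1 n (-1) (by ring)) (c1 _) (c1 _)).union p2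
    ((c1 _).union (c1 _)) (isClosed_sphere.inter c2)).mono fun z hz => ?_
  obtain ⟨z1, -, c | c⟩ := mem_dsq.1 hz
  · exact Or.inr ⟨hz, c.ge⟩
  · exact Or.inl (((abs_eq zero_le_one).1 c).imp (fun c => ⟨z1, c⟩) fun c => ⟨z1, c⟩)

theorem inj_bd (n : ℤ) : InjOn (fun z => H (s (bl n z))) (sphere 0 1) := fun z hz w hw e => by
  rw [← lb_bl n z, L.injOn (bl_mem n hz) (bl_mem n hw) (L.emb.injective e), lb_bl]

theorem bd_sub (n : ℤ) : (fun z => H (s (bl n z))) '' sphere 0 1 ⊆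
    H '' closedBall (0, (n : ℝ) + 1 / 2) 1 := by
  rintro _ ⟨z, hz, rfl⟩
  refine ⟨_, ?_, rfl⟩
  obtain ⟨z1, z2, -⟩ := mem_dsq.1 hz
  rw [mem_closedBall, Prod.dist_eq, max_le_iff, Real.dist_eq, Real.dist_eq, sub_zero]
  rw [abs_le] at z2
  rcases L.cases (bl_mem n hz) with ⟨-, a2⟩ | ⟨m, -, a2, a3, a4⟩
  · rw [a2]
    exact ⟨z1, by simp only [bl]; rw [abs_le]; constructor <;> linarith [z2.1, z2.2]⟩
  · have : (n : ℝ) + (z.2 + 1) / 2 = m := congrArg Prod.snd a2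
    rw [abs_lt] at a4
    exact ⟨a3.le, by rw [abs_le]; constructor <;> linarith [z2.1, z2.2, a4.1, a4.2]⟩

section Tile
variable {n : ℤ} {D : Set (ℝ × ℝ)} (hD : IsBall 2 D ((fun z => H (s (bl n z))) '' sphere 0 1))
  (hU : IsOpen (D \ (fun z => H (s (bl n z))) '' sphere 0 1))
include hD hU

theorem tile_sub : D ⊆ H '' closedBall (0, (n : ℝ) + 1 / 2) 1 :=
  fill L.emb _ hD.isCompact hU (L.bd_sub n)

theorem strip_lt {x : ℝ × ℝ} (hx : H x ∈ D \ (fun z => H (s (bl n z))) '' sphere 0 1) :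
    |x.1| < 1 := by
  have := fill_int L.emb _ hU (sdiff_subset.trans (L.tile_sub hD hU)) hx
  rw [mem_ball, Prod.dist_eq, max_lt_iff, Real.dist_eq, sub_zero] at this
  exact this.1

theorem gam_not_mem {x : ℝ × ℝ} (hx : x ∈ Gam) :
    H (s x) ∉ D \ (fun z => H (s (bl n z))) '' sphere 0 1 := by
  intro hm
  rcases L.cases hx with ⟨a1, a2⟩ | ⟨m, a1, a2, -, -⟩
  · rw [a2] at hm
    exact absurd (L.strip_lt hD hU hm) (not_lt.2 a1)
  by_cases hn : m = n ∨ m = n + 1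
  · refine hm.2 ⟨lb n x, mem_dsq.2 ?_, by simp only [bl_lb]⟩
    rw [a2]
    rcases hn with rfl | rfl <;> norm_num [lb, a1.le]
  have hC : IsPreconnected ((fun t : ℝ => H (s (t, m))) '' Icc (-1) 1) :=
    isPreconnected_Icc.image _ (L.pl m).1
  rcases sides hD.isClosed hU hC (disjoint_left.2 (by
    rintro _ ⟨t, -, rfl⟩ ⟨z, hz, e⟩
    have e1 := congrArg Prod.snd (L.injOn (bl_mem n hz) (Or.inr ⟨m, rfl⟩) (L.emb.injective e))
    have c := abs_le.1 (mem_dsq.1 hz).2.1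
    simp only [bl] at e1
    have c0 : (n : ℝ) ≤ m := by linarith [c.1]
    have c1 : (m : ℝ) ≤ n + 1 := by linarith [c.2]
    have c0' : n ≤ m := by exact_mod_cast c0
    have c1' : m ≤ n + 1 := by exact_mod_cast c1
    omega)) with c | c
  · have := c ⟨1, by norm_num, rfl⟩
    simp only [L.out (1, (m : ℝ)) (by simp)] at this
    simpa using L.strip_lt hD hU this
  · exact c ⟨x.1, abs_le.1 a1.le, by simp only [← a2]⟩ hm.1

theorem corner {m : ℤ} (hm : H (1, (m : ℝ)) ∈ D) : m = n ∨ m = n + 1 := by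
  have h1 := L.gam_not_mem hD hU (x := (1, (m : ℝ))) (Or.inr ⟨m, rfl⟩)
  have h2 := L.out (1, (m : ℝ)) (by simp)
  obtain ⟨z, hz, e⟩ : H (s (1, (m : ℝ))) ∈ (fun z => H (s (bl n z))) '' sphere 0 1 := by
    by_contra hc
    exact h1 ⟨h2.symm ▸ hm, hc⟩
  have e1 := congrArg Prod.snd (L.injOn (bl_mem n hz) (Or.inr ⟨m, rfl⟩) (L.emb.injective e))
  have c := abs_le.1 (mem_dsq.1 hz).2.1
  simp only [bl] at e1
  have c0 : (n : ℝ) ≤ m := by linarith [c.1]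
  have c1 : (m : ℝ) ≤ n + 1 := by linarith [c.2]
  have c0' : n ≤ m := by exact_mod_cast c0
  have c1' : m ≤ n + 1 := by exact_mod_cast c1
  omega

theorem tile_eq {m : ℤ} {D' : Set (ℝ × ℝ)}
    (hD' : IsBall 2 D' ((fun z => H (s (bl m z))) '' sphere 0 1))
    (hU' : IsOpen (D' \ (fun z => H (s (bl m z))) '' sphere 0 1)) {y : ℝ × ℝ}
    (hy : y ∈ D \ (fun z => H (s (bl n z))) '' sphere 0 1) (hy' : y ∈ D') : n = m := by
  rcases sides hD'.isClosed hU' hD.isPreconnected_diff (disjoint_left.2 (by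
    rintro _ hw ⟨z, hz, rfl⟩
    exact L.gam_not_mem hD hU (bl_mem m hz) hw)) with c | c
  · have hcl : D ⊆ D' := by
      rw [← hD.closure_diff]
      exact closure_minimal (c.trans sdiff_subset) hD'.isClosed
    have k0 : H (1, (n : ℝ)) ∈ D := hD.subset ⟨(1, -1), mem_dsq.2 (by norm_num), by
      simp only; rw [L.out _ (by simp [bl])]; simp [bl]⟩
    have k1 : H (1, ((n + 1 : ℤ) : ℝ)) ∈ D := hD.subset ⟨(1, 1), mem_dsq.2 (by norm_num), by
      simp only; rw [L.out _ (by simp [bl])]; simp [bl]⟩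
    have a := L.corner hD' hU' (hcl k0)
    have b := L.corner hD' hU' (hcl k1)
    omega
  · exact absurd hy' (c hy)

end Tile

theorem exists_map : ∃ G : ℝ × ℝ → ℝ × ℝ, Continuous G ∧ Injective G ∧
    (∀ x, ∃ y, H y = G x ∧ ‖y - x‖ ≤ 2) ∧ (∀ x : ℝ × ℝ, 1 ≤ |x.1| → G x = H x) ∧
    ∀ x : ℝ × ℝ, |x.1| ≤ 1 → PLAt G x := by
  classical
  choose D Φ hΦ hD hU using fun n => exists_disc (L.pl_bd n) (L.inj_bd n)
  let G : ℝ × ℝ → ℝ × ℝ := fun y => if |y.1| ≤ 1 then (Φ ⌊y.2⌋).f (lb ⌊y.2⌋ y) else H y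
  have hsq : ∀ (n : ℤ) (y : ℝ × ℝ), |y.1| ≤ 1 → (n : ℝ) ≤ y.2 → y.2 ≤ n + 1 →
      lb n y ∈ closedBall (0 : ℝ × ℝ) 1 := fun n y h1 h2 h3 =>
    mem_sq.2 ⟨h1, abs_le.2 ⟨by simp only [lb]; linarith, by simp only [lb]; linarith⟩⟩
  have hsq' : ∀ y : ℝ × ℝ, |y.1| ≤ 1 → lb ⌊y.2⌋ y ∈ closedBall (0 : ℝ × ℝ) 1 := fun y hy =>
    hsq _ y hy (Int.floor_le _) (Int.lt_floor_add_one _).le
  have f0 : ∀ y ∈ Gam, G y = H (s y) := fun y hy => by
    by_cases c : |y.1| ≤ 1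
    · simp only [G, if_pos c]
      rw [hΦ _ ((mem_dsq (z := lb ⌊y.2⌋ y)).2 ⟨c, (mem_sq.1 (hsq' y c)).2, ?_⟩)]
      · simp only [bl_lb]
      · rcases hy with h | ⟨n, h⟩
        · exact Or.inl (le_antisymm c h)
        · right; simp [lb, h]
    · simp only [G, if_neg c]
      rw [L.out y (not_le.1 c).le]
  have f1 : ∀ (n : ℤ) (y : ℝ × ℝ), |y.1| ≤ 1 → (n : ℝ) ≤ y.2 → y.2 ≤ n + 1 →
      G y = (Φ n).f (lb n y) := fun n y h1 h2 h3 => by
    rcases h3.lt_or_eq with c | c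
    · simp only [G, if_pos h1]
      rw [Int.floor_eq_iff.2 ⟨h2, c⟩]
    · rw [f0 y (Or.inr ⟨n + 1, by rw [c]; simp⟩),
        hΦ _ ((mem_dsq (z := lb n y)).2
          ⟨h1, (mem_sq.1 (hsq n y h1 h2 h3)).2, Or.inr (by norm_num [lb, c])⟩)]
      simp only [bl_lb]
  have f2 : ∀ y : ℝ × ℝ, 1 ≤ |y.1| → G y = H y := fun y hy => by rw [f0 y (Or.inl hy), L.out y hy]
  have f3 : ∀ y, y ∉ Gam → |y.1| ≤ 1 ∧
      G y ∈ D ⌊y.2⌋ \ (fun z => H (s (bl ⌊y.2⌋ z))) '' sphere 0 1 := fun y hy => by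
    have c : |y.1| ≤ 1 := (not_le.1 fun h => hy (Or.inl h)).le
    simp only [G, if_pos c]
    refine ⟨c, (Φ _).mf (hsq' y c), ?_⟩
    rintro ⟨z, hz, e⟩
    rw [← hΦ _ hz] at e
    have := (Φ _).injOn (sphere_subset_closedBall hz) (hsq' y c) e
    exact hy (by rw [← bl_lb ⌊y.2⌋ y, ← this]; exact bl_mem _ hz)
  have hQ : ∀ n : ℤ, PLOn G {y | |y.1| ≤ 1 ∧ (n : ℝ) ≤ y.2 ∧ y.2 ≤ n + 1} := fun n =>
    ((Φ n).pf.comp (f := lb n) (pl_prod (pl_fst (plOn_id _)) (pl_sub (pl_mul 2 (pl_sub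
      (pl_snd (plOn_id _)) (plOn_const (n : ℝ) _))) (plOn_const 1 _))) fun y hy =>
        hsq n y hy.1 hy.2.1 hy.2.2).congr fun y hy => f1 n y hy.1 hy.2.1 hy.2.2
  have hQc : ∀ n : ℤ, IsClosed {y : ℝ × ℝ | |y.1| ≤ 1 ∧ (n : ℝ) ≤ y.2 ∧ y.2 ≤ n + 1} := fun n =>
    IsClosed.inter (s₁ := {y : ℝ × ℝ | |y.1| ≤ 1}) (isClosed_le (by fun_prop) continuous_const)
      (IsClosed.inter (s₁ := {y : ℝ × ℝ | (n : ℝ) ≤ y.2}) (s₂ := {y : ℝ × ℝ | y.2 ≤ n + 1})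
        (isClosed_le continuous_const continuous_snd) (isClosed_le continuous_snd continuous_const))
  have hOc : IsClosed {y : ℝ × ℝ | 1 ≤ |y.1|} := isClosed_le continuous_const (by fun_prop)
  have f4 : ∀ y : ℝ × ℝ, |y.1| ≤ 1 → PLAt G y := fun y hy => by
    obtain ⟨N, n1, n2, n3⟩ : ∃ N ∈ 𝓝 y, IsClosed N ∧ PLOn G (N ∩ {z | 1 ≤ |z.1|}) := by
      rcases hy.eq_or_lt with c | c
      · obtain ⟨r, hr, h2⟩ := L.pt y c
        exact ⟨closedBall y (r / 2), closedBall_mem_nhds _ (by linarith), isClosed_closedBall,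
          (h2.mono fun z hz => closedBall_subset_ball (by linarith) hz.1).congr
            fun z hz => f2 z hz.2⟩
      · obtain ⟨N, a, b, d⟩ := exists_mem_nhds_isClosed_subset
          (hOc.isOpen_compl.mem_nhds (not_le.2 c))
        exact ⟨N, a, b, (plOn_empty G).mono fun z hz => d hz.1 hz.2⟩
    refine PLAt.of_nhds ?_ (((hQ (⌊y.2⌋ - 1)).union (hQ ⌊y.2⌋) (hQc _) (hQc _)).union n3
      ((hQc _).union (hQc _)) (n2.inter hOc))
    have hn : Ioo ((⌊y.2⌋ : ℝ) - 1) (⌊y.2⌋ + 1) ∈ 𝓝 y.2 :=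
      Ioo_mem_nhds (by linarith [Int.floor_le y.2]) (Int.lt_floor_add_one y.2)
    filter_upwards [continuous_snd.continuousAt hn, n1] with z hz hz'
    rcases le_total 1 |z.1| with c | c
    · exact Or.inr ⟨hz', c⟩
    · rcases le_total z.2 ⌊y.2⌋ with c' | c'
      · exact Or.inl (Or.inl ⟨c, by push_cast; exact hz.1.le, by push_cast; linarith⟩)
      · exact Or.inl (Or.inr ⟨c, c', hz.2.le⟩)
  refine ⟨G, continuous_iff_continuousAt.2 fun y => ?_, fun x y e => ?_, fun x => ?_, f2, f4⟩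
  · rcases le_or_gt |y.1| 1 with c | c
    · exact (f4 y c).continuousAt
    · refine L.emb.continuous.continuousAt.congr ?_
      filter_upwards [(isOpen_lt continuous_const (show Continuous fun z : ℝ × ℝ => |z.1| by
        fun_prop)).mem_nhds c] with z hz using (f2 z (le_of_lt hz)).symm
  · by_cases a : x ∈ Gam <;> by_cases b : y ∈ Gam
    · exact L.injOn a b (L.emb.injective (by rw [← f0 x a, e, f0 y b]))
    · exact absurd (f3 y b).2 (by rw [← e, f0 x a]; exact L.gam_not_mem (hD _) (hU _) a)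
    · exact absurd (f3 x a).2 (by rw [e, f0 y b]; exact L.gam_not_mem (hD _) (hU _) b)
    · have hn := L.tile_eq (hD _) (hU _) (hD _) (hU _) (f3 x a).2 (e ▸ (f3 y b).2.1)
      have c := (f3 x a).1
      have c' := (f3 y b).1
      have k := hsq' x c
      simp only [G, if_pos c, if_pos c'] at e
      rw [hn] at e k
      rw [← bl_lb ⌊y.2⌋ x, (Φ _).injOn k (hsq' y c') e, bl_lb]
  · rcases le_total |x.1| 1 with c | c
    · obtain ⟨y, hy, e⟩ := L.tile_sub (hD _) (hU _) ((Φ ⌊x.2⌋).mf (hsq' x c))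
      refine ⟨y, by simp only [G, if_pos c, e], ?_⟩
      rw [mem_closedBall, Prod.dist_eq, max_le_iff, Real.dist_eq, Real.dist_eq, sub_zero, abs_le,
        abs_le] at hy
      rw [abs_le] at c
      have := Int.floor_le x.2
      have := Int.lt_floor_add_one x.2
      rw [Prod.norm_def, max_le_iff, Real.norm_eq_abs, Real.norm_eq_abs, abs_le, abs_le]
      simp only [Prod.fst_sub, Prod.snd_sub] at hy ⊢
      refine ⟨⟨?_, ?_⟩, ?_, ?_⟩ <;> linarith [hy.1.1, hy.1.2, hy.2.1, hy.2.2, c.1, c.2]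
    · exact ⟨x, (f2 x c).symm, by simp⟩

end Ldr

/-- index one, PL along two lines -/
theorem pl1 (hH : IsOpenEmbedding H) (hp : ∀ x : ℝ × ℝ, |x.1| = 1 → PLAt H x) :
    ∃ ψ : (ℝ × ℝ) ≃ₜ (ℝ × ℝ), (∀ x, 5 ≤ ‖x‖ → ψ x = x) ∧ (∀ x : ℝ × ℝ, 1 ≤ |x.1| → ψ x = x) ∧
      ∀ t : ℝ, |t| ≤ 1 → PLAt (H ∘ ψ) (t, 0) := by
  obtain ⟨s, L⟩ := exists_ldr hH hp
  obtain ⟨G, g1, g2, g3, g4, g5⟩ := L.exists_map
  obtain ⟨u, u1, u2⟩ := exists_lift hH g1 g2 g3
  obtain ⟨ψ, p1, p2, p3⟩ := rad u (fun ε hε => ⟨2 / ε, fun x hx => by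
    rw [div_le_iff₀ hε] at hx
    linarith [u2 x]⟩) (R := 4) (by norm_num)
  refine ⟨ψ, fun x hx => p2 x (by linarith), fun x hx => p3 x fun t ht => hH.injective ?_,
    fun t ht => (g5 (t, 0) ht).congr ?_⟩
  · rw [u1, g4]
    rw [Prod.smul_fst, smul_eq_mul, abs_mul, abs_of_pos (show 0 < t by linarith)]
    nlinarith
  · have : ((t, 0) : ℝ × ℝ) ∈ ball (0 : ℝ × ℝ) 2 := by
      rw [mem_ball_zero_iff, Prod.norm_def, max_lt_iff]
      exact ⟨ht.trans_lt one_lt_two, by simp⟩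
    filter_upwards [isOpen_ball.mem_nhds this] with x hx
    have h1 := mem_ball_zero_iff.1 hx
    have h2 := norm_sub_norm_le (u x) x
    rw [comp_apply, p1 x (by linarith) (by linarith [u2 x]), u1]

/-- PL straightening with collar `C` and core `D` -/
def PLS (C D : Set (ℝ × ℝ)) : Prop :=
  ∀ H : ℝ × ℝ → ℝ × ℝ, IsOpenEmbedding H → (∀ x ∈ C, PLAt H x) →
    ∃ (ψ : (ℝ × ℝ) ≃ₜ (ℝ × ℝ)) (K : Set (ℝ × ℝ)), IsCompact K ∧ K ⊆ ball 0 2 ∧
      (∀ x ∉ K, ψ x = x) ∧ ∀ x ∈ D, PLAt (H ∘ ψ) x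

theorem pls2 : PLS (closedBall 0 2 \ ball 0 1) (closedBall 0 2) := by
  intro H hH hp
  obtain ⟨ψ, p1, p2⟩ := pl2 hH fun x hx => hp x (by
    rw [← closedBall_sdiff_ball] at hx
    exact ⟨closedBall_subset_closedBall one_le_two hx.1, hx.2⟩)
  refine ⟨ψ, _, isCompact_closedBall 0 1, closedBall_subset_ball one_lt_two, p1, fun x hx => ?_⟩
  by_cases c : x ∈ closedBall (0 : ℝ × ℝ) 1
  · exact p2 x c
  · refine (hp x ⟨hx, fun h => c (ball_subset_closedBall h)⟩).congr ?_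
    filter_upwards [isClosed_closedBall.isOpen_compl.mem_nhds c] with y hy
      using congrArg H (p1 y hy)

theorem pls1 : PLS {x | 1 ≤ |x.1| ∧ |x.1| ≤ 2 ∧ |x.2| ≤ 1} {x | |x.1| ≤ 2 ∧ x.2 = 0} := by
  intro H hH hp
  let σ : ℝ × ℝ → ℝ × ℝ := Prod.map id sq
  have hσ : IsOpenEmbedding σ := IsOpenEmbedding.id.prodMap Smo49.sq_emb
  have pr : ∀ {f : ℝ → ℝ} {x : ℝ × ℝ}, PLAt f x.2 → PLAt (Prod.map id f) x := fun {f x} h => by
    obtain ⟨r, hr, h1⟩ := PLAt.comp (f := Prod.snd) h (plAt_of_univ (pl_snd (plOn_id _)) x)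
    exact ⟨r, hr, pl_prod (pl_fst (plOn_id _)) h1⟩
  obtain ⟨ψ, p1, p2, p3⟩ := pl1 (hH.comp hσ) fun x hx =>
    (hp (σ x) ⟨hx.ge, hx.le.trans one_le_two, (Smo49.abs_sq_lt _).le⟩).comp (pr (plAt_sq _))
  have hT : IsCompact (closedBall (0 : ℝ × ℝ) 5 ∩ {x | |x.1| ≤ 1}) :=
    (isCompact_closedBall _ _).inter_right (isClosed_le (by fun_prop) continuous_const)
  obtain ⟨Ψ, q1, q2⟩ := Glb47.exists_pushH hσ ψ hT fun x hx => by
    by_cases c : x ∈ closedBall (0 : ℝ × ℝ) 5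
    · exact p2 x (not_le.1 fun h => hx ⟨c, h⟩).le
    · exact p1 x (by rw [mem_closedBall_zero_iff, not_le] at c; exact c.le)
  have hK := hT.image hσ.continuous
  refine ⟨Ψ, _, hK, ?_, q2, ?_⟩
  · rintro _ ⟨x, hx, rfl⟩
    rw [mem_ball_zero_iff, Prod.norm_def, max_lt_iff]
    exact ⟨lt_of_le_of_lt hx.2 one_lt_two, (Smo49.abs_sq_lt _).trans one_lt_two⟩
  · rintro ⟨t, _⟩ ⟨h1, rfl⟩
    rcases le_or_gt |t| 1 with c | c
    · have e0 : sqi 0 = 0 := by simpa [Smo49.sq_zero] using Smo49.sqi_sq 0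
      have h2 : PLAt ((H ∘ σ) ∘ ψ) (Prod.map id sqi (t, 0)) := by
        simpa only [Prod.map, id, e0] using p3 t c
      refine (h2.comp (pr (plAt_sqi (by simp)))).congr ?_
      filter_upwards [(isOpen_lt (show Continuous fun z : ℝ × ℝ => |z.2| by fun_prop)
        continuous_const).mem_nhds (show |((t, 0) : ℝ × ℝ).2| < 1 by simp)] with z hz
      have : σ (Prod.map id sqi z) = z := Prod.ext rfl (Smo49.sq_sqi hz)
      simp only [comp_apply]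
      rw [← q1, this]
    · refine (hp (t, 0) ⟨c.le, h1, by simp⟩).congr ?_
      have : ((t, 0) : ℝ × ℝ) ∉ σ '' (closedBall (0 : ℝ × ℝ) 5 ∩ {x | |x.1| ≤ 1}) := by
        rintro ⟨x, hx, e⟩
        have : x.1 = t := congrArg Prod.fst e
        exact absurd hx.2 (not_le.2 (this ▸ c))
      filter_upwards [hK.isClosed.isOpen_compl.mem_nhds this] with y hy using congrArg H (q2 y hy)

end Crest.Agent.X212.Sm25
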