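import Crest.Agent.X212.Sm25.Cel
import Crest.Agent.X212.Prf6.Loc

/-!
Row 212, layer H, package SM2 (helper25), part 8: an open embedding of a connected smooth surface
into the plane is smoothed relative to a non-empty closed set.
-/

set_option autoImplicit false
set_option linter.style.longLine false

open Set Filter Topology Function Metric
open scoped ContDiff Manifold
open Crest.Agent.X212.Glue52

noncomputable section

namespace Crest.Agent.X212.Sm25

variable {EM : Type*} [NormedAddCommGroup EM] [NormedSpace ℝ EM] {HM : Type*} [TopologicalSpace HM]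
  {I : ModelWithCorners ℝ EM HM} {M : Type*} [TopologicalSpace M] [ChartedSpace HM M]

section
variable {EN : Type*} [NormedAddCommGroup EN] [NormedSpace ℝ EN] {HN : Type*} [TopologicalSpace HN]
  {J : ModelWithCorners ℝ EN HN} {N : Type*} [TopologicalSpace N] [ChartedSpace HN N]

theorem Sp.keep [T2Space M] {O : Set M} {φ : M ≃ₜ M} (h : Sp O φ) {f : M → N} {x : M} (hx : x ∉ O)
    (hf : IsLocalDiffeomorphAt I J ∞ f x) : IsLocalDiffeomorphAt I J ∞ (f ∘ φ) x := by
  refine ld_congr hf ?_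
  filter_upwards [h.ev hx] with y hy using congrArg f hy

end

/-- `x` is moved to `y` by a diffeomorphism with compact support in `O` -/
def Mov (I : ModelWithCorners ℝ EM HM) (O : Set M) (x y : M) : Prop :=
  ∃ φ : M ≃ₜ M, Sp O φ ∧ IsLocalDiffeomorph I I ∞ φ ∧ φ x = y

theorem Mov.refl (O : Set M) (x : M) : Mov I O x x := ⟨.refl M, Sp.refl O, ld_id, rfl⟩

theorem Mov.trans {O : Set M} {x y z : M} (h : Mov I O x y) (h' : Mov I O y z) : Mov I O x z :=
  let ⟨φ, a, b, c⟩ := h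
  let ⟨ψ, a', b', c'⟩ := h'
  ⟨φ.trans ψ, a.trans a', ld_comp (g := ψ) (f := φ) b' b,
    by rw [Homeomorph.trans_apply, c, c']⟩

theorem Mov.symm {O : Set M} {x y : M} (h : Mov I O x y) : Mov I O y x := by
  obtain ⟨φ, a, b, rfl⟩ := h
  refine ⟨φ.symm, a.symm, fun z => ?_, φ.symm_apply_apply x⟩
  obtain ⟨w, rfl⟩ := φ.surjective z
  exact ld_of_comp (b w) (by rw [φ.symm_comp_self]; exact ld_id w)

variable [I.Boundaryless] [IsManifold I ∞ M]

/-- every point is the centre of a small smooth open embedding of the plane -/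
theorem exists_param (L : EM ≃L[ℝ] E2) {x : M} {O : Set M} (hO : IsOpen O) (hx : x ∈ O) :
    ∃ e : E2 → M, IsLocalDiffeomorph 𝓘(ℝ, E2) I ∞ e ∧ Injective e ∧ e 0 = x ∧ ∀ y, e y ∈ O := by
  let a := chL I L x
  have xa : x ∈ a.source := mem_chL L x
  obtain ⟨e, e1, e2, e3, -, e5⟩ := exists_box (c := a x) (J := ∅) one_pos
    (a.symm.toOpenPartialHomeomorph.isOpen_inter_preimage hO) isOpen_empty
    (fun y hy => by
      have : y = a x := by ext i; exact (hy i).2 (by simp)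
      subst this
      exact ⟨a.map_source xa, by
        show a.symm (a x) ∈ O
        rwa [show a.symm (a x) = x from a.left_inv xa]⟩)
    (fun y hy => hy.2 fun i => ⟨fun h => by simp at h, (hy.1 i).2⟩)
  refine ⟨a.symm ∘ e, fun y => (e1 y).comp _ _ (a.symm.isLocalDiffeomorphAt _ _ _ (e3 y).1),
    fun y z h => e2 (a.symm.injOn (e3 y).1 (e3 z).1 h), ?_, fun y => (e3 y).2⟩
  rcases e5 (a x) (fun i => ⟨fun h => by simp at h, fun _ => rfl⟩) with ⟨y, hy, h⟩ | h
  · have : y = 0 := by ext i; exact hy i (by simp)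
    subst this
    show a.symm (e 0) = x
    rw [h]
    exact a.left_inv xa
  · exact absurd h.2 (notMem_empty _)

/-- the plane as the complex line -/
def cE : ℂ ≃L[ℝ] E2 := Complex.orthonormalBasisOneI.repr.toContinuousLinearEquiv

variable [T2Space M]

theorem mov_loc (L : EM ≃L[ℝ] E2) {x : M} {O : Set M} (hO : IsOpen O) (hx : x ∈ O) :
    ∀ᶠ y in 𝓝 x, Mov I O x y := by
  obtain ⟨e, e1, e2, e3, e4⟩ := exists_param (I := I) L hO hx
  have d1 : IsLocalDiffeomorph 𝓘(ℝ, ℂ) I ∞ (e ∘ cE) := ld_comp e1 (ld_clm cE)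
  have he := ld_isOpenEmbedding d1 (e2.comp cE.injective)
  obtain ⟨κ, -, k1, -, k2, k3⟩ := Prf6.exists_tau one_pos
  have e0 : (e ∘ cE) 0 = x := by rw [comp_apply, map_zero, e3]
  rw [← e0, ← he.map_nhds_eq, eventually_map]
  filter_upwards [closedBall_mem_nhds (0 : ℂ) one_pos] with w hw
  have d2 : IsLocalDiffeomorph 𝓘(ℝ, ℂ) 𝓘(ℝ, ℂ) ∞ (κ w) := fun z => (k1 w z).1
  obtain ⟨Ψ, p1, p2⟩ := Sp.push (O := O) he
    (χ := (d2.diffeomorphOfBijective (κ w).bijective).toHomeomorph)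
    ⟨_, isCompact_closedBall 0 _, fun y _ => e4 _, k3 w⟩
  have p1' : ∀ z, Ψ ((e ∘ cE) z) = (e ∘ cE) (κ w z) := p1
  refine ⟨Ψ, p2.mono inter_subset_left, fun y => ?_, by
    rw [p1', k2 w 0 (mem_closedBall_zero_iff.1 hw) (by simp), zero_add]⟩
  by_cases hy : y ∈ range (e ∘ cE)
  · obtain ⟨z, rfl⟩ := hy
    refine ld_of_comp (d1 z) ?_
    rw [show Ψ ∘ e ∘ cE = (e ∘ cE) ∘ κ w from funext p1']
    exact ld_comp d1 d2 z
  · exact p2.keep (f := id) (fun h => hy h.2) (ld_id y)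

/-- **push**: a point is moved near a closed set -/
theorem push [PreconnectedSpace M] (L : EM ≃L[ℝ] E2) {B U : Set M} (hB : IsClosed B)
    (hU : IsOpen U) (hBU : B ⊆ U) (hne : B.Nonempty) (v : M) : ∃ y ∈ U, Mov I Bᶜ v y := by
  have ev : ∀ x ∉ B, ∀ᶠ z in 𝓝 x, (∃ y ∈ U, Mov I Bᶜ z y) ↔ ∃ y ∈ U, Mov I Bᶜ x y := fun x hx => by
    filter_upwards [mov_loc (I := I) L hB.isOpen_compl hx] with z hz
    exact ⟨fun ⟨y, a, b⟩ => ⟨y, a, hz.trans b⟩, fun ⟨y, a, b⟩ => ⟨y, a, hz.symm.trans b⟩⟩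
  have cl : IsClopen {x | ∃ y ∈ U, Mov I Bᶜ x y} := by
    refine ⟨⟨isOpen_iff_mem_nhds.2 fun x hx => ?_⟩, isOpen_iff_mem_nhds.2 fun x hx => ?_⟩
    · filter_upwards [ev x fun h => hx ⟨x, hBU h, Mov.refl _ _⟩] with z hz using
        fun h => hx (hz.1 h)
    · by_cases h : x ∈ B
      · filter_upwards [hU.mem_nhds (hBU h)] with z hz using ⟨z, hz, Mov.refl _ _⟩
      · filter_upwards [ev x h] with z hz using hz.2 hx
  obtain ⟨b, hb⟩ := hne
  have := cl.eq_univ ⟨b, b, hBU hb, Mov.refl _ _⟩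
  exact (this ▸ mem_univ v : v ∈ {x | ∃ y ∈ U, Mov I Bᶜ x y})

/-- smoothing at one point -/
theorem at_point [PreconnectedSpace M] (L : EM ≃L[ℝ] E2) {f : M → E2} {B : Set M}
    (hB : IsClosed B) (hne : B.Nonempty)
    (hl : ∀ x ∈ B, IsLocalDiffeomorphAt I 𝓘(ℝ, E2) ∞ f x) (v : M) :
    ∃ φ : M ≃ₜ M, Sp Bᶜ φ ∧ IsLocalDiffeomorphAt I 𝓘(ℝ, E2) ∞ (f ∘ φ) v := by
  obtain ⟨y, hy, φ, a, b, rfl⟩ := push (I := I) L hB (isOpen_ld f) hl hne v
  exact ⟨φ, a, (b v).comp _ _ hy⟩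

/-- the invariant of the induction over the cells -/
def Inv (δ : ℝ) (h : E2 → E2) (A : Set E2) (S : Finset (Fin 2 → ℤ)) : Prop :=
  ∃ ψ : E2 ≃ₜ E2, Sp Aᶜ ψ ∧ ∀ x ∈ A ∪ ⋃ c ∈ S, gcl δ c, LD (h ∘ ψ) x

theorem Inv.step {δ : ℝ} (hδ : 0 < δ) {n : ℕ} {h : E2 → E2} (hh : IsOpenEmbedding h)
    {A : Set E2} (hA : IsClosed A) (hne : A.Nonempty) {S : Finset (Fin 2 → ℤ)}
    (I : Inv δ h A S) {c : Fin 2 → ℤ} (hc : c ∈ cx n) (hA' : c ∈ S ∨ Disjoint (gcl δ c) A)
    (hf : ∀ c' ∈ cx n, (dirs c').card < (dirs c).card → c' ∈ S) : Inv δ h A (insert c S) := by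
  classical
  obtain ⟨ψ, k1, k2⟩ := I
  have hB : IsClosed (A ∪ ⋃ c ∈ S, gcl δ c) :=
    hA.union (S.finite_toSet.isClosed_biUnion fun d _ => isClosed_cl _ _ _)
  obtain ⟨χ, l1, l2⟩ : ∃ χ : E2 ≃ₜ E2, Sp (A ∪ ⋃ c ∈ S, gcl δ c)ᶜ χ ∧
      ∀ x ∈ gcl δ c, LD ((h ∘ ψ) ∘ χ) x := by
    by_cases hin : ∃ c' ∈ S, gcl δ c ⊆ gcl δ c'
    · obtain ⟨c', h1, h2⟩ := hin
      exact ⟨.refl _, Sp.refl _, fun x hx => k2 x (Or.inr (mem_biUnion h1 (h2 hx)))⟩
    have hA2 : Disjoint (gcl δ c) A := hA'.resolve_left fun h => hin ⟨c, h, Subset.rfl⟩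
    rcases (dirs c).eq_empty_or_nonempty with h0 | h0
    · obtain ⟨φ, a, b⟩ := at_point (.refl ℝ E2) hB (hne.mono subset_union_left) k2 (ctr δ c)
      refine ⟨φ, a, fun x hx => ?_⟩
      have : x = ctr δ c := by ext i; exact (hx i).2 (by simp [h0])
      exact this ▸ b
    · refine one_cell h0 hδ (hh.comp ψ.isOpenEmbedding) hB.isOpen_compl ?_ fun x hx => ?_
      · rintro x hx (h | h)
        · exact disjoint_left.1 hA2 (op_sub _ _ _ hx) h
        · obtain ⟨d, hd, h⟩ := mem_iUnion₂.1 h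
          exact hin ⟨d, hd, gcl_sub hδ hx h⟩
      · obtain ⟨c', h1, h2, h3⟩ := exists_face hc hx
        exact k2 x (Or.inr (mem_biUnion (hf c' h1 h2) h3))
  refine ⟨χ.trans ψ, (l1.mono (compl_subset_compl.2 subset_union_left)).trans k1, fun x hx => ?_⟩
  rw [Finset.set_biUnion_insert, union_left_comm] at hx
  rcases hx with hx | hx
  · exact l2 x hx
  · exact l1.keep (f := h ∘ ψ) (fun h => h hx) (k2 x hx)

/-- **relative smoothing**, planar source and target -/
theorem rel {h : E2 → E2} (hh : IsOpenEmbedding h) {A D : Set E2} (hA : IsClosed A)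
    (hne : A.Nonempty) (hD : IsCompact D) (hl : ∀ x ∈ A, LD h x) :
    ∃ ψ : E2 ≃ₜ E2, Sp Aᶜ ψ ∧ ∀ x ∈ A ∪ D, LD (h ∘ ψ) x := by
  classical
  obtain ⟨R, R0, hR⟩ := hD.isBounded.subset_ball_lt 0 0
  let U : Bool → Set E2 := fun p => if p then {x | LD h x} else Aᶜ
  obtain ⟨ε, ε0, hε⟩ := lebesgue_number_lemma_of_metric (isCompact_closedBall (0 : E2) (2 * (R + 2)))
    (c := U) (fun p => by
      simp only [U]
      split_ifs
      exacts [isOpen_ld h, hA.isOpen_compl]) (fun x _ => by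
      by_cases hx : x ∈ A
      · exact mem_iUnion.2 ⟨true, hl x hx⟩
      · exact mem_iUnion.2 ⟨false, hx⟩)
  set δ : ℝ := min (ε / 3) 1 with hδ
  have δ0 : 0 < δ := lt_min (by positivity) one_pos
  have δ1 : δ ≤ ε / 3 := min_le_left _ _
  have δ2 : δ ≤ 1 := min_le_right _ _
  set n : ℕ := ⌈R / (2 * δ)⌉₊ with hn
  have n1 : R ≤ 2 * n * δ := by
    have := Nat.le_ceil (R / (2 * δ))
    rw [div_le_iff₀ (by positivity)] at this
    linarith
  have n2 : 2 * n * δ ≤ R + 2 := by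
    have := Nat.ceil_lt_add_one (a := R / (2 * δ)) (by positivity)
    rw [← hn, ← sub_lt_iff_lt_add, lt_div_iff₀ (by positivity)] at this
    nlinarith
  have hU : ∀ c ∈ cx n, ∃ p, gcl δ c ⊆ U p := fun c hc => by
    obtain ⟨p, hp⟩ := hε (ctr δ c) (by
      rw [mem_closedBall_zero_iff]
      refine norm_le_of_coord (by positivity) fun i => ?_
      have := mem_cx.1 hc i
      have h1 : |(c i : ℝ)| ≤ 2 * n := by
        rw [abs_le]
        exact ⟨by exact_mod_cast this.1, by exact_mod_cast this.2⟩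
      simp only [ctr, abs_mul, abs_of_pos δ0]
      nlinarith)
    exact ⟨p, ((cl_sub_ball _ _ δ0.le).trans (closedBall_subset_ball (by linarith))).trans hp⟩
  choose! p hp using hU
  let S : ℕ → Finset (Fin 2 → ℤ) := fun k => (cx n).filter fun c => p c = true ∨ (dirs c).card < k
  have main : ∀ k, Inv δ h A (S k) := by
    intro k
    induction k with
    | zero =>
      refine ⟨.refl _, Sp.refl _, fun x hx => hx.elim (hl x) fun hx => ?_⟩
      obtain ⟨c, hc, hx⟩ := mem_iUnion₂.1 hx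
      simp only [S, Finset.mem_filter, Nat.not_lt_zero, or_false] at hc
      have := hp c hc.1 hx
      simp only [U, if_pos hc.2] at this
      exact this
    | succ k ih =>
      have inner : ∀ T : Finset (Fin 2 → ℤ), (∀ c ∈ T, c ∈ cx n ∧ (dirs c).card = k) →
          Inv δ h A (T ∪ S k) := by
        intro T
        induction T using Finset.induction_on with
        | empty => intro _; simpa using ih
        | insert c T _ ihT =>
          intro hT
          have hc := hT c (Finset.mem_insert_self _ _)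
          rw [Finset.insert_union]
          refine (ihT fun d hd => hT d (Finset.mem_insert_of_mem hd)).step δ0 hh hA hne hc.1 ?_
            fun d hd h' => Finset.mem_union_right _ (Finset.mem_filter.2 ⟨hd, Or.inr (hc.2 ▸ h')⟩)
          by_cases hg : p c = true
          · exact Or.inl (Finset.mem_union_right _ (Finset.mem_filter.2 ⟨hc.1, Or.inl hg⟩))
          · refine Or.inr (disjoint_left.2 fun x hx => ?_)
            have := hp c hc.1 hx
            simp only [U, if_neg hg] at this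
            exact this
      have := inner ((cx n).filter fun c => (dirs c).card = k) fun c hc => Finset.mem_filter.1 hc
      convert this using 1
      ext c
      simp only [S, Finset.mem_union, Finset.mem_filter]
      constructor
      · rintro ⟨h1, h2 | h2⟩
        · exact Or.inr ⟨h1, Or.inl h2⟩
        · rcases Nat.lt_succ_iff_lt_or_eq.1 h2 with h3 | h3
          exacts [Or.inr ⟨h1, Or.inr h3⟩, Or.inl ⟨h1, h3⟩]
      · rintro (⟨h1, h2⟩ | ⟨h1, h2 | h2⟩)
        exacts [⟨h1, Or.inr (by omega)⟩, ⟨h1, Or.inl h2⟩, ⟨h1, Or.inr (by omega)⟩]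
  obtain ⟨ψ, k1, k2⟩ := main 3
  refine ⟨ψ, k1, fun x hx => k2 x (hx.imp_right fun hx => ?_)⟩
  obtain ⟨c, hc, hxc⟩ := exists_cell δ0 (n := n) (x := x) fun i => by
    have h1 := mem_ball_zero_iff.1 (hR hx)
    have h2 : |x i| ≤ ‖x‖ := PiLp.norm_apply_le x i
    linarith
  refine mem_biUnion (s := S 3) (Finset.mem_filter.2 ⟨hc, Or.inr ?_⟩) hxc
  have := (dirs c).card_le_univ
  simp only [Fintype.card_fin] at this
  omega

/-- **relative smoothing**, planar target -/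
theorem mp [PreconnectedSpace M] (L : EM ≃L[ℝ] E2) {f : M → E2} (hf : IsOpenEmbedding f)
    {A D : Set M} (hA : IsClosed A) (hne : A.Nonempty) (hD : IsCompact D)
    (hl : ∀ x ∈ A, IsLocalDiffeomorphAt I 𝓘(ℝ, E2) ∞ f x) :
    ∃ ψ : M ≃ₜ M, Sp Aᶜ ψ ∧ ∀ x ∈ A ∪ D, IsLocalDiffeomorphAt I 𝓘(ℝ, E2) ∞ (f ∘ ψ) x := by
  classical
  choose e e1 e2 e3 _ using fun x : M => exists_param (I := I) L isOpen_univ (mem_univ x)
  have he : ∀ x, IsOpenEmbedding (e x) := fun x => ld_isOpenEmbedding (e1 x) (e2 x)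
  obtain ⟨t, -, ht⟩ := hD.elim_nhds_subcover (fun x => e x '' closedBall 0 1) fun x _ => by
    have := (he x).isOpenMap.image_mem_nhds (closedBall_mem_nhds (0 : E2) one_pos)
    rwa [e3] at this
  have main : ∀ t : Finset M, ∃ ψ : M ≃ₜ M, Sp Aᶜ ψ ∧
      ∀ x ∈ A ∪ ⋃ p ∈ t, e p '' closedBall 0 1, IsLocalDiffeomorphAt I 𝓘(ℝ, E2) ∞ (f ∘ ψ) x := by
    intro t
    induction t using Finset.induction_on with
    | empty => exact ⟨.refl M, Sp.refl _, by simpa using hl⟩
    | insert p t _ ih =>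
      obtain ⟨ψ, k1, k2⟩ := ih
      set B := A ∪ ⋃ p ∈ t, e p '' closedBall 0 1 with hBd
      have hB : IsClosed B := hA.union
        (t.isCompact_biUnion fun q _ => (isCompact_closedBall _ _).image (he q).continuous).isClosed
      obtain ⟨φ, a, b⟩ := at_point L hB (hne.mono subset_union_left) k2 p
      have k3 : ∀ x ∈ B ∪ {p}, IsLocalDiffeomorphAt I 𝓘(ℝ, E2) ∞ ((f ∘ ψ) ∘ φ) x := by
        rintro x (hx | rfl)
        exacts [a.keep (fun h => h hx) (k2 x hx), b]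
      obtain ⟨χ, c1, c2⟩ := rel (((hf.comp ψ.isOpenEmbedding).comp φ.isOpenEmbedding).comp (he p))
        ((hB.union isClosed_singleton).preimage (he p).continuous) ⟨0, Or.inr (e3 p)⟩
        (isCompact_closedBall (0 : E2) 1) fun z hz => (e1 p z).comp _ _ (k3 _ hz)
      obtain ⟨Ψ, p1, p2⟩ := Sp.push (O := (B ∪ {p})ᶜ) (he p) c1
      have hs : Bᶜ ⊆ Aᶜ := compl_subset_compl.2 subset_union_left
      refine ⟨(Ψ.trans φ).trans ψ, ((p2.mono fun x hx h => hx.1 (Or.inl (Or.inl h))).trans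
        (a.mono hs)).trans k1, fun x hx => ?_⟩
      rw [Finset.set_biUnion_insert, union_left_comm] at hx
      rcases hx with ⟨z, hz, rfl⟩ | hx
      · refine ld_of_comp (e1 p z) ?_
        have : (f ∘ ((Ψ.trans φ).trans ψ)) ∘ e p = (((f ∘ ψ) ∘ φ) ∘ e p) ∘ χ :=
          funext fun w => congrArg ((f ∘ ψ) ∘ φ) (p1 w)
        rw [this]
        exact c2 z (Or.inr hz)
      · exact p2.keep (f := (f ∘ ψ) ∘ φ) (fun h => h.1 (Or.inl hx)) (k3 x (Or.inl hx))
  obtain ⟨ψ, k1, k2⟩ := main t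
  exact ⟨ψ, k1, fun x hx => k2 x (hx.imp_right fun h => ht h)⟩

end Crest.Agent.X212.Sm25
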