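import Crest.Agent.X212.Nv5.Stm
import Crest.Agent.X212.Dr59.Rod

/-!
Row 212, layer S, NV-EXT and NV-TEST (helper25).
-/

set_option autoImplicit false
set_option linter.unusedSectionVars false
set_option linter.style.longLine false

open Set Filter Topology Function Module
open scoped ContDiff Manifold Real
open Crest.Agent.R208 Crest.Agent.R208.FI
open Crest.Agent.R208.F hiding wd
open Crest.Agent.X212.Bor5.T Crest.Agent.X212.Dr59 Crest.Agent.X212.Nv5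
open Crest.Agent.X212.Cyl58 (TP TIso)
open Crest.Agent.X212.Orx52 (oX oX_spec same_symm pos_neg_left)
open Crest.Agent.X212.Rod53 (E4 Z2 Loc PM Jr wd Ioo_subset_Jr Iio_subset_Jr)

noncomputable section

namespace Crest.Agent.X212.Sm25

section gen

variable {E : Type*} [NormedAddCommGroup E] [NormedSpace ℝ E] [FiniteDimensional ℝ E]
  {H : Type*} [TopologicalSpace H] {I : ModelWithCorners ℝ E H} [I.Boundaryless]
  {M : Type*} [TopologicalSpace M] [ChartedSpace H M] [IsManifold I ∞ M] [T2Space M] [SigmaCompactSpace M]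
  {n : ℕ} {U V X : Set M} {a c : M → Ext E}

/-- a closed form that is cohomologous to `a` on `U` is changed inside `U` into `a` off `V` -/
theorem fix (hU : IsOpen U) (hV : IsOpen V) (hX : IsOpen X) (s : X ⊆ U ∪ V) (hc : Cl I (n + 1) X c)
    (hd : Dg (n + 1) U (c - a)) (hx : Dr59.Ex I U (c - a)) :
    ∃ e, Cl I (n + 1) X e ∧ (∀ x ∈ X, x ∉ V → e x = a x) ∧ ∀ x ∈ X, x ∉ U → e x = c x := by
  obtain ⟨χ, h⟩ := exists_cut (I := I) hU hV
  obtain ⟨p, hp, kp, dp⟩ := hx.deg hd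
  have z : Cz I X U χ := ⟨fun x k => h.sm x (s k), fun x k l => h.z x ((s k).resolve_left l) l⟩
  have d := fun x (k : x ∈ X) => z.d_smul hp (fun y _ => dp y) k
  refine ⟨_, hc.sub (cl_dM hX (z.sm_smul hp) (z.dg_smul kp)), fun x k l => ?_, fun x k l => ?_⟩
  · rw [Pi.sub_apply, d x k, cut_eq_self (h.o x ((s k).resolve_right l) l), Pi.sub_apply, sub_sub_cancel]
  · rw [Pi.sub_apply, d x k, cut_eq_zero (z.z x k l), sub_zero]

end gen

section tp

variable {V V' : Type} [NormedAddCommGroup V] [NormedSpace ℝ V] [FiniteDimensional ℝ V]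
  [NormedAddCommGroup V'] [NormedSpace ℝ V'] [FiniteDimensional ℝ V'] {M : TP V} {M' : TP V'}
  {J S : Set ℝ} (k : TIso M M' J) {n : ℕ} {a : M.P.M → Ext M.P.E}

theorem cl_psh (hS : IsOpen S) (h : S ⊆ J) (ha : Cl M.P.I n (M.τ ⁻¹' S) a) :
    Cl M'.P.I n (M'.τ ⁻¹' S) (psh k.φ a) :=
  (ha.pm (f := k.symm) ⟨fun _ hx => (k.symm.ld (h hx)).contMDiffAt,
    fun x hx => show _ ∈ S from (k.symm.tm x (h hx)).symm ▸ hx⟩).congr (hS.preimage M'.cont)
    fun _ hx => indicator_of_mem (k.mem_tgt (h hx)) _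

theorem pm_trans {E : Type*} [NormedAddCommGroup E] [NormedSpace ℝ E] [FiniteDimensional ℝ E]
    {H : Type*} [TopologicalSpace H] {I : ModelWithCorners ℝ E H} {P : Type*} [TopologicalSpace P]
    [ChartedSpace H P] {g : P → M.P.M} {z : P} (hg : MDifferentiableAt I M.P.I g z) (h : M.τ (g z) ∈ J) :
    pm I M'.P.I (k ∘ g) (psh k.φ a) z = pm I M.P.I g a z := by
  rw [← pm_comp ((k.ld h).mdifferentiableAt ne0) hg]
  exact pm_congr_right (pm_psh _ (k.mem_src h) a)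

end tp

variable {τ : Tub} {Y : O3} {f : Fo τ Y (1, 0)} {N : Nk Y} {Z : W4}

theorem cpt {v : ℝ → Z2} {hv : Loc v} (J : Jc f N hv Z) (x : ℝ) : IsCompact (Z.X.τ ⁻¹' Iic x) := by
  have := N.cpt
  obtain ⟨s, hs⟩ := (isCompact_range N.W.X.cont).bddBelow
  refine (Z.X.prop (min s N.β) x).of_isClosed_subset (isClosed_Iic.preimage Z.X.cont) fun z hz => ⟨?_, hz⟩
  rcases lt_or_ge (Z.X.τ z) N.β with k | k
  · obtain ⟨p, e, -⟩ := J.l.surj k
    exact (min_le_left _ _).trans (e ▸ hs ⟨p, rfl⟩)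
  · exact (min_le_right _ _).trans k

theorem nvExt : ExtStmt := by
  intro τ Y f N Z J B g c₀ β₁ hc hβ
  have := Orx52.sigmaCompact Z.X.P.I Z.M
  have := τ.T.secondCountable isZ.loc
  have := Orx52.sigmaCompact (𝓡 4) (τ.X (wd wZ))
  have hb := N.hb
  have o : ∀ {S}, IsOpen S → IsOpen (Z.X.τ ⁻¹' S) := fun h => h.preimage Z.X.cont
  let R : PartialDiffeomorph (𝓡 4) Z.X.P.I (τ.X (wd wZ)) Z.M ∞ := J.r.φ
  have im : ∀ {S}, S ⊆ Ioi N.α → R '' (τ.T.time _ ⁻¹' S) = Z.X.τ ⁻¹' S := J.r.image_preimage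
  have ha := cl_psh J.l isOpen_Iio Subset.rfl (hc.mono (subset_univ _))
  obtain ⟨p, q, -, h⟩ := ((hd_time (T := τ.T) isZ N.lt (γ := 0) (by linarith)).pd R
    fun x hx => J.r.mem_src hx.1).hn
  rw [im Ioo_subset_Ioi_self, im Ioo_subset_Ioi_self] at h
  obtain ⟨x, hx⟩ := h.surj 2 (by decide) (ha.mono (preimage_mono Ioo_subset_Iio_self)).cls
  obtain ⟨b, kb, rfl⟩ := exists_cls x
  obtain ⟨χ, hχ⟩ := exists_cut (I := Z.X.P.I) (o (isOpen_Iio (a := N.β))) (o (isOpen_Ioo (a := N.α) (b := 0)))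
  obtain ⟨c, c1, c2, -⟩ := mv_glue (o isOpen_Iio) (o isOpen_Ioo) hχ ha kb
    ((cls_eq.1 hx).symm.mono fun x hx => ⟨hx.2.1, hx.1⟩)
  obtain ⟨d, d1, d2, -⟩ := fix (X := Z.X.τ ⁻¹' Iio 0) (o isOpen_Iio) (o (isOpen_Ioi (a := β₁))) (o isOpen_Iio)
    (fun x _ => (lt_or_ge (Z.X.τ x) N.β).imp_right hβ.trans_le)
    (c1.mono fun x hx => (lt_or_ge (Z.X.τ x) N.β).imp_right fun k => ⟨N.lt.trans_le k, hx⟩)
    ((c1.dg.mono subset_union_left).sub ha.dg) c2
  have z : HZ Z.X.P.I 2 (Z.X.τ ⁻¹' Ioo (-1) 0) := by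
    have e : Ioo (-1 : ℝ) 0 ⊆ Jr (wd wZ) (1, 1) := fun t ht =>
      Ioo_subset_Jr (a := wZ) (i := -1) (by simpa using ht)
    have s : Ioo (-1 : ℝ) 0 ⊆ Ioi N.α := fun t ht => N.lt.trans (by linarith [ht.1])
    rw [← im s]
    refine (hz_pd R (isOpen_Ioo.preimage τ.T.continuous_time) fun x hx => J.r.mem_src (s hx)).2 ?_
    rw [← g.F.image_cyf g.hu e]
    exact (hz_pd (cp (v := wd wZ) g.F g.hu) (isOpen_univ.prod isOpen_Ioo) fun q hq => Or.inr (e hq.2)).2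
      (B.h2.prod_convex isOpen_univ isOpen_Ioo (convex_Ioo _ _))
  have d3 := d1.mono (preimage_mono (Ioo_subset_Iio_self (a := -1)))
  obtain ⟨e, e1, e2, e3⟩ := fix (a := 0) (o isOpen_Ioo) (o (isOpen_Iio (a := -3 / 4))) (o isOpen_Iio)
    (fun x hx => (lt_or_ge (-1) (Z.X.τ x)).imp (fun k => ⟨k, hx⟩) fun k => k.trans_lt (by norm_num)) d1
    (d3.dg.sub Dg.zero) (z _ (d3.sub Cl.zero))
  refine ⟨_, cs_indicator (o isOpen_Iio) e1 (cpt J _) (preimage_mono (Iic_subset_Iio.2 (by norm_num)))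
    fun x hx k => e2 x hx fun l => k (preimage_mono Iio_subset_Iic_self l), fun p hp => ?_⟩
  have t : Z.X.τ (J.l p) < β₁ := (J.l.tm p (hp.trans hβ)).trans_lt hp
  have t0 : J.l p ∈ Z.X.τ ⁻¹' Iio 0 := t.trans (by linarith)
  rw [← pm_psh J.l.φ (J.l.mem_src (hp.trans hβ)) c₀]
  exact pm_congr_right ((indicator_of_mem t0 _).trans
    ((e3 _ t0 fun k => by linarith [k.1]).trans (d2 _ t0 t.not_gt)))

/-- the characters of the test surface -/
def mT (j : ℤ) : ℝ × ℝ := if j < 0 then (1, -1) else 0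

theorem nvTest : TestStmt := by
  rintro τ Y f N Z J _ ⟨e0, he, rfl⟩
  have := Orx52.sigmaCompact Z.X.P.I Z.M
  have := τ.T.secondCountable isZ.loc
  borelize E4 (τ.X (wd wZ))
  have hb := N.hb
  have o : ∀ {S}, IsOpen S → IsOpen (Z.X.τ ⁻¹' S) := fun h => h.preimage Z.X.cont
  let R : PartialDiffeomorph (𝓡 4) Z.X.P.I (τ.X (wd wZ)) Z.M ∞ := J.r.φ
  obtain ⟨F, hF⟩ := exists_WF (a := wZ) (m := mT) one_pos (xa_zero τ.T 3) (fun j => by
    unfold mT wZ w2 dr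
    split_ifs <;> first | omega | simp) fun _ => 0
  have cs : Cs (𝓡 4) 2 _ e0 := he.cs_time (xa_zero τ.T 1) (by norm_num) isZ (i := -2) (j := 1) (s := 0) (s' := 0)
    (fun k l => ⟨by rw [mE, if_neg (by omega), if_neg (by omega), zero_smul], rfl⟩)
    fun k l => ⟨by rw [mE, if_neg (by omega), if_neg (by omega), zero_smul], rfl⟩
  have hJ : Ioo N.α N.β ⊆ Jr (wd wZ) (1, 0) := fun t ht => Iio_subset_Jr (a := wZ) (j := -2)
    (fun k l => .inl (if_pos (by omega))) (ht.2.trans_le (by push_cast; linarith))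
  have m : Mp (Y.Y.I.prod 𝓘(ℝ, ℝ)) (𝓡 4) (univ ×ˢ Ioo N.α N.β) univ (f.cy (wd wZ)) :=
    ⟨fun q hq => (f.F.ld_cyf f.hu q.1 (hJ hq.2)).contMDiffAt, mapsTo_univ _ _⟩
  obtain ⟨t, ht⟩ := exists_between N.lt
  have x1 := cls_eq.1 (st_fst_inl isOpen_univ isOpen_Ioo ht ((convex_Ioo _ _).starConvex ht)
    (hF.tg.cl.pm m).cls)
  obtain ⟨u, hu, eu⟩ := N.ext _ ((hF.tg.cl.pm m).pm (mp_inl univ ht))
  have a1 := cl_psh J.l isOpen_Iio Subset.rfl hu
  have a2 : Cl Z.X.P.I 2 (Z.X.τ ⁻¹' Ioi N.α) (psh R F) :=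
    cl_psh J.r isOpen_Ioi Subset.rfl (hF.tg.cl.mono (subset_univ _))
  have x2 : Dr59.Ex Z.X.P.I (Z.X.τ ⁻¹' Ioo N.α N.β) (psh J.l.φ u - psh R F) := by
    let L := N.k.trans (J.l.restr isOpen_Ioo Ioo_subset_Iio_self)
    let K : PartialDiffeomorph (Y.Y.I.prod 𝓘(ℝ, ℝ)) Z.X.P.I (Y.Y.M × ℝ) Z.M ∞ := L.φ
    rw [← L.image_preimage Subset.rfl]
    refine ex_pd K (isOpen_Ioo.preimage continuous_snd) L.src.ge
      ((x1.mono fun q hq => ⟨trivial, hq⟩).congr fun q hq => ?_)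
    rw [pm_sub]
    refine congrArg₂ (fun a b : R208.F.Ext (Y.Y.E × ℝ) => a - b) ((pm_trans J.l ((N.k.ld hq).mdifferentiableAt ne0)
      (N.k.mem hq).2).trans (eu q hq)) ((pm_congr (g := J.r ∘ f.cy (wd wZ)) (eventually_of_mem
        ((isOpen_Ioo.preimage continuous_snd).mem_nhds hq) fun z hz => J.ov z.1 z.2 hz) rfl).trans
        (pm_trans J.r (a := F) ((m.sm q ⟨trivial, hq⟩).mdifferentiableAt ne0) ?_))
    exact (hq.1.trans_eq (f.F.time_cyf f.hu q.1 (hJ hq)).symm :)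
  obtain ⟨χ, hχ⟩ := exists_cut (I := Z.X.P.I) (o (isOpen_Iio (a := N.β))) (o (isOpen_Ioi (a := N.α)))
  obtain ⟨c, c1, -, c2⟩ := mv_glue (o isOpen_Iio) (o isOpen_Ioi) hχ a1 a2 (x2.mono fun x hx => ⟨hx.2, hx.1⟩)
  have cv : ∀ x, x ∈ Z.X.τ ⁻¹' Iio N.β ∪ Z.X.τ ⁻¹' Ioi N.α := fun x =>
    (lt_or_ge (Z.X.τ x) N.β).imp_right N.lt.trans_le
  obtain ⟨d, d1, d2, -⟩ := fix (o isOpen_Ioi) (o (isOpen_Iio (a := N.β))) isOpen_univ (fun x _ => (cv x).symm)
    (c1.mono fun x _ => cv x) ((c1.dg.mono subset_union_right).sub a2.dg) c2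
  have dR : ∀ y, N.β ≤ τ.T.time _ y → pm (𝓡 4) Z.X.P.I R d y = F y := fun y hy =>
    (pm_congr_right (d2 _ trivial fun k => hy.not_gt ((J.r.tm y (N.lt.trans_le hy)).symm.trans_lt k))).trans
      (pm_psh R (J.r.mem_src (N.lt.trans_le hy)) F)
  have ds := cs_indicator isOpen_univ d1 (cpt J (-1 / 3)) (subset_univ _) fun x _ k => by
    have k' : -1 / 3 < Z.X.τ x := not_le.1 k
    rw [d2 x trivial fun l : Z.X.τ x < N.β => by linarith]
    refine psh_eq_zero R (S := τ.T.time _ ⁻¹' Ioc N.α (-1 / 3)) (fun y hy l => ?_) fun l =>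
      k ((J.r.image_preimage Ioc_subset_Ioi_self).le l).2
    refine hF.tg.eq_zero (xa_zero τ.T 3) (by norm_num) (s := 0) ((eventually_gt_nhds
      (not_le.1 fun j => l ⟨J.r.src.le hy, j⟩)).mono fun s hs => ⟨?_, by rw [pth_const]⟩)
    exact pth_hi (j := 0) (fun i j => by rw [mT, if_neg (by omega), zero_smul]) (by push_cast; linarith)
  rw [indicator_univ] at ds
  refine ⟨d, ds.mono (preimage_mono (Iic_subset_Iio.2 (by norm_num))), ?_⟩
  have lo : ∀ y ∈ τ.T.time (wd wZ) ⁻¹' Icc (((-2 : ℤ) : ℝ) + 1 / 3) ((1 : ℤ) - 1 / 3), N.β ≤ τ.T.time _ y :=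
    fun y hy => by have := hy.1; push_cast at this; linarith
  have hO := oX_spec isZ.loc τ.ori
  have hS : ∀ j, j ∉ ({-2, -1, 0} : Finset ℤ) → mE (j + 1) = mE j := fun j hj => by
    simp only [Finset.mem_insert, Finset.mem_singleton, not_or] at hj
    rw [mE, mE, if_neg (by omega), if_neg (by omega), if_neg (by omega), if_neg (by omega)]
  have sm : ∑ j ∈ ({-2, -1, 0} : Finset ℤ), det2 (mT j) (mE (j + 1) - mE j) = 1 := by
    simp [mT, mE, det2]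
  refine ((cs.ip_psh R (fun y hy => J.r.mem_src (N.lt.trans_le (lo y hy))) Z.ori hO.ori
    (same_symm (J.pr.mono fun y hy => N.lt.trans_le (lo y hy))) d).trans
    (cs.ip_congr fun y hy => dR y (lo y hy))).trans_ne ?_
  have cu := cs.mono (subset_univ _)
  rcases τ.hσ with s | s
  · rw [(hF.wc univ).ip_eq hO (by simpa [s] using τ.pos) isZ isOpen_univ he cu hS, sm]
    exact neg_ne_zero.2 (by positivity)
  · rw [← neg_neg (oX _ _), ip_neg_ori, (hF.wc univ).ip_eq hO.neg (pos_neg_left.1 (by simpa [s] using τ.pos))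
      isZ isOpen_univ he cu hS, sm, neg_neg]
    positivity

end Crest.Agent.X212.Sm25
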