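import Crest.Agent.X212.Cor42.Rep
import Crest.Agent.X212.Cor42.Arc
import Crest.Agent.X212.Lad50.Rad
import Crest.Agent.X212.Smo49.Box
import Crest.Agent.X212.Glb47.Push
import Crest.Agent.R105.Iod1_690

/-!
Row 212, layer H, package SM2 (helper25), part 4: piecewise linear handle straightening in the
plane (indices one and two), from the PL Schoenflies theorem.
-/

set_option autoImplicit false
set_option linter.style.longLine false

open Set Metric Filter Topology Function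

namespace Crest.Agent.X212.Sm25

open Crest.Agent.R096 Crest.Agent.R096.Ce_537 Crest.Agent.X212.Lad50 Crest.Agent.X212.Cor42
open Crest.Agent.X212.Smo49 (PLAt plAt_of_univ str_iff sq sqi plAt_sq plAt_sqi)

variable {H : ℝ × ℝ → ℝ × ℝ}

theorem sep (hH : IsOpenEmbedding H) {K : Set (ℝ × ℝ)} (hK : IsCompact K)
    (hc : IsPreconnected Kᶜ) : IsPreconnected (H '' K)ᶜ := by
  have hs : IsOpen (H '' K)ᶜ := (hK.image hH.continuous).isClosed.isOpen_compl
  have hsub : H '' Kᶜ ⊆ (H '' K)ᶜ := by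
    rintro _ ⟨x, hx, rfl⟩ ⟨y, hy, e⟩
    exact hx (hH.injective e ▸ hy)
  have key : ∀ u v : Set (ℝ × ℝ), IsOpen u → IsOpen v → (H '' K)ᶜ ⊆ u ∪ v →
      (H '' K)ᶜ ∩ (u ∩ v) = ∅ → H '' Kᶜ ⊆ u → (H '' K)ᶜ ⊆ u := by
    intro u v hu hv h1 h2 h3
    have h4 : ∀ x ∈ (H '' K)ᶜ, x ∈ u → x ∉ v := fun x a b c => by
      have : x ∈ (H '' K)ᶜ ∩ (u ∩ v) := ⟨a, b, c⟩
      rw [h2] at this; exact this
    have h5 : ∀ y, H y ∉ (H '' K)ᶜ ∩ v := fun y hy =>
      h4 _ hy.1 (h3 ⟨y, fun h => hy.1 ⟨y, h, rfl⟩, rfl⟩) hy.2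
    have e : ((H '' K)ᶜ ∩ v)ᶜ = ((H '' K)ᶜ ∩ u) ∪ range H := by
      ext x
      constructor
      · intro hx
        by_cases a : x ∈ H '' K
        · exact Or.inr (image_subset_range _ _ a)
        · exact Or.inl ⟨a, (h1 a).resolve_right fun c => hx ⟨a, c⟩⟩
      · rintro (hx | ⟨y, rfl⟩)
        exacts [fun c => h4 x hx.1 hx.2 c.2, h5 y]
    have cl : IsClopen ((H '' K)ᶜ ∩ v) :=
      ⟨⟨by rw [e]; exact (hs.inter hu).union hH.isOpen_range⟩, hs.inter hv⟩
    rcases isClopen_iff.1 cl with c | c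
    · intro x hx
      refine (h1 hx).resolve_right fun d => ?_
      have : x ∈ (H '' K)ᶜ ∩ v := ⟨hx, d⟩
      rw [c] at this; exact this
    · exact absurd (c ▸ mem_univ (H 0)) (h5 0)
  refine isPreconnected_iff_subset_of_disjoint.2 fun u v hu hv h1 h2 => ?_
  rcases isPreconnected_iff_subset_of_disjoint.1 (hc.image H hH.continuous.continuousOn) u v hu hv
    (hsub.trans h1) (by
      refine eq_empty_of_subset_empty fun x hx => ?_
      rw [← h2]; exact ⟨hsub hx.1, hx.2⟩) with c | c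
  · exact Or.inl (key u v hu hv h1 h2 c)
  · exact Or.inr (key v u hv hu (by rwa [union_comm]) (by rwa [inter_comm v]) c)

theorem compl_ball (c : ℝ × ℝ) : IsPreconnected (closedBall c 1)ᶜ := by
  have h1 : IsPathConnected (sphere (0 : ℝ × ℝ) 1) := isPathConnected_sphere (by
    rw [← Module.finrank_eq_rank]; simp) 0 zero_le_one
  have h2 := (h1.isConnected.isPreconnected.prod (isPreconnected_Ioi (a := (1 : ℝ)))).image
    (fun p : (ℝ × ℝ) × ℝ => c + p.2 • p.1) (by fun_prop)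
  convert h2 using 1
  ext y
  rw [mem_compl_iff, mem_closedBall_iff_norm, not_le]
  constructor
  · intro hy
    have h0 : ‖y - c‖ ≠ 0 := by linarith
    refine ⟨(‖y - c‖⁻¹ • (y - c), ‖y - c‖), ⟨?_, hy⟩, ?_⟩
    · rw [mem_sphere_zero_iff_norm, norm_smul, norm_inv, norm_norm, inv_mul_cancel₀ h0]
    · simp only [smul_smul, mul_inv_cancel₀ h0, one_smul, add_sub_cancel]
  · rintro ⟨⟨u, t⟩, ⟨hu, ht⟩, rfl⟩
    have ht' : 1 < t := ht
    rw [add_sub_cancel_left, norm_smul, mem_sphere_zero_iff_norm.1 hu, mul_one,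
      Real.norm_of_nonneg (by linarith)]
    exact ht'

theorem fill (hH : IsOpenEmbedding H) (c : ℝ × ℝ) {D J : Set (ℝ × ℝ)} (hD : IsCompact D)
    (hU : IsOpen (D \ J)) (hJ : J ⊆ H '' closedBall c 1) : D ⊆ H '' closedBall c 1 := by
  have hK := isCompact_closedBall c 1
  rcases sides hD.isClosed hU (sep hH hK (compl_ball c))
    (disjoint_left.2 fun x hx h => hx (hJ h)) with h | h
  · refine absurd (eq_univ_of_forall fun x => ?_) (hD.union (hK.image hH.continuous)).ne_univ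
    by_cases hx : x ∈ H '' closedBall c 1
    exacts [Or.inr hx, Or.inl (h hx).1]
  · intro x hx
    by_contra hn
    exact h hn hx

theorem fill_int (hH : IsOpenEmbedding H) (c : ℝ × ℝ) {U : Set (ℝ × ℝ)} (hU : IsOpen U)
    (h : U ⊆ H '' closedBall c 1) {x : ℝ × ℝ} (hx : H x ∈ U) : x ∈ ball c 1 := by
  rw [← interior_closedBall c one_ne_zero]
  refine interior_maximal (fun y hy => ?_) (hU.preimage hH.continuous) hx
  obtain ⟨z, hz, e⟩ := h hy
  exact hH.injective e ▸ hz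

/-- lifting of a map at bounded distance -/
theorem exists_lift (hH : IsOpenEmbedding H) {G : ℝ × ℝ → ℝ × ℝ} (hG : Continuous G)
    (hi : Injective G) {C : ℝ} (hb : ∀ x, ∃ y, H y = G x ∧ ‖y - x‖ ≤ C) :
    ∃ u : (ℝ × ℝ) ≃ₜ (ℝ × ℝ), (∀ x, H (u x) = G x) ∧ ∀ x, ‖u x - x‖ ≤ C := by
  choose u h1 h2 using hb
  have hc : Continuous u := hH.isEmbedding.continuous_iff.2 (by rwa [show H ∘ u = G from funext h1])
  have hui : Injective u := fun x y e => hi (by rw [← h1, e, h1])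
  have ho : IsOpenMap u := fun U hU =>
    R105.Iod1_690.isOpen_image_fd rfl hU hc.continuousOn hui.injOn
  have hp : IsProperMap u := by
    refine isProperMap_iff_tendsto_cocompact.2 ⟨hc, ?_⟩
    rw [← Metric.cobounded_eq_cocompact, ← tendsto_norm_atTop_iff_cobounded]
    refine tendsto_atTop_mono (f := fun x => ‖x‖ + -C) (fun x => ?_)
      (tendsto_atTop_add_const_right _ _ tendsto_norm_cobounded_atTop)
    have := norm_sub_norm_le x (u x)
    rw [norm_sub_rev] at this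
    linarith [h2 x]
  have hs : Surjective u := range_eq_univ.1
    (IsClopen.eq_univ ⟨hp.isClosed_range, ho.isOpen_range⟩ (range_nonempty u))
  exact ⟨(Equiv.ofBijective u ⟨hui, hs⟩).toHomeomorphOfContinuousOpen hc ho, h1, h2⟩

/-- index two -/
theorem pl2 (hH : IsOpenEmbedding H) (hp : ∀ x ∈ sphere (0 : ℝ × ℝ) 1, PLAt H x) :
    ∃ ψ : (ℝ × ℝ) ≃ₜ (ℝ × ℝ), (∀ x ∉ closedBall (0 : ℝ × ℝ) 1, ψ x = x) ∧
      ∀ x ∈ closedBall (0 : ℝ × ℝ) 1, PLAt (H ∘ ψ) x := by
  classical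
  obtain ⟨D, Φ, hΦ, hD, hU⟩ := exists_disc (plOn_of_locPL hp (isCompact_sphere _ _) Subset.rfl)
    hH.injective.injOn
  have hDK := fill hH 0 hD.isCompact hU (image_mono sphere_subset_closedBall)
  let G : ℝ × ℝ → ℝ × ℝ := fun x => if x ∈ closedBall (0 : ℝ × ℝ) 1 then Φ.f x else H x
  have g1 : ∀ x ∈ closedBall (0 : ℝ × ℝ) 1, G x = Φ.f x := fun x hx => if_pos hx
  have g2 : ∀ x ∈ (ball (0 : ℝ × ℝ) 1)ᶜ, G x = H x := fun x hx => by
    by_cases h : x ∈ closedBall (0 : ℝ × ℝ) 1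
    · rw [g1 x h, hΦ (by rw [← closedBall_sdiff_ball]; exact ⟨h, hx⟩)]
    · exact if_neg h
  have g3 : ∀ x ∉ closedBall (0 : ℝ × ℝ) 1, G x = H x := fun x hx => if_neg hx
  have hc : Continuous G := by
    rw [← continuousOn_univ, ← union_compl_self (ball (0 : ℝ × ℝ) 1)]
    exact ((Φ.pf.1.congr g1).union_of_isClosed (hH.continuous.continuousOn.congr g2)
      isClosed_closedBall isOpen_ball.isClosed_compl).mono
      (union_subset_union_left _ ball_subset_closedBall)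
  have hne : ∀ x ∈ closedBall (0 : ℝ × ℝ) 1, ∀ y ∉ closedBall (0 : ℝ × ℝ) 1, G x ≠ G y := by
    intro x hx y hy e
    obtain ⟨z, hz, e'⟩ := hDK (Φ.mf hx)
    rw [← g1 x hx, e, g3 y hy] at e'
    exact hy (hH.injective e' ▸ hz)
  obtain ⟨u, h1, -⟩ := exists_lift hH hc (C := 2) (fun x y e => by
    by_cases a : x ∈ closedBall (0 : ℝ × ℝ) 1 <;> by_cases b : y ∈ closedBall (0 : ℝ × ℝ) 1
    · exact Φ.injOn a b (by rw [← g1 x a, e, g1 y b])
    · exact absurd e (hne x a y b)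
    · exact absurd e.symm (hne y b x a)
    · exact hH.injective (by rw [← g3 x a, e, g3 y b])) (fun x => by
    by_cases a : x ∈ closedBall (0 : ℝ × ℝ) 1
    · obtain ⟨z, hz, e'⟩ := hDK (Φ.mf a)
      refine ⟨z, by rw [e', g1 x a], (norm_sub_le _ _).trans ?_⟩
      linarith [mem_closedBall_zero_iff.1 a, mem_closedBall_zero_iff.1 hz]
    · exact ⟨x, (g3 x a).symm, by simp⟩)
  refine ⟨u, fun x hx => hH.injective (by rw [h1, g3 x hx]), fun x hx => ?_⟩
  rw [show H ∘ u = G from funext h1]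
  have p1 : PLOn G (closedBall 0 1) := Φ.pf.congr g1
  by_cases a : x ∈ ball (0 : ℝ × ℝ) 1
  · exact PLAt.of_nhds (mem_of_superset (isOpen_ball.mem_nhds a) ball_subset_closedBall) p1
  · obtain ⟨r, hr, h2⟩ := hp x (by rw [← closedBall_sdiff_ball]; exact ⟨hx, a⟩)
    have p2 : PLOn G (closedBall x (r / 2) ∩ (ball 0 1)ᶜ) :=
      (h2.mono fun y hy => closedBall_subset_ball (by linarith) hy.1).congr fun y hy => g2 y hy.2
    refine PLAt.of_nhds ?_ (p1.union p2 isClosed_closedBall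
      (isClosed_closedBall.inter isOpen_ball.isClosed_compl))
    filter_upwards [closedBall_mem_nhds x (show 0 < r / 2 by linarith)] with y hy
    by_cases b : y ∈ ball (0 : ℝ × ℝ) 1
    exacts [Or.inl (ball_subset_closedBall b), Or.inr ⟨hy, b⟩]

theorem ray {p : ℝ × ℝ} (hp : PLAt H p) (v : ℝ × ℝ) : ∃ ε : ℝ, 0 < ε ∧ ε ≤ 1 ∧
    ∀ z ∈ segment ℝ (H p) (H (p + ε • v)), ∃ t ∈ Icc 0 ε, z = H (p + t • v) := by
  obtain ⟨r, S, Hc, hr, hc, h⟩ := (str_iff (Om := {p}).2 fun x hx => hx ▸ hp).conic (mem_singleton p)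
  have h0 : 0 < r / (‖v‖ + 1) := by positivity
  have key : ∀ t : ℝ, 0 ≤ t → t ≤ r / (‖v‖ + 1) → H (p + t • v) = H p + t • Hc v := by
    intro t t0 t1
    rw [h _ ?_, hc.homog t v t0]
    rw [le_div_iff₀ (by positivity)] at t1
    rw [norm_smul, Real.norm_of_nonneg t0]
    rcases t0.eq_or_lt with rfl | t0
    · simpa using hr
    · nlinarith
  set ε := min (r / (‖v‖ + 1)) 1 with hε
  have e0 : 0 < ε := lt_min h0 one_pos
  have e1 : ε ≤ r / (‖v‖ + 1) := min_le_left _ _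
  refine ⟨ε, e0, min_le_right _ _, ?_⟩
  rintro z ⟨a, b, ha, hb, hab, rfl⟩
  have hb1 : b * ε ≤ ε := by nlinarith
  refine ⟨b * ε, ⟨by positivity, hb1⟩, ?_⟩
  rw [key ε e0.le e1, key _ (by positivity) (hb1.trans e1), smul_add, ← add_assoc, ← add_smul, hab,
    one_smul, smul_smul]

/-- one rung of the ladder -/
theorem rung (hH : IsOpenEmbedding H) (hp : ∀ x : ℝ × ℝ, |x.1| = 1 → PLAt H x) (n : ℝ) :
    ∃ a : ℝ → ℝ × ℝ, PLOn (fun t => H (a t)) (Icc (-1) 1) ∧ InjOn a (Icc (-1) 1) ∧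
      (∀ t, |t| = 1 → a t = (t, n)) ∧ (∀ t, |t| < 1 → |(a t).1| < 1) ∧
      ∀ t, |t| ≤ 1 → |(a t).2 - n| < 1 / 3 := by
  set O := H '' (Ioo (-1) 1 ×ˢ Ioo (n - 1 / 3) (n + 1 / 3)) with hOd
  have hO : IsOpen O := hH.isOpenMap _ (isOpen_Ioo.prod isOpen_Ioo)
  have hOc : IsPreconnected O :=
    (isPreconnected_Ioo.prod isPreconnected_Ioo).image H hH.continuous.continuousOn
  have ha : H (-1, n) ∉ O := by
    rintro ⟨y, hy, e⟩
    rw [hH.injective e] at hy
    exact lt_irrefl _ hy.1.1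
  have hm : ∀ t : ℝ, -1 < t → t < 1 → H (t, n) ∈ O := fun t a b =>
    ⟨_, ⟨⟨a, b⟩, by constructor <;> linarith⟩, rfl⟩
  obtain ⟨ε, e0, e1, e2⟩ := ray (hp (-1, n) (by simp)) (1, 0)
  obtain ⟨η, f0, f1, f2⟩ := ray (hp (1, n) (by simp)) (-1, 0)
  simp only [Prod.smul_mk, smul_eq_mul, mul_one, mul_zero, Prod.mk_add_mk, add_zero, mul_neg] at e2 f2
  have r0 : Rch (H (-1, n)) O (H (-1 + ε, n)) := by
    refine rch_seg (fun e => ?_) fun z hz h1 _ => ?_
    · have := congrArg Prod.fst (hH.injective e)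
      simp only at this; linarith
    · obtain ⟨t, ht, rfl⟩ := e2 z hz
      have : t ≠ 0 := fun c => h1 (by rw [c, add_zero])
      exact hm _ (by linarith [ht.1.lt_of_ne this.symm]) (by linarith [ht.2])
  have o1 : IsOpen {y | y ∈ O ∧ Rch (H (-1, n)) O y} := isOpen_iff_mem_nhds.2 fun y hy => by
    filter_upwards [rch_ball hO ha hy.1] with z hz using ⟨hz.1, hz.2.2 hy.2⟩
  have o2 : IsOpen {y | y ∈ O ∧ ¬Rch (H (-1, n)) O y} := isOpen_iff_mem_nhds.2 fun y hy => by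
    filter_upwards [rch_ball hO ha hy.1] with z hz using ⟨hz.1, fun h => hy.2 (hz.2.1 h)⟩
  have r1 : Rch (H (-1, n)) O (H (1 + -η, n)) := by
    rcases hOc.subset_or_subset o1 o2 (disjoint_left.2 fun y a b => b.2 a.2) (fun y hy => by
      by_cases c : Rch (H (-1, n)) O y
      exacts [Or.inl ⟨hy, c⟩, Or.inr ⟨hy, c⟩]) with c | c
    · exact (c (hm _ (by linarith) (by linarith))).2
    · exact absurd r0 (c (hm _ (by linarith) (by linarith))).2
  have r2 : Rch (H (-1, n)) O (H (1, n)) := by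
    refine r1.step (fun h => ?_) fun z hz h1 => ?_
    · obtain ⟨t, ht, e⟩ := f2 _ (by rwa [segment_symm])
      have := congrArg Prod.fst (hH.injective e)
      simp only at this; linarith [ht.2]
    · obtain ⟨t, ht, rfl⟩ := f2 z (by rwa [segment_symm])
      have : t ≠ 0 := fun c => h1 (by rw [c, neg_zero, add_zero])
      exact hm _ (by linarith [ht.2]) (by linarith [ht.1.lt_of_ne this.symm])
  obtain ⟨L, hL, γ, h1, h2, h3, h4, h5⟩ := r2
  have hI : MapsTo (fun t : ℝ => L / 2 * (t + 1)) (Icc (-1) 1) (Icc 0 L) := fun t ht =>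
    ⟨by nlinarith [ht.1], by nlinarith [ht.2]⟩
  have hI' : ∀ t : ℝ, |t| < 1 → γ (L / 2 * (t + 1)) ∈ O := fun t ht =>
    h5 _ ⟨by nlinarith [(abs_lt.1 ht).1], by nlinarith [(abs_lt.1 ht).2]⟩
  have hE : ∀ t : ℝ, |t| = 1 → γ (L / 2 * (t + 1)) = H (t, n) := fun t ht => by
    rcases (abs_eq zero_le_one).1 ht with rfl | rfl
    · rw [← h4]; congr 1; ring
    · rw [← h3]; congr 1; ring
  have hR : ∀ t : ℝ, |t| ≤ 1 → H (invFun H (γ (L / 2 * (t + 1)))) = γ (L / 2 * (t + 1)) := by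
    intro t ht
    refine invFun_eq ?_
    rcases ht.eq_or_lt with c | c
    exacts [⟨_, (hE t c).symm⟩, image_subset_range _ _ (hI' t c)]
  have hin : ∀ t : ℝ, |t| < 1 →
      invFun H (γ (L / 2 * (t + 1))) ∈ Ioo (-1 : ℝ) 1 ×ˢ Ioo (n - 1 / 3) (n + 1 / 3) := fun t ht => by
    obtain ⟨y, hy, e⟩ := hI' t ht
    rwa [← e, leftInverse_invFun hH.injective]
  have hE' : ∀ t : ℝ, |t| = 1 → invFun H (γ (L / 2 * (t + 1))) = (t, n) := fun t ht => by
    rw [hE t ht, leftInverse_invFun hH.injective]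
  refine ⟨fun t => invFun H (γ (L / 2 * (t + 1))), (h1.comp (pl_mul _ (pl_add (plOn_id _)
    (plOn_const _ _))) hI).congr fun t ht => hR t (abs_le.2 ht), fun s hs t ht e => ?_, hE',
    fun t ht => abs_lt.2 (hin t ht).1, fun t ht => ?_⟩
  · have e' := congrArg H e
    simp only [hR s (abs_le.2 hs), hR t (abs_le.2 ht)] at e'
    have h6 : L / 2 * (s + 1) = L / 2 * (t + 1) := h2 (hI hs) (hI ht) e'
    have := mul_left_cancel₀ (by positivity) h6
    linarith
  · rcases ht.eq_or_lt with c | c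
    · simp only [hE' t c]; norm_num
    · have := (hin t c).2
      rw [abs_lt]; constructor <;> linarith [this.1, this.2]

end Crest.Agent.X212.Sm25
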